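import Vale.Agent.P282Y.Loc

/-!
# P282Y: every valuation has a center on a log smooth model
-/

open scoped NNReal
open IsLocalRing Vale.Agent.P282.Gap

noncomputable section

namespace Vale.Agent.P282Y

namespace ChartH

variable {R K : Type} [CommRing R] [IsDomain R] [IsLocalRing R] [Algebra ℂ R] [Field K]
  [Algebra ℂ K] [Algebra R K] [IsScalarTower ℂ R K]

omit [IsDomain R] [IsLocalRing R] [Algebra ℂ R] [Algebra ℂ K] [IsScalarTower ℂ R K] in
theorem unit_val {Γ : Type} [LinearOrderedCommGroupWithZero Γ] {v : Valuation K Γ}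
    (hv : ∀ f : R, v (algebraMap R K f) ≤ 1) {f : R} (hf : IsUnit f) :
    v (algebraMap R K f) = 1 := by
  obtain ⟨g, hg⟩ := hf.exists_right_inv
  refine le_antisymm (hv f) ?_
  have : v (algebraMap R K f) * v (algebraMap R K g) = 1 := by
    rw [← map_mul, ← map_mul, hg, map_one, map_one]
  calc 1 = _ := this.symm
    _ ≤ _ := mul_le_of_le_one_right' (hv g)

omit [IsDomain R] in
/-- a refinement of `v` with the residue field `ℂ` -/
theorem refine (hC : StCHEV) (hres : Function.Surjective (algebraMap ℂ (ResidueField R)))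
    (v : Valuation K ℝ≥0) (hv : ∀ f : R, v (algebraMap R K f) ≤ 1) :
    ∃ O : ValuationSubring K, Zd O.valuation ∧ (∀ f : R, O.valuation (algebraMap R K f) ≤ 1) ∧
      ∀ a, O.valuation a ≤ 1 → v a ≤ 1 := by
  have hm : ∀ (a b : K) (f g : R), v (a - algebraMap R K f) < 1 → v (b - algebraMap R K g) < 1 →
      v (a * b - algebraMap R K (f * g)) < 1 := fun a b f g h1 h2 => by
    have h3 : v a ≤ 1 := by simpa using v.map_add_le h1.le (hv f)
    rw [show a * b - algebraMap R K (f * g) = (b - algebraMap R K g) * a +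
      (a - algebraMap R K f) * algebraMap R K g by rw [map_mul]; ring]
    refine v.map_add_lt ?_ ?_ <;> rw [map_mul]
    · exact (mul_le_of_le_one_right' h3).trans_lt h2
    · exact (mul_le_of_le_one_right' (hv g)).trans_lt h1
  have ha : ∀ (a b : K) (f g : R), v (a - algebraMap R K f) < 1 → v (b - algebraMap R K g) < 1 →
      v (a + b - algebraMap R K (f + g)) < 1 := fun a b f g h1 h2 => by
    rw [show a + b - algebraMap R K (f + g) = (a - algebraMap R K f) + (b - algebraMap R K g) by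
      rw [map_add]; ring]
    exact v.map_add_lt h1 h2
  let A : Subalgebra ℂ K :=
    { carrier := {a | ∃ f : R, v (a - algebraMap R K f) < 1}
      mul_mem' := fun ⟨f, hf⟩ ⟨g, hg⟩ => ⟨_, hm _ _ f g hf hg⟩
      add_mem' := fun ⟨f, hf⟩ ⟨g, hg⟩ => ⟨_, ha _ _ f g hf hg⟩
      algebraMap_mem' := fun c => ⟨algebraMap ℂ R c, by
        rw [← IsScalarTower.algebraMap_apply, sub_self, map_zero]; exact zero_lt_one⟩ }
  let I : Ideal A :=
    { carrier := {a | ∃ f ∈ maximalIdeal R, v ((a : K) - algebraMap R K f) < 1}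
      add_mem' := fun ⟨f, hf, hf'⟩ ⟨g, hg, hg'⟩ => ⟨_, add_mem hf hg, ha _ _ f g hf' hg'⟩
      zero_mem' := ⟨0, zero_mem _, by simp⟩
      smul_mem' := fun a b ⟨g, hg, hg'⟩ => by
        obtain ⟨f, hf⟩ := a.2
        exact ⟨_, Ideal.mul_mem_left _ f hg, hm _ _ f g hf hg'⟩ }
  obtain ⟨O, h1, h2⟩ := hC K A I (fun h0 => by
      obtain ⟨f, hf, hf'⟩ : (1 : A) ∈ I := h0 ▸ Submodule.mem_top
      have := unit_val hv (isUnit_one_sub_self_of_mem_nonunits f hf)
      rw [map_sub, map_one] at this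
      exact hf'.ne this) fun a => by
    obtain ⟨f, hf⟩ := a.2
    obtain ⟨c, hc⟩ := hres (residue R f)
    refine ⟨c, f - algebraMap ℂ R c, ?_, ?_⟩
    · rw [← residue_eq_zero_iff, map_sub, ← hc, sub_eq_zero]
      rfl
    · rw [map_sub (algebraMap R K), ← IsScalarTower.algebraMap_apply]
      simpa using hf
  refine ⟨O, h1, fun f => (h2 ⟨_, f, by simp⟩).1, fun a h3 => le_of_not_gt fun h4 => ?_⟩
  have h5 : v a⁻¹ < 1 := by
    rw [map_inv₀]
    exact inv_lt_one_of_one_lt₀ h4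
  have h6 := (h2 ⟨a⁻¹, 0, by simpa using h5⟩).2.2 ⟨0, zero_mem _, by simpa using h5⟩
  have h7 : a ≠ 0 := by rintro rfl; simp at h4
  rw [map_inv₀, inv_lt_one₀ (zero_lt_iff.2 ((map_ne_zero _).2 h7))] at h6
  exact h6.not_ge h3

end ChartH

theorem UM.mem {Ω : Type} [Field Ω] [Algebra ℂ Ω] {Γ : Type} [LinearOrderedCommGroupWithZero Γ]
    {N : ℕ} {v : Valuation Ω Γ} {h : Set Ω} {y : Fin N → Loc v h} {c : Fin N → ℕ} {a : Ω}
    (ha : UM v h y (fun l => c l) a) : a ∈ Loc v h := by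
  obtain ⟨u, hu, -, rfl⟩ := ha
  exact mul_mem hu (prod_mem fun l _ => by simpa using pow_mem (y l).2 (c l))

theorem IsGerm.trdeg {R K : Type} [CommRing R] [IsDomain R] [IsLocalRing R] [Algebra ℂ R] [Field K]
    [Algebra ℂ K] [Algebra R K] [IsFractionRing R K] [IsScalarTower ℂ R K] {n r : ℕ}
    {ω : (Fin n → Derivation ℂ K K) → K} (H : IsGerm R n r ω) :
    Algebra.EssFiniteType ℂ K ∧ Algebra.trdeg ℂ K = n := by
  have := H.essFiniteType
  have := Algebra.EssFiniteType.of_isLocalization K (nonZeroDivisors R)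
  have := IsLocalization.isAlgebraic K (nonZeroDivisors R)
  refine ⟨Algebra.EssFiniteType.comp ℂ R K, ?_⟩
  rw [← trdeg_add_eq ℂ R (A := K), H.dim, trdeg_eq_zero, add_zero]

theorem chart (hC : StCHEV) (hL : StLU) (hM : StMONO) (hP : StPRIME) : StCHART := by
  intro R K _ _ _ _ _ _ _ _ _ n r ω H v Φ hv hΦ h0
  classical
  obtain ⟨O, hz, hR, hO⟩ := ChartH.refine hC H.residue v hv
  obtain ⟨h₀, _, y₀, d₀, hf₀, hq⟩ := hL K _ O.valuation n hz H.trdeg.1 H.trdeg.2
  obtain ⟨⟨D₀, hD₀⟩, g, b, hω⟩ := H.form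
  have hω' : ∀ D, ω D = g * jac d₀ b ^ r * jac D (fun l => (y₀ l : K)) ^ r := fun D => by
    rw [hω, mul_assoc, ← mul_pow, mul_comm (jac d₀ b), ← hf₀.du.chain]
    rfl
  have hg : g * jac d₀ b ^ r ≠ 0 := fun h1 => hD₀ (by rw [hω', h1, zero_mul])
  obtain ⟨σ, hσ⟩ := (Algebra.essFiniteType_iff ℂ R).1 H.essFiniteType
  set Ψ : Set K := insert (g * jac d₀ b ^ r) (Φ ∪ algebraMap R K '' σ) with hΨ
  have hΨf : Ψ.Finite := (hΦ.union (σ.finite_toSet.image _)).insert _
  obtain ⟨h, _, y, d, hf, -, h1, c, h2⟩ := hM K _ O.valuation h₀ n y₀ d₀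
    {a | (a ∈ Ψ ∨ a ∈ Ψ⁻¹) ∧ a ≠ 0 ∧ O.valuation a ≤ 1} hf₀
    ((hΨf.union hΨf.inv).subset fun a ha => ha.1) fun a ha => by
      obtain ⟨p, hp, q, hq, h1, h2⟩ := hq a
      exact ⟨ha.2.2, p, hp, q, hq, h2 ▸ mul_ne_zero ha.2.1 h1, h1, h2⟩
  have h3 : ∀ a ∈ Ψ, a ≠ 0 → (∃ c : Fin n → ℕ, UM O.valuation h y (fun l => c l) a) ∨
      ∃ c : Fin n → ℕ, UM O.valuation h y (fun l => c l) a⁻¹ := fun a ha ha0 => by
    rcases le_total (O.valuation a) 1 with h3 | h3
    · exact Or.inl (h1 a ⟨Or.inl ha, ha0, h3⟩)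
    · exact Or.inr (h1 a⁻¹ ⟨Or.inr (by simpa using ha), inv_ne_zero ha0, by
        rw [map_inv₀]; exact inv_le_one_of_one_le₀ h3⟩)
  obtain ⟨α, hα⟩ : ∃ α, UM O.valuation h y α (g * jac d₀ b ^ r) := by
    rcases h3 _ (Set.mem_insert _ _) hg with ⟨c, hc⟩ | ⟨c, hc⟩
    · exact ⟨_, hc⟩
    · exact ⟨_, by simpa using hc.zpow (-1)⟩
  obtain ⟨u, hu, hu1, hu2⟩ := hα.mul hf.du.ne_zero (h2.zpow r)
  have h4 : ∀ f ∈ Algebra.adjoin ℂ (σ : Set R), algebraMap R K f ∈ Loc O.valuation h := by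
    intro f hf
    refine (Algebra.adjoin_le (S := (Loc O.valuation h).comap (IsScalarTower.toAlgHom ℂ R K))
      fun f hf => ?_) hf
    show algebraMap R K f ∈ Loc O.valuation h
    by_cases h5 : algebraMap R K f = 0
    · exact h5 ▸ zero_mem _
    · obtain ⟨c, hc⟩ := h1 _ ⟨Or.inl (Or.inr (Or.inr ⟨f, hf, rfl⟩)), h5, hR f⟩
      exact hc.mem
  have := (hP _ n y _ hf.afr).2.2
  refine ⟨{ S := Loc O.valuation h
            essFiniteType := Md.ess
            residue := fun a => ?_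
            above := fun f => ?_
            y := y
            span := hf.span
            J := Finset.univ
            m := α + (r : ℤ) • c
            supp := fun i hi => absurd (Finset.mem_univ i) hi
            u := ((isUnit_Loc ⟨u, hu⟩).2 hu1).unit
            form := fun D => ?_ }, rfl, fun s => hO _ (Md.loc_le s.2), fun a ha => ?_⟩
  · obtain ⟨a, rfl⟩ := residue_surjective a
    obtain ⟨c, hc⟩ := Md.res a
    refine ⟨c, ?_⟩
    rw [← residue_eq_zero_iff, map_sub, sub_eq_zero] at hc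
    exact hc.symm
  · obtain ⟨t, ht, ht1, ht2⟩ := hσ f
    have h5 := ChartH.unit_val hR ht1
    have h6 : algebraMap R K t ≠ 0 := fun h6 => by simp [h6] at h5
    simpa [h6] using mul_mem (h4 _ ht2) (inv_mem_Loc (h4 _ ht) h5)
  · rw [hω', hf.du.chain D, IsUnit.unit_spec, ← hu2, zpow_natCast]
    ring
  · refine (h3 a (Or.inr (Or.inl ha)) fun h5 => h0 (h5 ▸ ha)).imp ?_ ?_ <;>
    · rintro ⟨c, u, hu, hu1, hu2⟩
      exact ⟨((isUnit_Loc ⟨u, hu⟩).2 hu1).unit, c, by simpa using hu2⟩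

end Vale.Agent.P282Y
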