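import Vale.Agent.P282Y.Sk

/-!
# P282Y: comparison of the intrinsic log discrepancy with the discrepancies of the charts
-/

open scoped NNReal
open Vale.Agent.P282.Gap

set_option linter.unusedSectionVars false

noncomputable section

namespace Vale.Agent.P282Y

namespace Cmp

variable {K : Type} [Field K] [Algebra ℂ K] {v : Valuation K ℝ≥0}

section G

variable {L : Derivation ℂ K K} {a b : K}

variable (v L a) in
/-- `L` does not increase the value of `a` -/
def G : Prop := v (L a) ≤ v a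

theorem G.mul (ha : G v L a) (hb : G v L b) : G v L (a * b) := by
  unfold G at *
  rw [L.leibniz, smul_eq_mul, smul_eq_mul]
  refine v.map_add_le ?_ ?_ <;> rw [map_mul, map_mul]
  · exact mul_le_mul_right hb _
  · rw [mul_comm]
    exact mul_le_mul_left ha _

theorem G.one : G v L 1 := by simp [G]

theorem G.prod {ι : Type} {s : Finset ι} {f : ι → K} (h : ∀ i ∈ s, G v L (f i)) :
    G v L (∏ i ∈ s, f i) :=
  Finset.prod_induction f _ (fun _ _ => G.mul) G.one h

theorem G.pow (ha : G v L a) (k : ℕ) : G v L (a ^ k) := by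
  simpa using G.prod (s := Finset.range k) (f := fun _ => a) fun _ _ => ha

theorem G.inv (ha : G v L a) : G v L a⁻¹ := by
  unfold G at *
  rcases eq_or_ne a 0 with rfl | h0
  · simp
  rw [L.leibniz_inv, smul_eq_mul, map_mul, Valuation.map_neg, map_pow]
  refine (mul_le_mul_right ha _).trans_eq ?_
  rw [← map_pow, ← map_mul, sq, mul_assoc, inv_mul_cancel₀ h0, mul_one]

end G

variable {R : Type} [CommRing R] [IsDomain R] [IsLocalRing R] [Algebra ℂ R] [Algebra R K]
  {n r : ℕ} {ω : (Fin n → Derivation ℂ K K) → K} (c : SncChart R n r ω)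
  {d : Fin n → Derivation ℂ K K}

/-- the equations of the boundary -/
def lm (i : Fin n) : K := if i ∈ c.J then c.y i else 1

variable (d) in
/-- the logarithmic vector fields -/
def Lg (i : Fin n) : Derivation ℂ K K := lm c i • d i

variable {c}

theorem unit (hv : c.Sees v) (u : c.Sˣ) : v ((u : c.S) : K) = 1 := by
  have h1 : v ((u : c.S) : K) * v ((u⁻¹ : c.Sˣ) : c.S) = 1 := by
    rw [← map_mul, ← MulMemClass.coe_mul, u.mul_inv]
    simp
  exact le_antisymm (hv _) (h1.symm.trans_le (mul_le_of_le_one_right' (hv _)))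

theorem y_ne (hd : Du (fun i => (c.y i : K)) d) (i : Fin n) : (c.y i : K) ≠ 0 := fun h => by
  simpa [h] using hd.dual i i

theorem pres (hp : ∀ i, ∀ a ∈ c.S, d i a ∈ c.S) (i : Fin n) (a : c.S) : Lg c d i a ∈ c.S := by
  refine mul_mem ?_ (hp i a a.2)
  unfold lm
  split_ifs
  exacts [(c.y i).2, one_mem _]

theorem G_y (hd : Du (fun i => (c.y i : K)) d) (i : Fin n) {j : Fin n} (hj : j ∈ c.J) :
    G v (Lg c d i) (c.y j) := by
  rcases eq_or_ne i j with rfl | h
  · simp [G, Lg, lm, hd.dual, hj]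
  · simp [G, Lg, hd.dual, h]

theorem log_eq (hr : 0 < r) (hv : c.Sees v) (hd : Du (fun i => (c.y i : K)) d) {l : Fin n → K}
    (hl : ∀ i, l i ≠ 0) :
    -Real.log (v (((c.u : c.S) : K) * (∏ i, (c.y i : K) ^ c.m i) * (∏ i, l i) ^ r)) / r =
      ∑ i, (-Real.log (v (l i)) - Real.log (v (c.y i)) * (c.m i / r)) := by
  have h1 (a : K) (ha : a ≠ 0) : (v a : ℝ) ≠ 0 := by simpa using ha
  have h2 : (r : ℝ) ≠ 0 := by positivity
  simp only [map_mul, unit hv, one_mul, map_prod, map_pow, map_zpow₀, NNReal.coe_mul,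
    NNReal.coe_prod, NNReal.coe_pow, NNReal.coe_zpow]
  rw [Real.log_mul (Finset.prod_ne_zero_iff.2 fun i _ => zpow_ne_zero _ (h1 _ (y_ne hd i)))
    (pow_ne_zero _ (Finset.prod_ne_zero_iff.2 fun i _ => h1 _ (hl i))), Real.log_pow,
    Real.log_prod fun i _ => zpow_ne_zero _ (h1 _ (y_ne hd i)),
    Real.log_prod fun i _ => h1 _ (hl i), Finset.mul_sum, ← Finset.sum_add_distrib,
    ← Finset.sum_neg_distrib, Finset.sum_div]
  refine Finset.sum_congr rfl fun i _ => ?_
  rw [Real.log_zpow]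
  field_simp
  ring

theorem core (hr : 0 < r) (hv : c.Sees v) (hd : Du (fun i => (c.y i : K)) d) {b : Fin n → K}
    {h : K} (hb : ∀ i, b i ≠ 0) (hG : ∀ i j, G v (Lg c d i) (b j))
    (he : ∀ D, (∏ i, b i) ^ r * ω D = h * jac D b ^ r) : -Real.log (v h) / r ≤ c.discr v := by
  have hl (i : Fin n) : lm c i ≠ 0 := by
    unfold lm
    split_ifs
    exacts [y_ne hd i, one_ne_zero]
  have h1 : jac (Lg c d) (fun i => (c.y i : K)) = ∏ i, lm c i := by
    rw [← Matrix.det_diagonal, jac]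
    congr 1
    ext i j
    simp [Lg, hd.dual, Matrix.diagonal_apply]
  have h2 : v (jac (Lg c d) b) ≤ v (∏ i, b i) := by
    rw [jac, Matrix.det_apply']
    refine v.map_sum_le fun σ _ => ?_
    rw [map_mul, map_prod, map_prod]
    exact (mul_le_of_le_one_left' (intCast_mem v.integer _)).trans
      (Finset.prod_le_prod' fun i _ => hG _ _)
  have h3 := congrArg v (he (Lg c d))
  rw [c.form, h1, map_mul, map_mul v h, map_pow, map_pow v (jac _ _)] at h3
  have h4 : 0 < v (∏ i, b i) ^ r :=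
    pow_pos (v.pos_iff.2 (Finset.prod_ne_zero_iff.2 fun i _ => hb i)) _
  have h5 := le_of_mul_le_mul_left (h3.le.trans ((mul_le_mul_right (pow_le_pow_left' h2 r) _).trans_eq
    (mul_comm _ _))) h4
  have h6 : c.discr v = ∑ i, (-Real.log (v (lm c i)) - Real.log (v (c.y i)) * (c.m i / r)) := by
    rw [← Finset.sum_subset c.J.subset_univ fun i _ hi => by simp [lm, hi, c.supp i hi]]
    refine Finset.sum_congr rfl fun i hi => ?_
    rw [lm, if_pos hi]
    ring
  rw [h6, ← log_eq hr hv hd hl]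
  refine div_le_div_of_nonneg_right (neg_le_neg (Real.log_le_log ?_ h5)) r.cast_nonneg
  exact v.pos_iff.2 (mul_ne_zero (mul_ne_zero (by simp)
    (Finset.prod_ne_zero_iff.2 fun i _ => zpow_ne_zero _ (y_ne hd i)))
    (pow_ne_zero _ (Finset.prod_ne_zero_iff.2 fun i _ => hl i)))

theorem mono (hv : c.Monomial v) (hd : Du (fun i => (c.y i : K)) d)
    (hp : ∀ i, ∀ a ∈ c.S, d i a ∈ c.S) (i : Fin n) (f : c.S) : G v (Lg c d i) f := by
  have key (x : c.S) (hx : x ∈ Ideal.span
      {x : c.S | v x ≤ v f ∧ ∃ β : Fin n → ℕ, x = ∏ i ∈ c.J, c.y i ^ β i}) :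
      v x ≤ v f ∧ v (Lg c d i x) ≤ v f := by
    induction hx using Submodule.span_induction with
    | mem x hx =>
      obtain ⟨h1, β, rfl⟩ := hx
      refine ⟨h1, le_trans ?_ h1⟩
      simp only [SubmonoidClass.coe_finsetProd, SubmonoidClass.coe_pow]
      exact G.prod fun j hj => (G_y hd i hj).pow _
    | zero => simp
    | add x y _ _ h1 h2 =>
      rw [AddMemClass.coe_add, map_add (Lg c d i)]
      exact ⟨v.map_add_le h1.1 h2.1, v.map_add_le h1.2 h2.2⟩
    | smul s x _ h1 =>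
      rw [smul_eq_mul, MulMemClass.coe_mul, Derivation.leibniz, smul_eq_mul, smul_eq_mul, map_mul]
      refine ⟨(mul_le_of_le_one_left' (hv.1 s)).trans h1.1, v.map_add_le ?_ ?_⟩ <;> rw [map_mul]
      · exact (mul_le_of_le_one_left' (hv.1 s)).trans h1.2
      · exact (mul_le_of_le_one_right' (hv.1 ⟨_, pres hp i s⟩)).trans h1.1
  exact (key f (hv.2 f)).2

theorem nm (hJ : c.J = Finset.univ) (hv : c.Sees v) (hd : Du (fun i => (c.y i : K)) d)
    (hp : ∀ i, ∀ a ∈ c.S, d i a ∈ c.S) (i : Fin n) {a : K} (ha : SncChart.NM c a) :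
    G v (Lg c d i) a := by
  obtain ⟨u, e, rfl⟩ := ha
  exact G.mul ((hv ⟨_, pres hp i u⟩).trans (unit hv u).ge)
    (G.prod fun j _ => (G_y hd i (hJ ▸ Finset.mem_univ j)).pow _)

end Cmp

open Cmp

theorem cmp (hF : StCFR) (hC : StCHART) : StCMP := fun R K _ _ _ _ _ _ _ _ _ n r ω hk => by
  have hr := hk.index_pos
  refine ⟨fun c v hv => ?_, fun c v hv t ⟨b, h, h1, h2, h3⟩ => ?_, fun v hv t ⟨b, h, h1, h2, h3⟩ => ?_⟩
  · obtain ⟨⟨d, hd, -⟩, -⟩ := hF R K n r ω hk c
    refine ⟨_, ⟨fun i => c.y i, ((c.u : c.S) : K) * (∏ i, (c.y i : K) ^ c.m i) *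
      (∏ i, (c.y i : K)) ^ r, y_ne hd, fun D => ?_, rfl⟩, ?_⟩
    · rw [c.form, jac]
      ring
    rw [log_eq hr hv hd (y_ne hd)]
    refine (Finset.sum_congr rfl fun i _ => by ring).trans_le
      (Finset.sum_le_sum_of_subset_of_nonneg c.J.subset_univ fun i _ hi => ?_)
    simpa [c.supp i hi] using Real.log_nonpos (v (c.y i)).2 (hv _)
  · obtain ⟨⟨d, hd, hp⟩, -⟩ := hF R K n r ω hk c
    refine h3 ▸ core hr hv.1 hd h1 (fun i j => ?_) h2
    obtain ⟨p, q, -, k⟩ := IsFractionRing.div_surjective (A := R) (b j)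
    rw [← k, div_eq_mul_inv]
    exact (mono hv hd hp i ⟨_, c.above p⟩).mul (mono hv hd hp i ⟨_, c.above q⟩).inv
  · obtain ⟨c, k1, k2, k3⟩ := hC R K n r ω hk v (Set.range b) hv (Set.finite_range b)
      fun ⟨i, hi⟩ => h1 i hi
    obtain ⟨⟨d, hd, hp⟩, -⟩ := hF R K n r ω hk c
    refine ⟨c, k2, h3 ▸ core hr k2 hd h1 (fun i j => ?_) h2⟩
    exact (k3 _ ⟨j, rfl⟩).elim (nm k1 k2 hd hp i) fun k => inv_inv (b j) ▸ (nm k1 k2 hd hp i k).inv

end Vale.Agent.P282Y
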