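import Vale.Agent.P282Y.Loc

/-!
# P282Y: toric descent to the invariants
-/

open IsLocalRing

noncomputable section

namespace Vale.Agent.P282Y

namespace DescA

variable {Ω : Type} [Field Ω] [Algebra ℂ Ω] {Γ : Type} [LinearOrderedCommGroupWithZero Γ] {N : ℕ}
  {v : Valuation Ω Γ} {h : Set Ω} {y : Fin N → Loc v h}

theorem um_prod (hy : ∀ l, (y l : Ω) ≠ 0) {ι : Type} (s : Finset ι) {α : ι → Fin N → ℤ}
    {f : ι → Ω} (hf : ∀ i, UM v h y (α i) (f i)) : UM v h y (∑ i ∈ s, α i) (∏ i ∈ s, f i) := by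
  classical
  induction s using Finset.induction_on with
  | empty => simpa using UM.unit (y := y) (one_mem _) (map_one v)
  | insert i s hi ih =>
    rw [Finset.sum_insert hi, Finset.prod_insert hi]
    exact (hf i).mul hy ih

theorem um_ne (hy : ∀ l, (y l : Ω) ≠ 0) {α : Fin N → ℤ} {a : Ω} (ha : UM v h y α a) : a ≠ 0 := by
  obtain ⟨u, -, h1, rfl⟩ := ha
  exact mul_ne_zero (by rintro rfl; simp at h1)
    (Finset.prod_ne_zero_iff.2 fun l _ => zpow_ne_zero _ (hy l))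

theorem um_div (hy : ∀ l, (y l : Ω) ≠ 0) {α : Fin N → ℤ} {a b : Ω} (ha : UM v h y α a)
    (hb : UM v h y α b) : a * b⁻¹ ∈ Loc v h ∧ v (a * b⁻¹) = 1 := by
  obtain ⟨u, hu, h1, e⟩ := ha.mul hy (hb.zpow (-1))
  simp only [neg_smul, one_smul, add_neg_cancel, Pi.zero_apply, zpow_zero, Finset.prod_const_one,
    mul_one, zpow_neg, zpow_one] at e
  exact e ▸ ⟨hu, h1⟩

theorem um_span [Md v h] {c : Fin N → ℕ} {a : Ω} (ha : UM v h y (fun l => c l) a) (h1 : v a < 1) :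
    ∃ ha : a ∈ Loc v h, (⟨a, ha⟩ : Loc v h) ∈ Ideal.span (Set.range y) := by
  obtain ⟨u, hu, h2, rfl⟩ := ha
  obtain ⟨l, hl⟩ : ∃ l, c l ≠ 0 := by
    by_contra! k
    simp [k, h2] at h1
  have e : (((⟨u, hu⟩ : Loc v h) * ∏ l, y l ^ c l : Loc v h) : Ω) =
      u * ∏ l, (y l : Ω) ^ (c l : ℤ) := by simp
  refine ⟨e ▸ SetLike.coe_mem _, ?_⟩
  rw [show (⟨u * ∏ l, (y l : Ω) ^ (c l : ℤ), e ▸ SetLike.coe_mem _⟩ : Loc v h) =
    (⟨u, hu⟩ : Loc v h) * ∏ l, y l ^ c l from Subtype.ext e.symm]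
  exact Ideal.mul_mem_left _ _ (Ideal.prod_mem _ (Finset.mem_univ l)
    (Ideal.pow_mem_of_mem _ (Ideal.subset_span (Set.mem_range_self l)) _ (Nat.pos_of_ne_zero hl)))

theorem dlog_prod (D : Derivation ℂ Ω Ω) {ι : Type} (s : Finset ι) {f : ι → Ω}
    (hf : ∀ i, f i ≠ 0) : D (∏ i ∈ s, f i) = (∏ i ∈ s, f i) * ∑ i ∈ s, D (f i) * (f i)⁻¹ := by
  classical
  induction s using Finset.induction_on with
  | empty => simp
  | insert i s hi ih =>
    rw [Finset.sum_insert hi, Finset.prod_insert hi, D.leibniz, ih, smul_eq_mul, smul_eq_mul]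
    have := hf i
    field_simp
    ring

theorem dlog_zpow (D : Derivation ℂ Ω Ω) {a : Ω} (ha : a ≠ 0) (k : ℤ) :
    D (a ^ k) * (a ^ k)⁻¹ = k * (D a * a⁻¹) := by
  rw [D.leibniz_zpow, zpow_sub_one₀ ha, smul_eq_mul, zsmul_eq_mul]
  have := zpow_ne_zero k ha
  field_simp

/-- the logarithmic derivatives of a monomial -/
theorem dlog_um [Md v h] {d : Fin N → Derivation ℂ Ω Ω} (hf : Fr v h y d) {α : Fin N → ℤ} {a : Ω}
    (ha : UM v h y α a) (l : Fin N) : ∃ w : Loc v h, w - (α l : Loc v h) ∈ maximalIdeal _ ∧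
      d l a = (y l : Ω)⁻¹ * w * a := by
  obtain ⟨u, hu, h1, rfl⟩ := ha
  have hy := hf.du.ne_zero
  have hu0 : u ≠ 0 := by rintro rfl; simp at h1
  refine ⟨y l * ⟨d l u * u⁻¹, mul_mem (hf.pres l u hu) (inv_mem_Loc hu h1)⟩ + α l, ?_, ?_⟩
  · rw [add_sub_cancel_right]
    exact Ideal.mul_mem_right _ _ ((mem_max_Loc _).2 (hf.lt l))
  · rw [(d l).leibniz, dlog_prod _ _ fun m => zpow_ne_zero _ (hy m),
      Finset.sum_congr rfl fun m _ => dlog_zpow (d l) (hy m) (α m),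
      Finset.sum_eq_single l (fun m _ hm => by simp [hf.du.dual, hm.symm]) (by simp)]
    have := hy l
    simp only [hf.du.dual, if_true, smul_eq_mul, AddMemClass.coe_add, MulMemClass.coe_mul,
      SubringClass.coe_intCast]
    field_simp
    ring

/-- the Jacobian of monomials with independent exponents -/
theorem jac_um [Md v h] {d : Fin N → Derivation ℂ Ω Ω} (hf : Fr v h y d) {e : Fin N → Fin N → ℤ}
    {μ : Fin N → Ω} (hμ : ∀ j, UM v h y (e j) (μ j)) (he : (Matrix.of e).det ≠ 0) :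
    ∃ α, UM v h y α (jac d μ) := by
  have hy := hf.du.ne_zero
  choose w hw ew using fun l j => dlog_um hf (hμ j) l
  have h1 : IsUnit (Matrix.of w).det := by
    have h2 : IsUnit (((Matrix.of e).det : ℤ) : Loc v h) := by
      simpa using (IsUnit.mk0 (((Matrix.of e).det : ℤ) : ℂ) (Int.cast_ne_zero.2 he)).map
        (algebraMap ℂ (Loc v h))
    rw [← residue_ne_zero_iff_isUnit] at h2 ⊢
    rw [RingHom.map_det]
    rw [map_intCast, ← Matrix.det_transpose, ← eq_intCast (Int.castRingHom _), RingHom.map_det] at h2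
    refine fun k => h2 (Eq.trans (congrArg Matrix.det ?_) k)
    ext l j
    have := (residue_eq_zero_iff _).2 (hw l j)
    rw [map_sub, map_intCast, sub_eq_zero] at this
    simpa using this.symm
  have h3 : jac d μ = (((Matrix.of w).det : Loc v h) : Ω) * ((∏ l, (y l : Ω) ^ (-1 : ℤ)) * ∏ j, μ j) := by
    have h4 : (((Matrix.of w).det : Loc v h) : Ω) = (Matrix.of fun l j => (w l j : Ω)).det :=
      (Loc v h).val.toRingHom.map_det _
    have h5 : (Matrix.of fun l j => d l (μ j)) = Matrix.diagonal (fun l => (y l : Ω) ^ (-1 : ℤ)) *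
        (Matrix.of fun l j => (w l j : Ω)) * Matrix.diagonal μ := by
      ext l j
      simp [ew]
    rw [jac, h5, Matrix.det_mul, Matrix.det_mul, Matrix.det_diagonal, Matrix.det_diagonal, h4]
    ring
  exact ⟨_, h3 ▸ (UM.unit (SetLike.coe_mem _) ((isUnit_Loc _).1 h1)).mul hy
    ((um_prod hy _ fun l => (UM.single l).zpow (-1)).mul hy (um_prod hy _ hμ))⟩

theorem map_jac {d : Fin N → Derivation ℂ Ω Ω} (σ : Ω ≃ₐ[ℂ] Ω) {c : Fin N → ℂ}
    (hc : ∀ l a, σ (d l a) = algebraMap ℂ Ω (c l) * d l (σ a)) {b : Fin N → Ω}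
    (hb : ∀ l, σ (b l) = b l) : σ (jac d b) = (∏ l, algebraMap ℂ Ω (c l)) * jac d b := by
  rw [jac, ← Matrix.det_mul_column]
  refine (σ.toAlgHom.toRingHom.map_det _).trans (congrArg Matrix.det ?_)
  ext l j
  simpa [hb] using hc l (b j)

variable {G : Subgroup (Ω ≃ₐ[ℂ] Ω)}

/-- the exponents of the invariant monomials -/
def lat (S : St v G N) : AddSubgroup (Fin N → ℤ) where
  carrier := {α | ∃ μ, Fix G μ ∧ UM v S.h S.y α μ}
  add_mem' := fun ⟨_, h1, h2⟩ ⟨_, h3, h4⟩ => ⟨_, h1.mul h3, h2.mul S.y_ne h4⟩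
  zero_mem' := ⟨1, fun σ _ => map_one σ, UM.unit (one_mem _) (map_one v)⟩
  neg_mem' := fun ⟨_, h1, h2⟩ => ⟨_, h1.zpow (-1), by simpa using h2.zpow (-1)⟩

theorem lat_pow (S : St v G N) : ∃ k : ℕ, 0 < k ∧ ∀ l, Pi.single l (k : ℤ) ∈ lat S := by
  choose k hk e using fun l => (S.hy l).fix_pow
  refine ⟨∏ l, k l, Finset.prod_pos fun l _ => hk l, fun l => ?_⟩
  obtain ⟨q, hq⟩ := Finset.dvd_prod_of_mem k (Finset.mem_univ l)
  refine ⟨(S.y l : Ω) ^ ((∏ l, k l : ℕ) : ℤ), ?_, ?_⟩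
  · rw [hq, Nat.cast_mul, zpow_mul, zpow_natCast (S.y l : Ω)]
    exact (e l).zpow _
  · have := (UM.single (y := S.y) l).zpow ((∏ l, k l : ℕ) : ℤ)
    rwa [← Pi.single_smul, smul_eq_mul, mul_one] at this

end DescA

open DescA in
theorem desc (hP : StPER) (hG : StGRD) (hH : StHOM) : StDESC := by
  classical
  intro Ω _ _ Γ _ v G N S Φ b hΦ hΦ' hb hj
  have hy := S.y_ne
  have hzd := S.md.zd
  obtain ⟨⟨h₀, fin₀, hh₀, hfix⟩, Φ₀, finΦ, h0Φ, hcl⟩ := hG Ω Γ v G N S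
  obtain ⟨k, hk, hkM⟩ := lat_pow S
  choose! ex hex using fun a ha => (hΦ' a ha).2.2
  have hle : ∀ l, v (S.y l) ≤ 1 := fun l => (S.fr.lt l).le
  obtain ⟨e, he, hdet, hgen, hpos⟩ := hP Γ N (fun l => v (S.y l)) (lat S) k
    (ex '' Φ ∪ ((fun (α : Fin N → ℕ) l => (α l : ℤ)) '' Φ₀ ∩ lat S))
    (fun l => (Valuation.ne_zero_iff v).2 (hy l)) hk hkM
    ((hΦ.image _).union ((finΦ.image _).inter_of_left _)) (by
      rintro _ (⟨a, ha, rfl⟩ | ⟨⟨α, -, rfl⟩, h1⟩)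
      · exact ⟨⟨a, (hΦ' a ha).1, hex a ha⟩, (hex a ha).val ▸ (hΦ' a ha).2.1⟩
      · exact ⟨h1, Finset.prod_le_one' fun l _ => by
          rw [zpow_natCast]; exact pow_le_one' (hle l) _⟩)
  choose μ hμ hμe using fun j => (he j).1
  have hμv : ∀ j, v (μ j) = ∏ l, v (S.y l) ^ e j l := fun j => (hμe j).val
  have hμ1 : ∀ j, v (μ j) ≤ 1 := fun j => hμv j ▸ (he j).2
  have hμ0 : ∀ j, μ j ≠ 0 := fun j => um_ne hy (hμe j)
  have md : Md v (h₀ ∪ Set.range μ) := ⟨hzd, fin₀.union (Set.finite_range _), by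
    rintro a (ha | ⟨j, rfl⟩)
    exacts [Md.loc_le (hh₀ a ha).1, hμ1 j]⟩
  have hfix' : ∀ a ∈ Loc v S.h, Fix G a → a ∈ Loc v (h₀ ∪ Set.range μ) := fun a ha h1 =>
    Loc_mono (fun a ha => mem_Loc (Or.inl ha)) (hfix a ha h1)
  have hμL : ∀ j, μ j ∈ Loc v (h₀ ∪ Set.range μ) := fun j => mem_Loc (Or.inr ⟨j, rfl⟩)
  choose r hr hr0 using fun j => show ∃ c : ℂ, v (μ j - algebraMap ℂ Ω c) < 1 ∧
      (v (μ j) < 1 → c = 0) from by
    by_cases q : v (μ j) < 1
    · exact ⟨0, by simpa using q, fun _ => rfl⟩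
    · exact (hzd.res _ (hμ1 j)).imp fun c hc => ⟨hc, fun q' => absurd q' q⟩
  let η : Fin N → Loc v (h₀ ∪ Set.range μ) := fun j =>
    ⟨μ j - algebraMap ℂ Ω (r j), sub_mem (hμL j) (Subalgebra.algebraMap_mem _ _)⟩
  have key : ∀ (a : Ω) (c : Fin N → ℤ), Fix G a → UM v S.h S.y (∑ j, c j • e j) a →
      UM v _ η (fun j => if v (μ j) < 1 then c j else 0) a := fun a c ha h1 => by
    have h2 := um_prod hy Finset.univ fun j => (hμe j).zpow (c j)
    obtain ⟨h3, h4⟩ := um_div hy h1 h2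
    have h5 := hfix' _ h3 (ha.mul (Fix.prod fun j _ => (hμ j).zpow (c j)).inv)
    have h6 : ∀ j, UM v _ η (Pi.single j (if v (μ j) < 1 then c j else 0)) (μ j ^ c j) := fun j => by
      split_ifs with q
      · have := (UM.single (y := η) j).zpow (c j)
        rwa [← Pi.single_smul, smul_eq_mul, mul_one,
          show (η j : Ω) = μ j by simp [η, hr0 j q]] at this
      · have := (UM.unit (y := η) (hμL j) ((hμ1 j).eq_of_not_lt q)).zpow (c j)
        rwa [smul_zero, ← Pi.single_zero (M := fun _ => ℤ) j] at this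
    obtain ⟨u, hu, h7, h8⟩ : ∃ u ∈ Loc v (h₀ ∪ Set.range μ), v u = 1 ∧ ∏ j, μ j ^ c j =
        u * ∏ j, (η j : Ω) ^ (if v (μ j) < 1 then c j else 0) := by
      choose u hu h7 h8 using h6
      refine ⟨∏ j, u j, prod_mem fun j _ => hu j, by simp [map_prod, h7], ?_⟩
      rw [← Finset.prod_mul_distrib]
      refine Finset.prod_congr rfl fun j _ => ?_
      rw [h8 j, Finset.prod_eq_single j (fun m _ hm => by simp [hm]) (by simp), Pi.single_eq_same]
    refine ⟨_, mul_mem h5 hu, by rw [map_mul, h4, h7, one_mul], ?_⟩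
    rw [mul_assoc, ← h8, inv_mul_cancel_right₀ (um_ne hy h2)]
  have key' : ∀ (a : Ω) (α : Fin N → ℤ), Fix G a → UM v S.h S.y α a →
      α ∈ ex '' Φ ∪ ((fun (α : Fin N → ℕ) l => (α l : ℤ)) '' Φ₀ ∩ lat S) →
      ∃ c : Fin N → ℕ, UM v _ η (fun l => c l) a := fun a α ha h1 h2 => by
    obtain ⟨c, rfl, hc⟩ := hpos α h2
    refine ⟨fun j => (if v (μ j) < 1 then c j else 0).toNat, ?_⟩
    rw [show (fun j => (((if v (μ j) < 1 then c j else 0).toNat : ℕ) : ℤ)) =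
      fun j => if v (μ j) < 1 then c j else 0 from funext fun j => Int.toNat_of_nonneg (by
        split_ifs with q
        exacts [hc j (hμv j ▸ q), le_rfl])]
    exact key a c ha h1
  refine ⟨_, md, η, ?_, ?_, hfix', fun a ha => key' a _ (hΦ' a ha).1 (hex a ha) (Or.inl ⟨a, ha, rfl⟩),
    ?_⟩
  · rintro a (ha | ⟨j, rfl⟩)
    exacts [(hh₀ a ha).2, hμ j]
  · refine gen_max _ (Ideal.span_le.2 ?_) ?_
    · rintro _ ⟨j, rfl⟩
      exact (mem_max_Loc _).2 (hr j)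
    · rintro g (hg | ⟨j, rfl⟩)
      · obtain ⟨c, hc⟩ := hzd.res g (Md.loc_le (hh₀ g hg).1)
        have h1 := hcl _ (sub_mem (hh₀ g hg).1 (Subalgebra.algebraMap_mem _ c))
          ((hh₀ g hg).2.sub (Fix.const c)) hc
        suffices H : ∀ a ∈ AddSubmonoid.closure {t | ∃ s ∈ Loc v S.h, Fix G s ∧ ∃ α ∈ Φ₀, ∃ μ,
            Fix G μ ∧ UM v S.h S.y (fun l => α l) μ ∧ t = s * μ},
            ∃ ha : a ∈ Loc v (h₀ ∪ Set.range μ), (⟨a, ha⟩ : Loc v _) ∈ Ideal.span (Set.range η) from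
          ⟨c, (H _ h1).2⟩
        intro a ha
        induction ha using AddSubmonoid.closure_induction with
        | mem t ht =>
          obtain ⟨s, hs, h2, α, hα, m, h3, h4, rfl⟩ := ht
          obtain ⟨c, hc⟩ := key' m _ h3 h4 (Or.inr ⟨⟨α, hα, rfl⟩, m, h3, h4⟩)
          obtain ⟨l, hl⟩ : ∃ l, α l ≠ 0 := by
            by_contra! q
            exact h0Φ ((show α = 0 from funext q) ▸ hα)
          have h5 : v m < 1 := by
            rw [h4.val, ← Finset.mul_prod_erase _ _ (Finset.mem_univ l)]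
            refine (mul_le_of_le_one_right' (Finset.prod_le_one' fun l _ => ?_)).trans_lt ?_
            · rw [zpow_natCast]; exact pow_le_one' (hle l) _
            · rw [zpow_natCast]; exact pow_lt_one₀ zero_le (S.fr.lt l) hl
          obtain ⟨h6, h7⟩ := um_span hc h5
          exact ⟨mul_mem (hfix' s hs h2) h6, Ideal.mul_mem_left _ ⟨s, hfix' s hs h2⟩ h7⟩
        | zero => exact ⟨zero_mem _, zero_mem _⟩
        | add a b _ _ ha hb => exact ⟨add_mem ha.1 hb.1, add_mem ha.2 hb.2⟩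
      · exact ⟨r j, Ideal.subset_span ⟨j, rfl⟩⟩
  · obtain ⟨α, hα⟩ := hj
    obtain ⟨β, hβ⟩ := jac_um S.fr hμe hdet
    have h1 : ∀ D, (jac D fun l => (η l : Ω)) = jac D μ := fun D => by simp [jac, η]
    have h2 := hα.mul hy (hβ.zpow (-1))
    have h3 : Fix G (jac S.d b * jac S.d μ ^ (-1 : ℤ)) := fun σ hσ => by
      obtain ⟨c, hc, h4⟩ := ((hH Ω G).2 N _ S.d S.fr.du S.hy).2 σ hσ
      have h5 : (∏ l, algebraMap ℂ Ω (c l)) ≠ 0 :=
        Finset.prod_ne_zero_iff.2 fun l _ => by simpa using hc l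
      rw [map_mul, map_zpow₀, map_jac σ h4 fun l => hb l σ hσ, map_jac σ h4 fun l => hμ l σ hσ]
      simp only [zpow_neg, zpow_one, mul_inv]
      field_simp
    obtain ⟨c, hc⟩ := hgen _ ⟨_, h3, h2⟩
    refine ⟨_, _, key _ c h3 (hc ▸ h2), fun D => ?_⟩
    have := um_ne hy hβ
    rw [h1, S.fr.du.chain D b, S.fr.du.chain D μ]
    simp only [zpow_neg, zpow_one]
    field_simp

end Vale.Agent.P282Y
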