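import Vale.Agent.P282Y.Loc

/-!
# P282Y: the components of a chart are prime divisors
-/

open scoped NNReal
open IsLocalRing Vale.Agent.P282.Gap

namespace Vale.Agent.P282Y

namespace DiviAux

theorem val0 {S : Type} [CommRing S] [IsDomain S] [IsNoetherianRing S] {p : S} (hp : Prime p)
    {q : ℝ≥0} (h1 : q ≤ 1) :
    ∃ v : Valuation S ℝ≥0, ∀ (k : ℕ) (a : S), ¬ p ∣ a → v (p ^ k * a) = q ^ k := by
  classical
  have hm : ∀ (k : ℕ) (a : S), ¬ p ∣ a → multiplicity p (p ^ k * a) = k := fun k a ha =>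
    multiplicity_eq_of_dvd_of_not_dvd (dvd_mul_right _ _) fun h => ha <| by
      rwa [pow_succ, mul_dvd_mul_iff_left (pow_ne_zero k hp.ne_zero)] at h
  have hn : ∀ (k : ℕ) (a : S), ¬ p ∣ a → p ^ k * a ≠ 0 := fun k a ha =>
    mul_ne_zero (pow_ne_zero k hp.ne_zero) (by rintro rfl; exact ha (dvd_zero p))
  have key : ∀ (k : ℕ) (a : S), ¬ p ∣ a →
      (if p ^ k * a = 0 then 0 else q ^ multiplicity p (p ^ k * a)) = q ^ k := fun k a ha => by
    rw [if_neg (hn k a ha), hm k a ha]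
  refine ⟨{ toFun := fun a => if a = 0 then 0 else q ^ multiplicity p a
            map_zero' := if_pos rfl
            map_one' := by simpa using key 0 1 hp.not_dvd_one
            map_mul' := fun a b => ?_
            map_add_le_max' := fun a b => ?_ }, key⟩
  · rcases eq_or_ne a 0 with rfl | ha
    · simp
    rcases eq_or_ne b 0 with rfl | hb
    · simp
    obtain ⟨k, a, ha', rfl⟩ := WfDvdMonoid.max_power_factor' ha hp.not_isUnit
    obtain ⟨l, b, hb', rfl⟩ := WfDvdMonoid.max_power_factor' hb hp.not_isUnit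
    rw [key k a ha', key l b hb', show p ^ k * a * (p ^ l * b) = p ^ (k + l) * (a * b) by ring,
      key _ _ fun h => (hp.dvd_or_dvd h).elim ha' hb', pow_add]
  · rcases eq_or_ne a 0 with rfl | ha
    · simp
    rcases eq_or_ne b 0 with rfl | hb
    · simp
    rcases eq_or_ne (a + b) 0 with hc | hc
    · simp [hc]
    obtain ⟨m, c, hc', e⟩ := WfDvdMonoid.max_power_factor' hc hp.not_isUnit
    obtain ⟨k, a, ha', rfl⟩ := WfDvdMonoid.max_power_factor' ha hp.not_isUnit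
    obtain ⟨l, b, hb', rfl⟩ := WfDvdMonoid.max_power_factor' hb hp.not_isUnit
    change (if _ then _ else _) ≤ max (if _ then _ else _) (if _ then _ else _)
    rw [e, key k a ha', key l b hb', key m c hc']
    by_contra h
    rw [not_le, max_lt_iff] at h
    have hk : m + 1 ≤ k := not_le.1 fun h' => h.1.not_ge (pow_le_pow_of_le_one zero_le h1 h')
    have hl : m + 1 ≤ l := not_le.1 fun h' => h.2.not_ge (pow_le_pow_of_le_one zero_le h1 h')
    have : p ^ (m + 1) ∣ p ^ m * c :=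
      e ▸ dvd_add ((pow_dvd_pow p hk).mul_right _) ((pow_dvd_pow p hl).mul_right _)
    rw [pow_succ, mul_dvd_mul_iff_left (pow_ne_zero m hp.ne_zero)] at this
    exact hc' this

theorem val1 {K : Type} [Field K] [Algebra ℂ K] (S : Subalgebra ℂ K) [IsNoetherianRing S]
    (hS : ∀ z : K, ∃ x y : S, z = x / y) {p : S} (hp : Prime p) {q : ℝ≥0} (h0 : 0 < q)
    (h1 : q < 1) : ∃ w : Valuation K ℝ≥0, (∀ s : S, w s ≤ 1) ∧ (∀ s : S, w s < 1 ↔ p ∣ s) ∧
      w p = q ∧ (∀ x, w x < 1 → w x ≤ q) ∧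
      ∀ x, w x ≤ 1 → ∃ a b : S, w b = 1 ∧ x * b = a := by
  obtain ⟨v, hv⟩ := val0 hp h1.le
  have : IsFractionRing S K := IsFractionRing.of_field S K hS
  have hs : nonZeroDivisors S ≤ v.supp.primeCompl := fun a ha h => by
    obtain ⟨k, a, ha', rfl⟩ :=
      WfDvdMonoid.max_power_factor' (nonZeroDivisors.ne_zero ha) hp.not_isUnit
    exact (pow_pos h0 k).ne' ((hv k a ha').symm.trans ((Valuation.mem_supp_iff _ _).1 h))
  obtain ⟨w, hw⟩ : ∃ w : Valuation K ℝ≥0, ∀ s : S, w s = v s :=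
    ⟨v.extendToLocalization hs K, v.extendToLocalization_apply_map_apply hs K⟩
  have hu : ∀ a : S, ¬ p ∣ a → w a = 1 := fun a ha => by simpa [hw] using hv 0 a ha
  have hq : w p = q := by simpa [hw] using hv 1 1 hp.not_dvd_one
  have hle : ∀ s : S, w s ≤ 1 := fun s => by
    rcases eq_or_ne s 0 with rfl | h
    · simp
    obtain ⟨k, a, ha', rfl⟩ := WfDvdMonoid.max_power_factor' h hp.not_isUnit
    rw [hw, hv k a ha']
    exact pow_le_one₀ zero_le h1.le
  have hd : ∀ s : S, p ∣ s → w s ≤ q := by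
    rintro _ ⟨s, rfl⟩
    rw [MulMemClass.coe_mul, map_mul, hq]
    exact mul_le_of_le_one_right zero_le (hle s)
  have hlt : ∀ s : S, w s < 1 ↔ p ∣ s := fun s =>
    ⟨fun h => by_contra fun h' => h.ne (hu s h'), fun h => (hd s h).trans_lt h1⟩
  have hx : ∀ x, w x ≤ 1 → ∃ a b : S, w b = 1 ∧ x * b = a := fun x hx => by
    obtain ⟨a, b, rfl⟩ := hS x
    rcases eq_or_ne a 0 with rfl | ha
    · exact ⟨0, 1, by simp, by simp⟩
    rcases eq_or_ne b 0 with rfl | hb
    · exact ⟨0, 1, by simp, by simp⟩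
    obtain ⟨k, a, ha', rfl⟩ := WfDvdMonoid.max_power_factor' ha hp.not_isUnit
    obtain ⟨l, b, hb', rfl⟩ := WfDvdMonoid.max_power_factor' hb hp.not_isUnit
    rw [map_div₀, hw, hw, hv k a ha', hv l b hb', div_le_one (pow_pos h0 l),
      pow_le_pow_iff_right_of_lt_one₀ h0 h1] at hx
    obtain ⟨j, rfl⟩ := Nat.exists_eq_add_of_le hx
    refine ⟨p ^ j * a, b, hu b hb', ?_⟩
    have h2 : (p : K) ≠ 0 := fun h => hp.ne_zero (Subtype.ext h)
    have h3 : (b : K) ≠ 0 := fun h => hb' (by rw [show b = 0 from Subtype.ext h]; simp)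
    push_cast
    field_simp
    ring
  refine ⟨w, hle, hlt, hq, fun x h => ?_, hx⟩
  obtain ⟨a, b, hb, e⟩ := hx x h.le
  have : w x = w a := by rw [← e, map_mul, hb, mul_one]
  rw [this] at h ⊢
  exact hd a ((hlt a).1 h)

end DiviAux

theorem divi (_hC : StCHEV) (hF : StCFR) (hO : StORD) : StDIVI := by
  intro R K _ _ _ _ _ _ _ _ _ n r ω hk c i
  have := c.regular
  obtain ⟨⟨d, hd, -⟩, hP, -⟩ := hF R K n r ω hk c
  have hy : c.y i ≠ 0 := fun h => hd.ne_zero i (by rw [h]; rfl)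
  have hS : ∀ z : K, ∃ x y : c.S, z = x / y := fun z => by
    obtain ⟨a, b, -, rfl⟩ := IsFractionRing.div_surjective (A := R) z
    exact ⟨⟨_, c.above a⟩, ⟨_, c.above b⟩, rfl⟩
  obtain ⟨w, hle, hlt, hq, hn, hx⟩ := DiviAux.val1 c.S hS ((Ideal.span_singleton_prime hy).1 (hP i))
    (q := ⟨Real.exp (-1), (Real.exp_pos _).le⟩) (Real.exp_pos _)
    (Real.exp_lt_one_iff.2 (by norm_num) : Real.exp (-1) < 1)
  have hq' : (w (c.y i) : ℝ) = Real.exp (-1) := by rw [hq]; rfl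
  have hlt' : ∀ s : c.S, w s < 1 ↔ s ∈ Ideal.span {c.y i} := fun s => by
    rw [hlt, Ideal.mem_span_singleton]
  refine ⟨w, ⟨⟨⟨_, hq'⟩, hn⟩, fun f => hle ⟨_, c.above f⟩, ?_⟩, hle, hlt',
    (hO R K n r ω hk).2 c i w hle hlt' hq' fun x h => ?_⟩
  · obtain ⟨σ, hσ⟩ := (Algebra.essFiniteType_iff _ _).1 c.essFiniteType
    refine ⟨(Algebra.adjoin ℂ (σ : Set c.S)).map c.S.val, Subalgebra.FG.map _ ⟨σ, rfl⟩, ?_,
      fun x h => ?_⟩
    · rintro _ ⟨s, -, rfl⟩
      exact hle s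
    · have hu : ∀ t : c.S, IsUnit t → w t = 1 := fun t ht =>
        (hle t).eq_of_not_lt fun h' => (hP i).ne_top (Ideal.eq_top_of_isUnit_mem _ ((hlt' t).1 h') ht)
      obtain ⟨a, b, hb, e⟩ := hx x h
      obtain ⟨t, ht, ht', ha⟩ := hσ a
      obtain ⟨s, hs, hs', hb'⟩ := hσ b
      refine ⟨_, ⟨_, mul_mem ha hs, rfl⟩, _, ⟨_, mul_mem hb' ht, rfl⟩, ?_, ?_⟩
      · change w (b * s * t) = 1
        rw [map_mul, map_mul, hb, hu s hs', hu t ht', one_mul, one_mul]
      · change x * (b * s * t) = a * t * s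
        rw [← e]
        ring
  · obtain ⟨a, b, hb, e⟩ := hx x h
    exact ⟨a, a.2, b, b.2, hb, e⟩

end Vale.Agent.P282Y
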