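import Vale.Agent.P282Y.Ht1
import Vale.Agent.P282Y.Divi

/-!
# P282Y: the dictionary
-/

open scoped NNReal ENNReal
open IsLocalRing Vale.Agent.P282.Gap

noncomputable section

namespace Vale.Agent.P282Y

namespace DictH

variable {R K : Type} [CommRing R] [Field K] [Algebra ℂ K] [Algebra R K]
  {n r : ℕ} {ω : (Fin n → Derivation ℂ K K) → K}
  {v : Valuation K ℝ≥0}

theorem above {c : SncChart R n r ω} (h : c.Sees v) (f : R) : v (algebraMap R K f) ≤ 1 :=
  h ⟨_, c.above f⟩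

theorem discr_pos {c : SncChart R n r ω} (h : c.Sees v) (hJ : c.J = Finset.univ)
    (hm : ∀ i, 0 < 1 + (c.m i : ℝ) / r) {a : K} (h0 : a ≠ 0) (h1 : v a < 1)
    (ha : c.NM a ∨ c.NM a⁻¹) : 0 < c.discr v := by
  have hy : ∀ i (k : ℕ), v ((c.y i : K) ^ k) ≤ 1 := fun i k => by
    rw [map_pow]
    exact pow_le_one' (h _) k
  rcases ha with ⟨u, e, ha⟩ | ⟨u, e, ha⟩
  · have hu : 1 ≤ v ((u : c.S) : K) := by
      have k : v ((u : c.S) : K) * v ((u⁻¹ : c.Sˣ) : c.S) = 1 := by
        rw [← map_mul, ← MulMemClass.coe_mul, u.mul_inv]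
        simp
      exact k.ge.trans (mul_le_of_le_one_right' (h _))
    obtain ⟨i, hi⟩ : ∃ i, v ((c.y i : K) ^ e i) < 1 := by
      by_contra k
      refine h1.not_ge ?_
      rw [ha, map_mul, map_prod]
      exact one_le_mul hu (Finset.one_le_prod' fun i _ => not_lt.1 fun k' => k ⟨i, k'⟩)
    have he : e i ≠ 0 := fun k => by simp [k] at hi
    have y0 : (c.y i : K) ≠ 0 := fun k => h0 (by
      rw [ha, Finset.prod_eq_zero (Finset.mem_univ i) (by rw [k, zero_pow he]), mul_zero])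
    have y1 : v (c.y i) < 1 := lt_of_le_of_ne (h _) fun k => by simp [k] at hi
    refine Finset.sum_pos' (fun j _ => mul_nonneg (neg_nonneg.2
      (Real.log_nonpos (v _).2 (by exact_mod_cast h (c.y j)))) (hm j).le)
      ⟨i, hJ ▸ Finset.mem_univ i, mul_pos (neg_pos.2 (Real.log_neg ?_ ?_)) (hm i)⟩
    · exact_mod_cast pos_iff_ne_zero.2 ((v.ne_zero_iff).2 y0)
    · exact_mod_cast y1
  · have k : v a⁻¹ ≤ 1 := by
      rw [ha, map_mul, map_prod]
      exact mul_le_one' (h _) (Finset.prod_le_one' fun i _ => hy i _)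
    have k' : v a * v a⁻¹ = 1 := by rw [← map_mul, mul_inv_cancel₀ h0, map_one]
    exact (h1.not_ge (k'.ge.trans (mul_le_of_le_one_right' k))).elim

theorem prime {R K : Type} [CommRing R] [IsDomain R] [IsNoetherianRing R] [IsIntegrallyClosed R]
    [IsLocalRing R] [Algebra ℂ R] [Field K] [Algebra ℂ K] [Algebra R K] [IsFractionRing R K]
    [IsScalarTower ℂ R K] (P : Ideal R) [P.IsPrime] (hP : P.height = 1) :
    ∃ w : Valuation K ℝ≥0, IsNormalized w ∧ HasCenter R w P := by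
  have := ht1_dvr P hP
  have hu : ∀ s : P.primeCompl, IsUnit (IsScalarTower.toAlgHom ℂ R K s) := fun s =>
    IsUnit.mk0 _ ((map_ne_zero_iff _ (IsFractionRing.injective R K)).2
      (nonZeroDivisors.ne_zero (P.primeCompl_le_nonZeroDivisors s.2)))
  let φ : Localization.AtPrime P →ₐ[ℂ] K := IsLocalization.liftAlgHom hu
  have hφ : ∀ f : R, φ (algebraMap R _ f) = algebraMap R K f := fun f => by simp [φ]
  have hi : Function.Injective φ := (injective_iff_map_eq_zero φ).2 fun a ha => by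
    obtain ⟨⟨f, s⟩, e⟩ := IsLocalization.surj P.primeCompl a
    have h1 := congrArg φ e
    rw [map_mul, ha, zero_mul, hφ, eq_comm,
      map_eq_zero_iff _ (IsFractionRing.injective R K)] at h1
    dsimp only at e h1
    rw [h1, map_zero] at e
    exact (IsLocalization.map_units _ s).mul_left_eq_zero.1 e
  let e := AlgEquiv.ofInjective φ hi
  have : IsNoetherianRing φ.range := isNoetherianRing_of_ringEquiv _ e.toRingEquiv
  obtain ⟨p, hp⟩ := IsDiscreteValuationRing.exists_irreducible (Localization.AtPrime P)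
  obtain ⟨w, hle, hlt, hq, hn, -⟩ := DiviAux.val1 φ.range (fun z => by
      obtain ⟨a, b, -, rfl⟩ := IsFractionRing.div_surjective (A := R) z
      exact ⟨⟨_, _, hφ a⟩, ⟨_, _, hφ b⟩, rfl⟩) ((MulEquiv.prime_iff e).2 hp.prime)
    (q := ⟨Real.exp (-1), (Real.exp_pos _).le⟩) (Real.exp_pos _)
    (Real.exp_lt_one_iff.2 (by norm_num) : Real.exp (-1) < 1)
  refine ⟨w, ⟨⟨_, by rw [hq]; rfl⟩, hn⟩, fun f => ⟨hle ⟨_, _, hφ f⟩, ?_⟩⟩
  rw [← hφ, show φ (algebraMap R _ f) = (e (algebraMap R _ f) : K) from rfl, hlt, map_dvd_iff,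
    ← Ideal.mem_span_singleton, ← hp.maximalIdeal_eq,
    IsLocalization.AtPrime.to_map_mem_maximal_iff _ P]

end DictH

open DictH

theorem dict (hC : StCHART) (hM : StCMP) (hO : StORD) (hI : StDIVI) (hV : StDIVC) (hH : StHT1) :
    StDICT := by
  intro R K _ _ _ _ _ _ _ _ _ n r ω hk
  have C := hC R K n r ω hk
  obtain ⟨M1, M2, M3⟩ := hM R K n r ω hk
  have O1 := (hO R K n r ω hk).1
  have I := hI R K n r ω hk
  have V := hV R K n r ω hk
  have hm : IsKlt R n r ω → ∀ (c : SncChart R n r ω) i, 0 < 1 + (c.m i : ℝ) / r := fun hk c i =>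
    let ⟨w, h1, _, _, h2⟩ := I c i
    hk.klt w _ h1 h2
  have ch : ∀ v : Valuation K ℝ≥0, (∀ f : R, v (algebraMap R K f) ≤ 1) →
      ∃ c : SncChart R n r ω, c.Sees v := fun v hv =>
    let ⟨c, _, h, _⟩ := C v ∅ hv Set.finite_empty (Set.notMem_empty _)
    ⟨c, h⟩
  have mon : ∀ (c : SncChart R n r ω) v, c.Monomial v → IsLUB (LS n r ω v) (c.discr v) :=
    fun c v h => ⟨M2 c v h, fun b hb =>
      let ⟨t, h1, h2⟩ := M1 c v h.1
      h2.trans (hb h1)⟩
  have le : ∀ (c : SncChart R n r ω) v, c.Sees v →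
      ENNReal.ofReal (c.discr v) ≤ logDiscr R n r ω v := fun c v h =>
    le_iSup₂ (f := fun (c : SncChart R n r ω) (_ : c.Sees v) => ENNReal.ofReal (c.discr v)) c h
  have ub : ∀ v : Valuation K ℝ≥0, (∀ f : R, v (algebraMap R K f) ≤ 1) →
      logDiscr R n r ω v ≠ ⊤ → (logDiscr R n r ω v).toReal ∈ upperBounds (LS n r ω v) :=
    fun v hv h t ht =>
      let ⟨c, h1, h2⟩ := M3 v hv t ht
      h2.trans ((ENNReal.ofReal_le_iff_le_toReal h).1 (le c v h1))
  have eq : ∀ (v : Valuation K ℝ≥0) a, (∀ f : R, v (algebraMap R K f) ≤ 1) →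
      IsLUB (LS n r ω v) a → logDiscr R n r ω v = ENNReal.ofReal a := fun v a hv ha => by
    have h : logDiscr R n r ω v ≤ ENNReal.ofReal a := iSup₂_le fun c hc =>
      let ⟨t, h1, h2⟩ := M1 c v hc
      ENNReal.ofReal_le_ofReal (h2.trans (ha.1 h1))
    have h' := ne_top_of_le_ne_top ENNReal.ofReal_ne_top h
    exact le_antisymm h ((ENNReal.ofReal_le_iff_le_toReal h').2 (ha.2 (ub v hv h')))
  have pos : IsKlt R n r ω → ∀ (v : Valuation K ℝ≥0) (P : Ideal R), HasCenter R v P → P ≠ ⊥ →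
      ∃ c : SncChart R n r ω, c.Sees v ∧ 0 < c.discr v := fun hl v P hv hP => by
    obtain ⟨f, h1, h2⟩ := P.ne_bot_iff.1 hP
    have h3 : algebraMap R K f ≠ 0 := (map_ne_zero_iff _ (IsFractionRing.injective R K)).2 h2
    obtain ⟨c, k1, k2, k3⟩ := C v {algebraMap R K f} (fun f => (hv f).1) (Set.finite_singleton _)
      fun k => h3 (Set.mem_singleton_iff.1 k).symm
    exact ⟨c, k2, discr_pos k2 k1 (hm hl c) h3 ((hv f).2.2 h1) (k3 _ rfl)⟩
  have dv : ∀ (w : Valuation K ℝ≥0) (k : ℤ), IsDivisor R w → IsOrd n r ω w k →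
      IsLUB (LS n r ω w) (1 + (k : ℝ) / r) := fun w k hw h => by
    obtain ⟨c, i, h1, h2, h3⟩ := V w hw
    rw [O1 w _ _ h h3, ← h2]
    exact mon c w h1
  refine ⟨⟨fun P _ hP => ?_, fun w hw => ?_, ch, I, fun w k hw h => eq w _ hw.above (dv w k hw h),
    fun c v h => eq v _ (above h.1) (mon c v h), fun hl v P hv hP => ?_⟩,
    ⟨fun hl => ⟨hk.essFiniteType, hk.normal, hk.residue, hk.dim, hk.index_pos, hk.form,
      fun v P hv hP hn => ?_, fun v P a hv hP ha => ?_⟩,
      fun hl => ⟨fun w P hw hc hP => ?_, fun w k hw h => ?_⟩⟩, le_antisymm ?_ ?_⟩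
  · have := hk.essFiniteType
    have := hk.normal
    have : IsNoetherianRing R := Algebra.EssFiniteType.isNoetherianRing ℂ R
    obtain ⟨w, h1, h2⟩ := DictH.prime (K := K) P hP
    exact ⟨w, hH R K n r ω hk w P h2 hP h1, h2⟩
  · obtain ⟨c, i, -, -, h⟩ := V w hw
    exact ⟨_, h, fun k hk => O1 w _ _ hk h⟩
  · obtain ⟨c, h1, h2⟩ := pos hl v P hv hP
    exact (ENNReal.ofReal_pos.2 h2).trans_le (le c v h1)
  · have hw := hH R K n r ω hk v P hv hP hn
    have h4 := dv v 0 hw (hl.canonical v P hw hv hP)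
    rw [Int.cast_zero, zero_div, add_zero] at h4
    exact h4
  · obtain ⟨c, h1, h2⟩ := pos hl v P hv hP
    obtain ⟨t, h3, h4⟩ := M1 c v h1
    exact h2.trans_le (h4.trans (ha.1 h3))
  · obtain ⟨c, i, -, -, h⟩ := V w hw
    have h1 := (dv w _ hw h).unique (hl.canonical w P hc hP hw.normalized)
    have h2 : (r : ℝ) ≠ 0 := Nat.cast_ne_zero.2 hk.index_pos.ne'
    obtain h3 : c.m i = 0 := by simpa [h2] using h1
    exact h3 ▸ h
  · let P : Ideal R :=
      { carrier := {f | w (algebraMap R K f) < 1}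
        add_mem' := fun ha hb => by simpa using w.map_add_lt ha hb
        zero_mem' := by simp
        smul_mem' := fun a b hb => by
          simpa using (mul_le_of_le_one_left' (hw.above a)).trans_lt hb }
    refine hl.klt w P _ (fun f => ⟨hw.above f, Iff.rfl⟩) (fun h0 => ?_) (dv w k hw h)
    obtain ⟨f, hf⟩ := hw.normalized.1
    obtain ⟨a, b, hb, rfl⟩ := IsFractionRing.div_surjective (A := R) f
    have h1 : ∀ g : R, g ≠ 0 → w (algebraMap R K g) = 1 := fun g hg =>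
      (hw.above g).eq_of_not_lt fun h2 => hg (by simpa [h0] using (show g ∈ P from h2))
    rcases eq_or_ne a 0 with rfl | ha
    · simpa using hf.trans_gt (Real.exp_pos _)
    · rw [map_div₀, h1 a ha, h1 b (nonZeroDivisors.ne_zero hb)] at hf
      have h2 : Real.exp (-1) < 1 := Real.exp_lt_one_iff.2 (by norm_num)
      simp [← hf] at h2
  · refine le_iInf₂ fun v hv => le_iInf₂ fun a ha => ?_
    have h := eq v a (fun f => (hv f).1) ha
    rw [← h]
    exact iInf₂_le_of_le v hv (iInf_le _ (h ▸ ENNReal.ofReal_ne_top))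
  · refine le_iInf₂ fun v hv => le_iInf fun h => ?_
    have h0 := fun f => (hv f).1
    obtain ⟨c, hc⟩ := ch v h0
    obtain ⟨t, ht, -⟩ := M1 c v hc
    obtain ⟨a, ha⟩ := Real.exists_isLUB ⟨t, ht⟩ ⟨_, ub v h0 h⟩
    rw [eq v a h0 ha]
    exact iInf₂_le_of_le v hv (iInf₂_le a ha)

end Vale.Agent.P282Y
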