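import Vale.Agent.P282Y.Sk

/-!
# P282Y: derivations of fields
-/

open KaehlerDifferential TensorProduct

noncomputable section

namespace Vale.Agent.P282Y

namespace DuA

theorem exists_basis {n : ℕ} {K : Type} [Field K] [Algebra ℂ K] (x : Fin n → K)
    (hx : IsTranscendenceBasis ℂ x) :
    ∃ b : Module.Basis (Fin n) K (Ω[K⁄ℂ]), ∀ i, b i = KaehlerDifferential.D ℂ K (x i) := by
  classical
  let P := MvPolynomial (Fin n) ℂ
  let _ : Algebra P K := (MvPolynomial.aeval x).toAlgebra
  have _ : IsScalarTower ℂ P K := IsScalarTower.of_algebraMap_eq' (by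
    ext; simp [RingHom.algebraMap_toAlgebra])
  have hinj : Function.Injective (algebraMap P K) := hx.1
  have _ : FaithfulSMul P K := (faithfulSMul_iff_algebraMap_injective _ _).mpr hinj
  let _ : Algebra (FractionRing P) K := FractionRing.liftAlgebra P K
  have _ : IsScalarTower P (FractionRing P) K := FractionRing.isScalarTower_liftAlgebra P K
  have halg : Algebra.IsAlgebraic P K := by
    have h1 := hx.isAlgebraic
    constructor
    intro a
    have h2 := h1.isAlgebraic a
    refine IsAlgebraic.of_ringHom_of_comp_eq (f := (hx.1.aevalEquiv : P ≃ₐ[ℂ] _)) (g := RingHom.id K)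
      (by simpa using h2) (hx.1.aevalEquiv).surjective Function.injective_id ?_
    ext z
    · simp [IsScalarTower.algebraMap_apply ℂ P K]; rfl
    · simp [RingHom.algebraMap_toAlgebra]
  have _ : Algebra.IsAlgebraic (FractionRing P) K :=
    (IsFractionRing.comap_isAlgebraic_iff (A := P) (K := FractionRing P) (C := K)).mp halg
  have _ : CharZero (FractionRing P) := charZero_of_injective_algebraMap (R := ℂ)
    (FaithfulSMul.algebraMap_injective ℂ (FractionRing P))
  have _ : Algebra.FormallyEtale P (FractionRing P) :=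
    Algebra.FormallyEtale.of_isLocalization (nonZeroDivisors P)
  have _ : Algebra.FormallyEtale (FractionRing P) K := Algebra.FormallyEtale.of_isSeparable _ _
  have _ : Algebra.FormallyEtale P K := Algebra.FormallyEtale.comp P (FractionRing P) K
  let b0 := (KaehlerDifferential.mvPolynomialBasis ℂ (Fin n)).baseChange K
  let E := KaehlerDifferential.tensorKaehlerEquivOfFormallyEtale ℂ P K
  refine ⟨b0.map E, fun i => ?_⟩
  simp only [Module.Basis.map_apply, Module.Basis.baseChange_apply, mvPolynomialBasis_apply, b0, E]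
  rw [tensorKaehlerEquivOfFormallyEtale_apply, mapBaseChange_tmul, map_D, one_smul]
  congr 1
  exact MvPolynomial.aeval_X _ _

variable {K Ω : Type} [Field K] [Algebra ℂ K] [Field Ω] [Algebra ℂ Ω]

/-- a derivation which kills a subfield kills its algebraic extensions -/
theorem zero_of_alg [Algebra K Ω] [Algebra.IsAlgebraic K Ω] (D : Derivation ℂ Ω Ω)
    (h : ∀ a, D (algebraMap K Ω a) = 0) : D = 0 := by
  have _ : CharZero K := charZero_of_injective_algebraMap (R := ℂ) (algebraMap ℂ K).injective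
  let E : Derivation K Ω Ω := Derivation.mk'
    { toFun := D
      map_add' := map_add D
      map_smul' := fun c a => by
        rw [Algebra.smul_def, D.leibniz, h, smul_zero, add_zero, RingHom.id_apply, smul_eq_mul,
          Algebra.smul_def] } fun a b => D.leibniz a b
  ext z
  have h1 := E.map_aeval (minpoly K z) z
  rw [minpoly.aeval, map_zero, smul_eq_mul] at h1
  exact (mul_eq_zero.1 h1.symm).resolve_left
    ((Algebra.IsSeparable.isSeparable K z).aeval_derivative_ne_zero (minpoly.aeval K z))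

/-- roots of unity are constants -/
theorem const_of_pow {t : Ω} {k : ℕ} (hk : 0 < k) (h : t ^ k = 1) :
    ∃ c : ℂ, c ^ k = 1 ∧ algebraMap ℂ Ω c = t := by
  have h1 : IsIntegral ℂ t := IsIntegral.of_pow hk (h ▸ isIntegral_one)
  obtain ⟨c, hc⟩ := minpoly.mem_range_of_degree_eq_one ℂ t
    (IsAlgClosed.degree_eq_one_of_irreducible ℂ (minpoly.irreducible h1))
  exact ⟨c, (algebraMap ℂ Ω).injective (by rw [map_pow, hc, h, map_one]), hc⟩

/-- conjugation of the dual derivations -/
theorem conj {N : ℕ} {y : Fin N → Ω} {d : Fin N → Derivation ℂ Ω Ω} (h : Du y d)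
    (σ : Ω ≃ₐ[ℂ] Ω) {c : Fin N → ℂ} (hc : ∀ m, c m ≠ 0)
    (hy : ∀ m, σ (y m) = algebraMap ℂ Ω (c m) * y m) (l : Fin N) (a : Ω) :
    σ (d l a) = algebraMap ℂ Ω (c l)⁻¹ * d l (σ a) := by
  let E : Derivation ℂ Ω Ω := Derivation.mk'
    (σ.toLinearMap ∘ₗ (d l : Ω →ₗ[ℂ] Ω) ∘ₗ σ.symm.toLinearMap) fun a b => by
      simp [Derivation.leibniz]
  have hE : ∀ a, E a = σ (d l (σ.symm a)) := fun a => rfl
  have h1 : ∀ m, σ.symm (y m) = (c m)⁻¹ • y m := fun m => by
    rw [AlgEquiv.symm_apply_eq, map_smul, hy, ← Algebra.smul_def, smul_smul,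
      inv_mul_cancel₀ (hc m), one_smul]
  have h2 := h.ext (E - (c l)⁻¹ • d l) fun m => by
    rw [Derivation.sub_apply, Derivation.smul_apply, hE, h1, Derivation.map_smul, map_smul, h.dual]
    split_ifs with e
    · rw [e, map_one, sub_self]
    · rw [map_zero, smul_zero, smul_zero, sub_self]
  have h3 := congrArg (fun D : Derivation ℂ Ω Ω => D (σ a)) (sub_eq_zero.1 h2)
  simpa only [hE, AlgEquiv.symm_apply_apply, Derivation.smul_apply, Algebra.smul_def] using h3

end DuA

open DuA

theorem du : StDU := by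
  intro K _ _ N x hx
  obtain ⟨b, hb⟩ := exists_basis x hx
  refine ⟨fun l => (b.coord l).compDer (KaehlerDifferential.D ℂ K), fun l m => ?_, fun D hD => ?_⟩
  · change b.coord l (KaehlerDifferential.D ℂ K (x m)) = _
    rw [← hb, Module.Basis.coord_apply, Module.Basis.repr_self, Finsupp.single_apply]
    simp only [eq_comm]
  · have h1 : D.liftKaehlerDifferential = 0 := b.ext fun l => by
      rw [hb, Derivation.liftKaehlerDifferential_comp_D, hD, LinearMap.zero_apply]
    ext a
    rw [← Derivation.liftKaehlerDifferential_comp_D, h1, LinearMap.zero_apply,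
      Derivation.zero_apply]

theorem ext : StEXT := by
  intro K Ω _ _ _ _ _ _ _
  have _ : CharZero K := charZero_of_injective_algebraMap (R := ℂ) (algebraMap ℂ K).injective
  have _ : Algebra.FormallyEtale K Ω := Algebra.FormallyEtale.of_isSeparable _ _
  refine ⟨fun D => ?_, fun N y d d' h hd => ⟨fun l m => ?_, fun D hD => ?_⟩⟩
  · let E := KaehlerDifferential.tensorKaehlerEquivOfFormallyEtale ℂ K Ω
    let φ : Ω ⊗[K] Ω[K⁄ℂ] →ₗ[Ω] Ω :=
      (Algebra.linearMap K Ω ∘ₗ D.liftKaehlerDifferential).liftBaseChange Ω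
    refine ⟨(φ ∘ₗ E.symm.toLinearMap).compDer (KaehlerDifferential.D ℂ Ω), fun a => ?_⟩
    have h1 : E (1 ⊗ₜ KaehlerDifferential.D ℂ K a) =
        KaehlerDifferential.D ℂ Ω (algebraMap K Ω a) := by
      rw [tensorKaehlerEquivOfFormallyEtale_apply, mapBaseChange_tmul, map_D, one_smul]
    change φ (E.symm (KaehlerDifferential.D ℂ Ω (algebraMap K Ω a))) = _
    rw [← h1, LinearEquiv.symm_apply_apply]
    simp [φ]
  · rw [hd, h.dual]
    split_ifs <;> simp
  · refine zero_of_alg (K := K) D fun a => ?_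
    rw [← Module.forall_dual_apply_eq_zero_iff K]
    intro f
    have h1 := h.ext (f.compDer (D.compAlgebraMap K)) fun l => by
      change f (D (algebraMap K Ω (y l))) = 0
      rw [hD, map_zero]
    exact congrArg (fun D : Derivation ℂ K K => D a) h1

theorem hom : StHOM := by
  intro Ω _ _ G
  refine ⟨fun z k hk ⟨k', hk', h⟩ => ⟨k * k', mul_pos hk hk', fun σ hσ => ?_⟩,
    fun N y d h hy => ?_⟩
  · rcases eq_or_ne z 0 with rfl | hz
    · exact ⟨1, by simp, by simp⟩
    · obtain ⟨c, h1, h2⟩ := h σ hσ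
      obtain ⟨e, h3, h4⟩ := const_of_pow (t := σ z / z) (mul_pos hk hk') (by
        rw [pow_mul, div_pow, ← map_pow, h2, mul_div_assoc, div_self (pow_ne_zero k hz), mul_one,
          ← map_pow, h1, map_one])
      exact ⟨e, h3, by rw [h4, div_mul_cancel₀ _ hz]⟩
  · choose k hk hy using hy
    choose c hc hy using hy
    have h0 : ∀ l σ hσ, c l σ hσ ≠ 0 := fun l σ hσ e => by
      have := hc l σ hσ
      rw [e, zero_pow (hk l).ne'] at this
      exact zero_ne_one this
    refine ⟨fun l a ⟨k', hk', ha⟩ => ⟨k l * k', mul_pos (hk l) hk', fun σ hσ => ?_⟩,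
      fun σ hσ => ⟨fun l => (c l σ hσ)⁻¹, fun l => inv_ne_zero (h0 l σ hσ), fun l a =>
        conj h σ (fun m => h0 m σ hσ) (fun m => hy m σ hσ) l a⟩⟩
    obtain ⟨e, h1, h2⟩ := ha σ hσ
    refine ⟨(c l σ hσ)⁻¹ * e, ?_, ?_⟩
    · rw [mul_pow, pow_mul, inv_pow, hc, mul_comm (k l), pow_mul, h1]
      simp
    · rw [conj h σ (fun m => h0 m σ hσ) (fun m => hy m σ hσ) l a, h2, ← Algebra.smul_def e,
        Derivation.map_smul, map_mul, mul_assoc, Algebra.smul_def]

end Vale.Agent.P282Y
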