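import Vale.Agent.P282Y.Sk

/-!
# P282Y: the Euler formula, the Taylor formula, exchange of a parameter
-/

open IsLocalRing

noncomputable section

namespace Vale.Agent.P282Y

namespace Eul

variable {R : Type} [CommRing R] [Algebra ℂ R]

theorem of_nsmul {I : Ideal R} {g : R} {k : ℕ} (h : (k + 1) • g ∈ I) : g ∈ I := by
  have := I.smul_of_tower_mem ((k + 1 : ℕ) : ℂ)⁻¹ h
  rwa [← Nat.cast_smul_eq_nsmul ℂ, inv_smul_smul₀ (Nat.cast_ne_zero.2 k.succ_ne_zero)] at this

theorem der_pow (D : Derivation ℂ R R) (M : Ideal R) (k : ℕ) : ∀ g ∈ M ^ (k + 1), D g ∈ M ^ k := by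
  induction k with
  | zero => simp
  | succ k ih =>
    intro g hg
    rw [pow_succ] at hg
    refine Submodule.mul_induction_on hg (fun a ha b hb => ?_) fun a b ha hb => ?_
    · rw [D.leibniz, smul_eq_mul, smul_eq_mul]
      exact add_mem (Ideal.mul_mem_right _ _ ha) (pow_succ' M k ▸ Ideal.mul_mem_mul hb (ih a ha))
    · rw [map_add]
      exact add_mem ha hb

theorem der_span (D : Derivation ℂ R R) {S : Set R} (h : ∀ a ∈ S, D a ∈ Ideal.span S) :
    ∀ g ∈ Ideal.span S, D g ∈ Ideal.span S := fun g hg => by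
  refine Submodule.span_induction (fun a ha => h a ha) (by simp) (fun a b _ _ ha hb => ?_)
    (fun r a h1 h2 => ?_) hg
  · rw [map_add]
    exact add_mem ha hb
  · rw [smul_eq_mul, D.leibniz, smul_eq_mul, smul_eq_mul]
    exact add_mem (Ideal.mul_mem_left _ _ h2) (Ideal.mul_mem_right _ _ h1)

omit [Algebra ℂ R] in
theorem mul_mem {I A B : Ideal R} {a b : R} (ha : a ∈ I ⊔ A) (hb : b ∈ I ⊔ B) :
    a * b ∈ I ⊔ A * B := by
  obtain ⟨p, hp, q, hq, rfl⟩ := Submodule.mem_sup.1 ha
  obtain ⟨r, hr, s, hs, rfl⟩ := Submodule.mem_sup.1 hb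
  rw [add_mul, mul_add q]
  exact add_mem (Ideal.mem_sup_left (I.mul_mem_right _ hp)) (add_mem
    (Ideal.mem_sup_left (I.mul_mem_left _ hr)) (Ideal.mem_sup_right (Ideal.mul_mem_mul hq hs)))

/-- the Euler formula -/
theorem eul (E : Derivation ℂ R R) {I M : Ideal R} (h0 : ∀ a, E a ∈ M)
    (h1 : ∀ b ∈ M, E b - b ∈ I ⊔ M ^ 2) (k : ℕ) : ∀ g ∈ M ^ k, E g - k • g ∈ I ⊔ M ^ (k + 1) := by
  induction k with
  | zero => exact fun g _ => Ideal.mem_sup_right (by simpa using h0 g)
  | succ k ih =>
    intro g hg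
    rw [pow_succ] at hg
    refine Submodule.mul_induction_on hg (fun a ha b hb => ?_) fun a b ha hb => ?_
    · have e : E (a * b) - (k + 1) • (a * b) = (E a - k • a) * b + a * (E b - b) := by
        rw [E.leibniz]
        simp only [smul_eq_mul, nsmul_eq_mul]
        push_cast
        ring
      rw [e]
      exact add_mem (pow_succ M (k + 1) ▸ mul_mem (ih a ha) (Ideal.mem_sup_right hb))
        (pow_add M k 2 ▸ mul_mem (Ideal.mem_sup_right ha) (h1 b hb))
    · have e : E (a + b) - (k + 1) • (a + b) = E a - (k + 1) • a + (E b - (k + 1) • b) := by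
        rw [map_add, smul_add]
        ring
      rw [e]
      exact add_mem ha hb

theorem iter_mul (D : Derivation ℂ R R) {x : R} (h : D x = 1) (g : R) (t : ℕ) :
    D^[t + 1] (x * g) = x * D^[t + 1] g + (t + 1) • D^[t] g := by
  induction t with
  | zero => simp [h]
  | succ t ih =>
    rw [Function.iterate_succ_apply' D (t + 1), ih, map_add, map_nsmul, D.leibniz, h,
      ← Function.iterate_succ_apply' D t, ← Function.iterate_succ_apply' D (t + 1)]
    simp only [smul_eq_mul, nsmul_eq_mul]
    push_cast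
    ring

end Eul

open Eul

theorem euler : StEULER := fun R _ _ _ N y d J k g h => by
  classical
  have hy : ∀ l, y l ∈ maximalIdeal R := fun l => h.span ▸ Ideal.subset_span ⟨l, rfl⟩
  have hI : ∀ l ∉ J, ∀ g ∈ Ideal.span (y '' J), d l g ∈ Ideal.span (y '' J) := fun l hl =>
    der_span _ (by
      rintro _ ⟨j, hj, rfl⟩
      rw [h.dual, if_neg fun e : l = j => hl (e ▸ hj)]
      exact zero_mem _)
  let E : Derivation ℂ R R := ∑ l with l ∉ J, y l • d l
  have hE : ∀ a, E a = ∑ l with l ∉ J, y l * d l a := fun a =>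
    (congrFun (map_sum (Derivation.coeFnAddMonoidHom (R := ℂ) (A := R) (M := R)) _ _) a).trans
      (Finset.sum_apply _ _ _)
  have h0 : ∀ a, E a ∈ maximalIdeal R := fun a =>
    hE a ▸ sum_mem fun l _ => Ideal.mul_mem_right _ _ (hy l)
  have h1 : ∀ b ∈ maximalIdeal R, E b - b ∈ Ideal.span (y '' J) ⊔ maximalIdeal R ^ 2 := by
    intro b hb
    rw [h.span, Ideal.mem_span_range_iff_exists_fun] at hb
    obtain ⟨c, rfl⟩ := hb
    rw [map_sum, ← Finset.sum_sub_distrib]
    refine sum_mem fun i _ => ?_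
    have e : E (c i * y i) - c i * y i = y i * E (c i) + c i * (E (y i) - y i) := by
      rw [E.leibniz, smul_eq_mul, smul_eq_mul]
      ring
    rw [e]
    refine add_mem (Ideal.mem_sup_right (pow_two (maximalIdeal R) ▸ Ideal.mul_mem_mul (hy i) (h0 _)))
      (Ideal.mul_mem_left _ _ (Ideal.mem_sup_left ?_))
    by_cases c : i ∈ J
    · simpa [hE, h.dual, c] using Ideal.subset_span (Set.mem_image_of_mem y c)
    · simp [hE, h.dual, c]
  induction k generalizing g with
  | zero =>
    exact fun _ k => ⟨[], rfl, by simp, not_not.1 fun c => k (Ideal.mem_sup_right (by simpa using c))⟩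
  | succ k ih =>
    intro k1 k2
    obtain ⟨p, hp, q, hq, e⟩ := Submodule.mem_sup.1 k1
    by_cases c : ∀ l ∉ J, d l g ∈ Ideal.span (y '' J) ⊔ maximalIdeal R ^ (k + 1)
    · refine (k2 (of_nsmul (k := k) ?_)).elim
      have e1 : (k + 1) • g = E g - E p + (k + 1) • p - (E q - (k + 1) • q) := by
        rw [← e, map_add, smul_add]
        ring
      rw [e1]
      refine sub_mem (add_mem (sub_mem ?_ (Ideal.mem_sup_left ?_))
        (Ideal.mem_sup_left (nsmul_mem hp _))) (eul E h0 h1 _ q hq)
      · exact hE g ▸ sum_mem fun l hl => pow_succ' (maximalIdeal R) (k + 1) ▸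
          mul_mem (Ideal.mem_sup_right (hy l)) (c l (Finset.mem_filter.1 hl).2)
      · exact hE p ▸ sum_mem fun l hl =>
          Ideal.mul_mem_left _ _ (hI l (Finset.mem_filter.1 hl).2 p hp)
    · push Not at c
      obtain ⟨l, hl, c⟩ := c
      obtain ⟨L, l1, l2, l3⟩ := ih (d l g) (by
        rw [← e, map_add]
        exact add_mem (Ideal.mem_sup_left (hI l hl p hp)) (Ideal.mem_sup_right (der_pow _ _ k q hq))) c
      refine ⟨L ++ [l], by simp [l1], fun j hj => ?_, by simpa using l3⟩
      rcases List.mem_append.1 hj with a | a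
      · exact l2 j a
      · exact List.mem_singleton.1 a ▸ hl

theorem taylor : StTAYLOR := fun R _ _ D x w J hx hw h0 h1 h2 c g => by
  have h3 : ∀ (t : ℕ) c, ∀ a ∈ J c, D^[t] a ∈ J (c - t * w) := fun t => by
    induction t with
    | zero => simp
    | succ t ih =>
      intro c a ha
      rw [Function.iterate_succ_apply', show c - (t + 1 : ℕ) * w = c - t * w - w by push_cast; ring]
      exact h1 _ _ (ih c a ha)
  obtain ⟨n, hn⟩ := exists_nat_ge (c / w)
  rw [div_le_iff₀ hw] at hn
  induction n generalizing c g with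
  | zero => exact fun _ => h0 c (by simpa using hn) ▸ Submodule.mem_top
  | succ n ih =>
    intro h
    obtain ⟨a, ha, q, hq, e⟩ := Submodule.mem_sup.1 (h 0)
    obtain ⟨b, rfl⟩ := Ideal.mem_span_singleton.1 hq
    obtain rfl : a + x * b = g := e
    rw [Nat.cast_zero, zero_mul, sub_zero] at ha
    refine add_mem ha (h2 c b (ih _ b (by push_cast at hn; linarith) fun t => of_nsmul (k := t) ?_))
    have e1 : (t + 1) • D^[t] b = D^[t + 1] (a + x * b) - D^[t + 1] a - x * D^[t + 1] b := by
      rw [iterate_map_add, iter_mul D hx]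
      ring
    rw [e1, show c - w - t * w = c - (t + 1 : ℕ) * w by push_cast; ring]
    exact sub_mem (sub_mem (h _) (Ideal.mem_sup_left (h3 _ c a ha)))
      (Ideal.mem_sup_right (Ideal.mem_span_singleton.2 (dvd_mul_right _ _)))

theorem xch : StXCH := fun R _ _ _ _ N y d l a h ha ⟨u, hu⟩ => by
  have hy : ∀ l, y l ∈ maximalIdeal R := fun l => h.span ▸ Ideal.subset_span ⟨l, rfl⟩
  have hm : ∀ j, Function.update y l a j ∈ Ideal.span (Set.range (Function.update y l a)) :=
    fun j => Ideal.subset_span ⟨j, rfl⟩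
  refine ⟨fun m => if m = l then (↑u⁻¹ : R) • d l else d m - (d m a * ↑u⁻¹) • d l,
    le_antisymm ?_ (Ideal.span_le.2 ?_), fun m j => ?_, h.res⟩
  · obtain ⟨c, hc⟩ := Ideal.mem_span_range_iff_exists_fun.1 (h.span ▸ ha)
    have h1 : IsUnit (c l) := by
      by_contra k
      refine (mem_maximalIdeal _).1 ?_ u.isUnit
      rw [hu, ← hc, map_sum]
      refine sum_mem fun i _ => ?_
      rw [Derivation.leibniz, h.dual, smul_eq_mul, smul_eq_mul]
      refine add_mem ?_ (Ideal.mul_mem_right _ _ (hy i))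
      split_ifs with e
      · exact Ideal.mul_mem_right _ _ (e ▸ k)
      · simp
    rw [h.span, Ideal.span_le]
    rintro _ ⟨j, rfl⟩
    by_cases e : j = l
    · subst e
      refine (Ideal.unit_mul_mem_iff_mem _ h1).1 ?_
      rw [← Finset.add_sum_erase _ _ (Finset.mem_univ j)] at hc
      rw [eq_sub_of_add_eq hc]
      refine sub_mem (by simpa using hm j) (sum_mem fun i hi => Ideal.mul_mem_left _ _ ?_)
      simpa [Function.update_of_ne (Finset.ne_of_mem_erase hi)] using hm i
    · simpa [Function.update_of_ne e] using hm j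
  · rintro _ ⟨j, rfl⟩
    by_cases e : j = l
    · subst e
      simpa using ha
    · simpa [Function.update_of_ne e] using hy j
  · by_cases e : m = l <;> by_cases e' : j = l
    · simp [e, e', ← hu]
    · simp [e, Function.update_of_ne e', h.dual, Ne.symm e']
    · simp [e, e', ← hu]
    · simp [e, Function.update_of_ne e', h.dual, Ne.symm e']

end Vale.Agent.P282Y
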