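import Vale.Agent.P282Y.ExA

/-!
# P282Y, row EX: existence of the canonical centre
-/

open IsLocalRing P277Z.Hir

noncomputable section

namespace Vale.Agent.P282Y

namespace Ex

variable {R : Type} [CommRing R] [Algebra ℂ R] [IsLocalRing R] {N : ℕ}
  {P : R → Prop} {B : Finset (Fin N)} {y₀ y y' : Fin N → R} {f : R} {i : ℕ}
  {d d' : Fin N → Derivation ℂ R R} {m m' : ℕ → Fin N} {w w' : ℕ → ℝ} {G : Set (R × ℝ)} {W : ℝ}

/-- the next family of marked elements -/
def nxt (G : Set (R × ℝ)) (d : Fin N → Derivation ℂ R R) (l : Fin N) (W : ℝ) : Set (R × ℝ) :=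
  {q | ∃ p ∈ G, ∃ t : ℕ, t * W < p.2 ∧ q = (dL d (List.replicate t l) p.1, p.2 - t * W)}

omit [IsLocalRing R] in
theorem nxt_fin (hG : G.Finite) (hW : 0 < W) (l : Fin N) : (nxt G d l W).Finite := by
  refine (hG.biUnion (t := fun p => (fun t : ℕ => (dL d (List.replicate t l) p.1, p.2 - t * W)) ''
    {t | t < ⌈p.2 / W⌉₊}) fun p _ => (Set.finite_lt_nat _).image _).subset ?_
  rintro _ ⟨p, hp, t, ht, rfl⟩
  exact Set.mem_biUnion hp ⟨t, Nat.lt_ceil.2 ((lt_div_iff₀ hW).2 ht), rfl⟩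

omit [IsLocalRing R] in
/-- the Taylor formula along the new coordinate -/
theorem back_step (hT : StTAYLOR) {I : Ideal R} {x : ℕ → R} {l : Fin N} (hw : Antitone w)
    (hW : 0 < w i) (h0 : ∀ j < i, d l (x j) = 0) (h1 : d l (x i) = 1) (hI : ∀ a ∈ I, d l a ∈ I)
    (h : ∀ q ∈ nxt G d l (w i), q.1 ∈ (I ⊔ Ideal.span {x i}) ⊔ LA.FI x w q.2) :
    ∀ p ∈ G, p.1 ∈ I ⊔ LA.FI x w p.2 := fun p hp => by
  refine hT R (d l) (x i) (w i) (fun c => I ⊔ LA.FI x w c) h1 hW (fun c hc => ?_)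
    (fun c a ha => ?_) (fun c a ha => ?_) _ _ fun t => ?_
  · exact eq_top_iff.2 fun a _ => Ideal.mem_sup_right (LA.FI.of_nonpos hc a)
  · obtain ⟨a, ha', b, hb, rfl⟩ := Submodule.mem_sup.1 ha
    rw [map_add]
    refine add_mem (Ideal.mem_sup_left (hI a ha'))
      (Ideal.mem_sup_right (LA.FI.der _ hW.le (fun j => ?_) hb))
    rcases lt_or_ge j i with hj | hj
    · rw [h0 j hj]
      exact zero_mem _
    · exact LA.FI.of_nonpos (sub_nonpos.2 (hw hj)) _
  · obtain ⟨a, ha', b, hb, rfl⟩ := Submodule.mem_sup.1 ha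
    rw [mul_add]
    refine add_mem (Ideal.mem_sup_left (Ideal.mul_mem_left _ _ ha')) (Ideal.mem_sup_right ?_)
    simpa using LA.FI.mul (LA.FI.gen i (le_refl (w i))) hb
  · rcases lt_or_ge (t * w i) p.2 with ht | ht
    · have := h _ ⟨p, hp, t, ht, rfl⟩
      rwa [dL_rep, sup_right_comm] at this
    · exact Ideal.mem_sup_left (Ideal.mem_sup_right (LA.FI.of_nonpos (sub_nonpos.2 ht) _))

/-- one step of the construction -/
theorem Lvl.step (hT : StTAYLOR) (h : Lvl P B y₀ f i y d m w G) (hW : 0 < W)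
    (h2 : ∀ p ∈ G, ∃ k : ℕ, p.2 ≤ k * W ∧ p.1 ∈ Id y m i ⊔ maximalIdeal R ^ k)
    (h4 : ∀ j < i, W ≤ w j) {p : R × ℝ} (hp : p ∈ G) {L : List (Fin N)} {l : Fin N}
    (hL : ∀ l' ∈ L, Un m i l') (hl : Un m i l) (hc : (L.length + 1) * W = p.2)
    (hfr : AFr y' d') (hpy : ∀ l, P (y' l)) (hP : ∀ l a, P a → P (d' l a))
    (hy : ∀ l', l' ≠ l → y' l' = y l') (hu : IsUnit (d' l (dL d L p.1)))
    (hB : l ∈ B → y' = y ∧ d' = d ∧ NF B d m i G W)
    (hF : l ∉ B → y' l = dL d L p.1 ∧ ¬ NF B d m i G W)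
    (m0 : m' i = l) (m1 : ∀ j, j ≠ i → m' j = m j) (w0 : w' i = W) (w1 : ∀ j, j ≠ i → w' j = w j) :
    Lvl P B y₀ f (i + 1) y' d' m' w' (nxt G d' l W) := by
  have hE : Ext B i y m w y' m' w' := ⟨fun j hj => m1 j hj.ne, fun j hj => w1 j hj.ne,
    fun j hj => hy _ (hl j hj), fun l' h' => by
      by_cases e : l' = l
      · rw [(hB (e ▸ h')).1]
      · exact hy l' e⟩
  have hI : Id y' m i = Id y m i := Id_congr hE.hy
  have hI' : Id y' m' (i + 1) = Id y m i ⊔ Ideal.span {y' l} := by rw [Id_succ hE.hm, hI, m0]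
  have hD : ∀ a ∈ Id y m i, d' l a ∈ Id y m i := hI ▸ der_Id hfr hl
  have hsum : ∀ β β' : ℕ → ℕ, (∀ j < i, β' j = β j) →
      ∑ j ∈ Finset.range i, (β' j : ℝ) * w' j = ∑ j ∈ Finset.range i, (β j : ℝ) * w j :=
    fun β β' e => Finset.sum_congr rfl fun j hj => by
      rw [e j (Finset.mem_range.1 hj), hE.hw j (Finset.mem_range.1 hj)]
  have h5 : ∀ j < i + 1, W ≤ w' j := fun j hj => by
    rcases Nat.lt_succ_iff_lt_or_eq.1 hj with hj | rfl
    · exact hE.hw j hj ▸ h4 j hj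
    · exact w0.ge
  have hdiv : ∀ j < i + 1, m' j ∈ B → w' j = W → l ∈ B := fun j hj hm e => by
    rcases Nat.lt_succ_iff_lt_or_eq.1 hj with hj | rfl
    · by_contra h6
      rw [hE.hw j hj] at e
      exact (hF h6).2 (e ▸ h.nf j hj (hE.hm j hj ▸ hm) fun j' h' => e ▸ h4 j' h')
    · exact m0 ▸ hm
  have hord : ∀ q ∈ nxt G d' l W, ∃ k : ℕ, q.2 ≤ (k + 1 : ℕ) * W ∧
      q.1 ∈ Id y m i ⊔ maximalIdeal R ^ (k + 1) := by
    rintro _ ⟨q, hq, t, ht, rfl⟩
    obtain ⟨k, h6, h7⟩ := h2 q hq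
    have h8 : t < k := by exact_mod_cast lt_of_mul_lt_mul_right (ht.trans_le h6) hW.le
    obtain ⟨s, rfl⟩ := Nat.exists_eq_add_of_lt h8
    refine ⟨s, by push_cast at h6 ⊢; linarith, dL_ord (fun l' h' => ?_) _ ?_⟩
    · rw [List.eq_of_mem_replicate h']
      exact hD
    · rwa [List.length_replicate, show s + 1 + t = t + s + 1 by ring]
  have hx : ∀ {y'' m'' w''}, Ext B (i + 1) y' m' w' y'' m'' w'' →
      (∀ j < i + 1, y'' (m'' j) = y' (m' j)) ∧ w'' i = W := fun e =>
    ⟨fun j hj => by rw [e.hm j hj, e.hy j hj], (e.hw i (by omega)).trans w0⟩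
  have hk : ∀ j < i, d' l (y' (m' j)) = 0 := fun j hj => kill hfr (hE.hm j hj ▸ hl j hj)
  refine ⟨hfr, hpy, fun l' h' => (hE.hB l' h').trans (h.eqB l' h'), fun a ha b hb e => ?_,
    fun a b hab => ?_, ⟨fun j hj => ?_, fun j hj => ?_⟩, fun a b hab hb e ha => ?_,
    nxt_fin h.fin hW l, fun q hq => ⟨?_, ?_⟩, ?_, ?_, fun q hq j hj => ?_, fun j hj hm hj' => ?_,
    fun y'' m'' w'' e => ?_, fun y'' m'' w'' e ha hq => ?_, fun y'' m'' w'' e j hj => ?_⟩
  · rcases Nat.lt_succ_iff_lt_or_eq.1 ha with ha | rfl <;>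
      rcases Nat.lt_succ_iff_lt_or_eq.1 hb with hb | rfl
    · exact h.inj a ha b hb (by rwa [hE.hm a ha, hE.hm b hb] at e)
    · exact absurd (by rwa [hE.hm a ha, m0] at e) (hl a ha)
    · exact absurd (by rw [hE.hm b hb, m0] at e; exact e.symm) (hl b hb)
    · rfl
  · rcases eq_or_ne b i with rfl | hb
    · exact w0 ▸ h5 a (by omega)
    · rcases eq_or_ne a i with rfl | ha
      · rw [w1 b hb, w0, h.reach.2 b hab]
        exact hW.le
      · rw [w1 a ha, w1 b hb]
        exact h.anti hab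
  · refine ⟨hW.trans_le (h5 j hj), ?_⟩
    rcases Nat.lt_succ_iff_lt_or_eq.1 hj with hj | rfl
    · obtain ⟨k, β, h6, h7⟩ := (h.reach.1 j hj).2
      refine ⟨k, β, h6, ?_⟩
      rw [hE.hw j hj, h7]
      exact congrArg _ (Finset.sum_congr rfl fun a ha => by
        rw [hE.hw a ((Finset.mem_range.1 ha).trans hj)])
    · obtain ⟨β, h6⟩ := h.mark p hp
      refine ⟨L.length + 1, β, by omega, ?_⟩
      rw [w0, hsum β β fun _ _ => rfl, ← h6, ← hc]
      push_cast
      rfl
  · rw [w1 j (by omega), h.reach.2 j (by omega)]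
  · rcases Nat.lt_succ_iff_lt_or_eq.1 hb with hb | rfl
    · rw [hE.hm b hb]
      rw [hE.hm a (by omega)] at ha
      rw [hE.hw a (by omega), hE.hw b hb] at e
      exact h.sorted a b hab hb e ha
    · exact m0 ▸ hdiv a (by omega) ha (e.trans w0)
  · obtain ⟨q, -, t, ht, rfl⟩ := hq
    exact sub_pos.2 ht
  · obtain ⟨k, -, h6⟩ := hord q hq
    exact sup_le (Id_le h.fr m i) (Ideal.pow_le_self (by omega)) h6
  · rintro _ ⟨q, hq, t, -, rfl⟩
    exact dL_P hP (h.pg q hq)
  · rintro _ ⟨q, hq, t, -, rfl⟩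
    obtain ⟨β, h6⟩ := h.mark q hq
    refine ⟨Function.update β i t, ?_⟩
    rw [Finset.sum_range_succ, hsum β _ fun j hj => Function.update_of_ne hj.ne _ _,
      Function.update_self, w0, h6]
    ring
  · obtain ⟨k, h6, h7⟩ := hord q hq
    refine ⟨k + 1, h6.trans (mul_le_mul_of_nonneg_left (h5 j hj) (by positivity)), ?_⟩
    rw [hI']
    exact SetLike.le_def.1 (sup_le_sup_right le_sup_left _) h7
  · have e : w' j = W := le_antisymm (w0 ▸ hj' i (by omega)) (h5 j hj)
    obtain ⟨-, rfl, h6⟩ := hB (hdiv j hj hm e)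
    have hun : ∀ l', Un m' (i + 1) l' → Un m i l' := fun l' h' a ha =>
      hE.hm a ha ▸ h' a (by omega)
    rintro _ ⟨q, hq, t, -, rfl⟩ L' l' h7 h8 h9 h10
    refine h6 q hq (L' ++ List.replicate t l) l' (fun a ha => ?_) (hun _ h8) ?_ ?_
    · rcases List.mem_append.1 ha with ha | ha
      · exact hun _ (h7 a ha)
      · exact List.eq_of_mem_replicate ha ▸ hl
    · rw [e] at h9
      rw [List.length_append, List.length_replicate]
      push_cast
      linarith
    · rwa [dL_append]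
  · rintro _ ⟨q, hq, t, -, rfl⟩
    have := dL_der (d := d') (L := List.replicate t l) (fun a ha j hj => by
      rw [List.eq_of_mem_replicate ha, (hx e).1 j (by omega), hk j hj])
      (h.der _ _ _ (hE.trans e) q hq)
    rw [List.length_replicate, (hx e).2] at this
    exact this.succ
  · refine h.back _ _ _ (hE.trans e) ha (back_step (i := i) (d := d') (l := l) hT ha
      ((hx e).2 ▸ hW) (fun j hj => ?_) ?_ hD ?_)
    · rw [(hx e).1 j (by omega), hk j hj]
    · rw [(hx e).1 i (by omega), m0, hfr.dual, if_pos rfl]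
    · rwa [(hx e).1 i (by omega), (hx e).2, m0, ← hI']
  · rcases Nat.lt_succ_iff_lt_or_eq.1 hj with hj | rfl
    · exact h.wit _ _ _ (hE.trans e) j hj
    · refine ⟨d' l, dL d L p.1, ?_, fun a ha => ?_, hu, fun l' h6 h7 => ?_, fun h6 => ?_⟩
      · have := dL_der (d := d) (L := L) (fun a ha b hb => by
          rw [(hE.trans e).hm b hb, (hE.trans e).hy b hb]
          exact kill h.fr (hL a ha b hb)) (h.der _ _ _ (hE.trans e) p hp)
        rw [(hx e).2] at this ⊢
        rwa [show p.2 - L.length * W = W by linarith] at this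
      · rw [(hx e).1 a (by omega), hk a ha]
      · rw [e.hB l' h6]
        exact kill hfr (by rwa [e.hm j hj, m0] at h7)
      · rw [e.hm j hj, m0] at h6
        rw [(hx e).1 j hj, m0, (hF h6).1]

/-- the choice of the next coordinate -/
theorem Lvl.next [IsNoetherianRing R] (hE : StEULER) (hT : StTAYLOR) (hX : StXCH)
    (hP : ∀ (y : Fin N → R) d, AFr y d → (∀ l, P (y l)) → ∀ l a, P a → P (d l a))
    (h : Lvl P B y₀ f i y d m w G) (hG : ∃ p ∈ G, p.1 ∉ Id y m i) :
    ∃ y' d' m' w' G', Lvl P B y₀ f (i + 1) y' d' m' w' G' := by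
  obtain ⟨W, hW, h2, p, hp, k, h3, h4, h5⟩ := exists_wt (Id y m i) h.fin h.el hG
  have h6 : ∀ j < i, W ≤ w j := fun j hj => by
    obtain ⟨k', h7, h8⟩ := h.ord p hp j hj
    have h9 : k' ≤ k + 1 := le_of_not_gt fun h' =>
      h5 (SetLike.le_def.1 (sup_le_sup_left (Ideal.pow_le_pow_right h') _) h8)
    have h10 : (k' : ℝ) ≤ k + 1 := by exact_mod_cast h9
    refine le_of_mul_le_mul_left (a := (k + 1 : ℝ)) ?_ (by positivity)
    exact (h3.le.trans h7).trans (mul_le_mul_of_nonneg_right h10 (h.reach.1 j hj).1.le)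
  have m1 : ∀ (l : Fin N) j, j ≠ i → Function.update m i l j = m j :=
    fun l j hj => Function.update_of_ne hj _ _
  have w1 : ∀ j, j ≠ i → Function.update w i W j = w j := fun j hj => Function.update_of_ne hj _ _
  by_cases hN : NF B d m i G W
  · obtain ⟨L, e, h7, h8⟩ := hE R N y d (m '' Set.Iio i) (k + 1) p.1 h.fr h4 h5
    obtain ⟨l, L, rfl⟩ := List.exists_cons_of_length_eq_add_one e
    have h9 : ∀ l' ∈ l :: L, Un m i l' := fun l' h' j hj e' => h7 l' h' ⟨j, hj, e'⟩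
    have hL : ∀ l' ∈ L, Un m i l' := fun l' h' => h9 l' (List.mem_cons_of_mem _ h')
    have hc : (L.length + 1) * W = p.2 := by
      rw [← h3, ← Nat.succ_injective e]
    exact ⟨_, _, _, _, _, h.step hT hW h2 h6 hp hL (h9 l List.mem_cons_self) hc h.fr h.py
      (hP y d h.fr h.py) (fun _ _ => rfl) h8 (fun _ => ⟨rfl, rfl, hN⟩)
      (fun h' => absurd (hN p hp L l hL (h9 l List.mem_cons_self) hc h8) h')
      (Function.update_self ..) (m1 l) (Function.update_self ..) w1⟩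
  · have hN' := hN
    unfold NF at hN'
    push Not at hN'
    obtain ⟨q, hq, L, l, hL, hl, hc, hu, hB⟩ := hN'
    have hm : dL d L q.1 ∈ maximalIdeal R := by
      obtain ⟨k', h7, h8⟩ := h2 q hq
      have h9 : 1 + L.length ≤ k' := by
        have := le_of_mul_le_mul_right (hc.le.trans h7) hW
        rw [add_comm]
        exact_mod_cast this
      have := dL_ord (fun l' h' => der_Id h.fr (hL l' h')) 1
        (SetLike.le_def.1 (sup_le_sup_left (Ideal.pow_le_pow_right h9) _) h8)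
      exact sup_le (Id_le h.fr m i) (pow_one _).le this
    obtain ⟨d', hd⟩ := hX R N y d l _ h.fr hm hu
    have hpy : ∀ l', P (Function.update y l (dL d L q.1) l') := fun l' => by
      rw [Function.update_apply]
      split_ifs
      · exact dL_P (hP y d h.fr h.py) (h.pg q hq)
      · exact h.py l'
    have hu' : IsUnit (d' l (dL d L q.1)) := by
      have := hd.dual l l
      rw [Function.update_self, if_pos rfl] at this
      rw [this]
      exact isUnit_one
    exact ⟨_, _, _, _, _, h.step hT hW h2 h6 hq hL hl hc hd hpy (hP _ _ hd hpy)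
      (fun _ h' => Function.update_of_ne h' _ _) hu' (fun h' => absurd h' hB)
      (fun _ => ⟨Function.update_self .., hN⟩)
      (Function.update_self ..) (m1 l) (Function.update_self ..) w1⟩

end Ex

/-- existence of the canonical centre -/
theorem ex (hE : StEULER) (hT : StTAYLOR) (hX : StXCH) : StEX := by
  intro R _ _ _ _ N P hP B y d f h hy hf h0 hm
  have key : ∀ r i y' d' m w G, N - i = r → Ex.Lvl P B y f i y' d' m w G →
      ∃ (y' : Fin N → R) (d' : _) (n : ℕ) (m : ℕ → Fin N) (w : ℕ → ℝ),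
        AFr y' d' ∧ (∀ l, P (y' l)) ∧ (∀ l ∈ B, y' l = y l) ∧ Cen B y' f n m w := by
    intro r
    induction r using Nat.strong_induction_on with
    | _ r ih =>
      intro i y' d' m w G e hL
      by_cases hG : ∃ p ∈ G, p.1 ∉ Ex.Id y' m i
      · obtain ⟨y'', d'', m', w', G', h'⟩ := hL.next hE hT hX hP hG
        have := h'.le
        exact ih _ (by omega) _ _ _ _ _ _ rfl h'
      · push Not at hG
        exact ⟨y', d', i, m, w, hL.fr, hL.py, hL.eqB, hL.stop hG⟩
  rcases isEmpty_or_nonempty (Fin N) with hN | ⟨⟨l⟩⟩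
  · rw [h.span, Set.range_eq_empty, Ideal.span_empty] at hm
    exact absurd hm h0
  · exact key _ _ _ _ _ _ _ rfl (Ex.Lvl.zero h hy hf hm fun _ => l)

end Vale.Agent.P282Y
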