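import Vale.Agent.P282Y.Loc

/-!
# P282Y: parameters give frames
-/

open IsLocalRing

noncomputable section

namespace Vale.Agent.P282Y

theorem frame : StFRAME := by
  intro K _ _ Γ _ v h hm N η x d₀ hs hd hx
  have leib : ∀ a b : K, (fun l => d₀ l (a * b)) = a • (fun l => d₀ l b) + b • fun l => d₀ l a :=
    fun a b => funext fun l => by simp
  set W₀ : Submodule (Loc v h) (Fin N → K) :=
    Submodule.span _ (Set.range fun k l => d₀ l (η k)) with hW₀
  set W : Submodule (Loc v h) (Fin N → K) :=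
    Submodule.span _ ((fun a l => d₀ l a) '' h) with hW
  have sm : ∀ a ∈ Loc v h, ∀ b ∈ W, a • b ∈ W := fun a ha b hb => W.smul_mem ⟨a, ha⟩ hb
  have h1 : ∀ a ∈ Algebra.adjoin ℂ h, (fun l => d₀ l a) ∈ W := by
    intro a ha
    induction ha using Algebra.adjoin_induction with
    | mem a ha => exact Submodule.subset_span ⟨a, ha, rfl⟩
    | algebraMap c => simp only [Derivation.map_algebraMap]; exact W.zero_mem
    | add a b _ _ ha hb => simp only [map_add]; exact W.add_mem ha hb
    | mul a b ha' hb' ha hb =>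
      rw [leib]
      exact add_mem (sm _ (adjoin_le_Loc ha') _ hb) (sm _ (adjoin_le_Loc hb') _ ha)
  have h2 : ∀ a ∈ Loc v h, (fun l => d₀ l a) ∈ W := by
    intro a ha
    obtain ⟨p, hp, b, hb, h2, rfl⟩ := id ha
    have h3 : b ≠ 0 := by rintro rfl; simp at h2
    have := sm _ (inv_mem_Loc (adjoin_le_Loc hb) h2) _ (sub_mem (h1 _ hp) (sm _ ha _ (h1 _ hb)))
    rwa [leib, add_sub_cancel_left, inv_smul_smul₀ h3] at this
  have h3 : W ≤ W₀ := by
    refine Submodule.le_of_le_smul_of_le_jacobson_bot (I := maximalIdeal (Loc v h))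
      (Submodule.fg_span (hm.fin.image _)) (maximalIdeal_le_jacobson _) (Submodule.span_le.2 ?_)
    rintro _ ⟨g, hg, rfl⟩
    obtain ⟨c, hc⟩ := Md.res (⟨g, mem_Loc hg⟩ : Loc v h)
    rw [hs] at hc
    obtain ⟨s, hs'⟩ := Ideal.mem_span_range_iff_exists_fun.1 hc
    have h4 : g = ∑ k, (s k : K) * η k + algebraMap ℂ K c := by
      rw [← sub_eq_iff_eq_add]
      simpa using (congrArg Subtype.val hs').symm
    have h5 : (fun l => d₀ l g) = ∑ k, fun l => d₀ l ((s k : K) * η k) := by
      ext l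
      rw [h4, map_add, map_sum, Derivation.map_algebraMap, add_zero, Finset.sum_apply]
    show (fun l => d₀ l g) ∈ _
    rw [h5]
    refine sum_mem fun k _ => ?_
    rw [leib]
    exact Submodule.add_mem_sup (W₀.smul_mem (s k) (Submodule.subset_span ⟨k, rfl⟩))
      (Submodule.smul_mem_smul (hs ▸ Ideal.subset_span ⟨k, rfl⟩) (h2 _ (s k).2))
  have h4 : ∀ a ∈ Loc v h, ∃ c : Fin N → Loc v h, ∀ l, d₀ l a = ∑ k, d₀ l (η k) * c k := by
    intro a ha
    obtain ⟨c, hc⟩ := (Submodule.mem_span_range_iff_exists_fun _).1 (h3 (h2 a ha))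
    exact ⟨c, fun l => by simpa [Subalgebra.smul_def, mul_comm] using (congrFun hc l).symm⟩
  have h5 : ∀ m, ∃ b : Fin N → K, ∀ l, ∑ k, d₀ l (η k) * b k = if l = m then 1 else 0 := by
    intro m
    obtain ⟨p, hp, q, hq, h0, e⟩ := hx m
    obtain ⟨a, ha⟩ := h4 p hp
    obtain ⟨b, hb⟩ := h4 q hq
    refine ⟨fun k => q⁻¹ * (a k - x m * b k), fun l => ?_⟩
    have h6 := congrFun (leib (x m) q) l
    simp only [e, Pi.add_apply, Pi.smul_apply, smul_eq_mul, ha, hb] at h6
    rw [← hd.dual, ← mul_right_inj' h0, eq_sub_of_add_eq' h6.symm, Finset.mul_sum, Finset.mul_sum,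
      ← Finset.sum_sub_distrib]
    exact Finset.sum_congr rfl fun k _ => by field_simp
  choose b hb using h5
  obtain ⟨d, hd'⟩ := hd.of_matrix (fun k => (η k : K)) fun h0 => by
    have h6 : (Matrix.of fun l k => d₀ l (η k)) * (Matrix.of fun k m => b m k) = 1 := by
      ext l m
      simpa [Matrix.mul_apply, Matrix.one_apply] using hb m l
    have h7 := congrArg Matrix.det h6
    rw [jac] at h0
    rw [Matrix.det_mul, h0, zero_mul, Matrix.det_one] at h7
    exact zero_ne_one h7
  refine ⟨d, hs, hd', fun k a ha => ?_⟩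
  obtain ⟨c, hc⟩ := h4 a ha
  have h6 : d k a = ∑ j, d k (η j) * c j := by
    simp only [hd.eq_sum (d k) a, hc, fun j => hd.eq_sum (d k) (η j), Finset.mul_sum,
      Finset.sum_mul, mul_assoc]
    exact Finset.sum_comm
  simp [h6, hd'.dual]

end Vale.Agent.P282Y
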