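import Vale.Agent.P282Y.Sk

/-!
# P282Y: the invariants of the local ring of a model with homogeneous generators
-/

open IsLocalRing

noncomputable section

namespace Vale.Agent.P282Y

namespace Grd

variable {Ω : Type} [Field Ω] [Algebra ℂ Ω] {G : Subgroup (Ω ≃ₐ[ℂ] Ω)}

variable (G) in
/-- the characters -/
def Ch : Type := G →* ℂˣ

instance : CommGroup (Ch G) := inferInstanceAs (CommGroup (G →* ℂˣ))

/-- the homomorphism -/
def Ch.h (χ : Ch G) : G →* ℂˣ := χ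

theorem Ch.mul_h (χ ψ : Ch G) (σ : G) : (χ * ψ).h σ = χ.h σ * ψ.h σ := rfl

theorem Ch.one_h (σ : G) : (1 : Ch G).h σ = 1 := rfl

theorem Ch.inv_h (χ : Ch G) (σ : G) : (χ⁻¹).h σ = (χ.h σ)⁻¹ := rfl

theorem Ch.pow_h (χ : Ch G) (n : ℕ) (σ : G) : (χ ^ n).h σ = χ.h σ ^ n := by
  induction n with
  | zero => rw [pow_zero, pow_zero, Ch.one_h]
  | succ n ih => rw [pow_succ, pow_succ, Ch.mul_h, ih]

theorem Ch.ext' {χ ψ : Ch G} (h : ∀ σ, χ.h σ = ψ.h σ) : χ = ψ := MonoidHom.ext h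

/-- elements of weight `χ` -/
def Wt (χ : Ch G) (a : Ω) : Prop := ∀ σ : G, σ.1 a = algebraMap ℂ Ω (χ.h σ) * a

theorem Wt.zero (χ : Ch G) : Wt χ (0 : Ω) := fun σ => by simp

theorem Wt.add {χ : Ch G} {a b : Ω} (ha : Wt χ a) (hb : Wt χ b) : Wt χ (a + b) := fun σ => by
  rw [map_add, ha σ, hb σ, mul_add]

theorem Wt.smul {χ : Ch G} {a : Ω} (c : ℂ) (ha : Wt χ a) : Wt χ (c • a) := fun σ => by
  rw [map_smul, ha σ, mul_smul_comm]

theorem Wt.mul {χ ψ : Ch G} {a b : Ω} (ha : Wt χ a) (hb : Wt ψ b) : Wt (χ * ψ) (a * b) :=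
  fun σ => by
    rw [map_mul, ha σ, hb σ, Ch.mul_h, Units.val_mul, map_mul]
    ring

theorem wt_one {a : Ω} : Wt (1 : Ch G) a ↔ Fix G a :=
  ⟨fun h σ hσ => by simpa [Ch.one_h] using h ⟨σ, hσ⟩,
    fun h σ => by simpa [Ch.one_h] using h σ.1 σ.2⟩

theorem Wt.one : Wt (1 : Ch G) (1 : Ω) := fun σ => by simp [Ch.one_h]

theorem Wt.inv {χ : Ch G} {a : Ω} (ha : Wt χ a) : Wt χ⁻¹ a⁻¹ := fun σ => by
  rw [map_inv₀, ha σ, mul_inv, Ch.inv_h, Units.val_inv_eq_inv_val, map_inv₀]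

theorem Wt.pow {χ : Ch G} {a : Ω} (ha : Wt χ a) (n : ℕ) : Wt (χ ^ n) (a ^ n) := by
  induction n with
  | zero => simpa using Wt.one
  | succ n ih => rw [pow_succ, pow_succ]; exact ih.mul ha

theorem Wt.prod {ι : Type} (s : Finset ι) {χ : ι → Ch G} {a : ι → Ω}
    (ha : ∀ i ∈ s, Wt (χ i) (a i)) : Wt (∏ i ∈ s, χ i) (∏ i ∈ s, a i) := by
  classical
  induction s using Finset.induction_on with
  | empty => simpa using Wt.one
  | insert i s hi ih =>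
    rw [Finset.prod_insert hi, Finset.prod_insert hi]
    exact (ha i (Finset.mem_insert_self _ _)).mul (ih fun j hj => ha j (Finset.mem_insert_of_mem hj))

theorem exists_wt {a : Ω} (ha : Hm G a) : ∃ k : ℕ, 0 < k ∧ ∃ χ : Ch G, χ ^ k = 1 ∧ Wt χ a := by
  rcases eq_or_ne a 0 with rfl | h0
  · exact ⟨1, one_pos, 1, by simp, Wt.zero _⟩
  obtain ⟨k, hk, ha⟩ := ha
  choose c hc1 hc2 using fun σ : G => ha σ.1 σ.2
  have hne : ∀ σ, c σ ≠ 0 := fun σ h => by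
    have := hc1 σ
    rw [h, zero_pow hk.ne'] at this
    exact zero_ne_one this
  have hinj : ∀ x y : ℂ, algebraMap ℂ Ω x * a = algebraMap ℂ Ω y * a → x = y := fun x y h =>
    (algebraMap ℂ Ω).injective (mul_right_cancel₀ h0 h)
  refine ⟨k, hk, MonoidHom.mk' (fun σ => Units.mk0 (c σ) (hne σ)) fun σ τ => ?_, ?_, fun σ => hc2 σ⟩
  · refine Units.ext (hinj _ _ ?_)
    have h1 : (σ * τ).1 a = σ.1 (τ.1 a) := rfl
    have h2 := hc2 (σ * τ)
    rw [h1, hc2 τ, map_mul, AlgEquiv.commutes, hc2 σ] at h2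
    simp only [Units.val_mul, Units.val_mk0, map_mul]
    rw [← h2]
    ring
  · refine Ch.ext' fun σ => ?_
    exact (Ch.pow_h _ k σ).trans
      (Units.ext ((Units.val_pow_eq_pow_val _ _).trans (hc1 σ)))

theorem exists_wt_set {t : Set Ω} (ht : t.Finite) (h : ∀ a ∈ t, Hm G a) :
    ∃ k : ℕ, 0 < k ∧ ∀ a ∈ t, ∃ χ : Ch G, χ ^ k = 1 ∧ Wt χ a := by
  induction t, ht using Set.Finite.induction_on with
  | empty => exact ⟨1, one_pos, fun a ha => ha.elim⟩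
  | @insert a t _ _ ih =>
    obtain ⟨k, hk, h1⟩ := ih fun b hb => h b (Set.mem_insert_of_mem _ hb)
    obtain ⟨k', hk', χ, h2, h3⟩ := exists_wt (h a (Set.mem_insert _ _))
    refine ⟨k * k', mul_pos hk hk', ?_⟩
    rintro b (rfl | hb)
    · exact ⟨χ, by rw [mul_comm, pow_mul, h2, one_pow], h3⟩
    · obtain ⟨ψ, h4, h5⟩ := h1 b hb
      exact ⟨ψ, by rw [pow_mul, h4, one_pow], h5⟩

/-- decompositions into homogeneous components -/
def Cmp (a : Ω) (f : (Ch G) →₀ Ω) : Prop := (∀ χ, Wt χ (f χ)) ∧ f.sum (fun _ z => z) = a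

theorem Cmp.eq_zero {f : (Ch G) →₀ Ω} (hf : Cmp 0 f) : f = 0 := by
  let ι : (Ch G) → (G →* Ω) := fun χ =>
    ((algebraMap ℂ Ω : ℂ →* Ω).comp (Units.coeHom ℂ)).comp χ.h
  have hι : Function.Injective ι := fun χ ψ h => Ch.ext' fun σ =>
    Units.ext ((algebraMap ℂ Ω).injective (DFunLike.congr_fun h σ))
  have hl := (linearIndependent_monoidHom G Ω).comp ι hι
  refine linearIndependent_iff.1 hl f ?_
  rw [Finsupp.linearCombination_apply]
  ext σ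
  have h1 := congrArg σ.1 hf.2
  rw [map_zero, Finsupp.sum, map_sum] at h1
  rw [Finsupp.sum, Finset.sum_apply, Pi.zero_apply, ← h1]
  refine Finset.sum_congr rfl fun χ _ => ?_
  rw [hf.1 χ σ, mul_comm]
  rfl

theorem Cmp.unique {a : Ω} {f g : (Ch G) →₀ Ω} (hf : Cmp a f) (hg : Cmp a g) : f = g := by
  refine sub_eq_zero.1 (Cmp.eq_zero ⟨fun χ σ => ?_, ?_⟩)
  · rw [Finsupp.sub_apply, map_sub, hf.1 χ σ, hg.1 χ σ, mul_sub]
  · rw [Finsupp.sum_sub_index fun _ _ _ => rfl, hf.2, hg.2, sub_self]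

theorem Cmp.sum {ι : Type} (s : Finset ι) {a : ι → Ω} {f : ι → (Ch G) →₀ Ω}
    (hf : ∀ i, Cmp (a i) (f i)) : Cmp (∑ i ∈ s, a i) (∑ i ∈ s, f i) := by
  classical
  induction s using Finset.induction_on with
  | empty => exact ⟨fun χ => Wt.zero χ, by simp⟩
  | insert i s hi ih =>
    rw [Finset.sum_insert hi, Finset.sum_insert hi]
    exact ⟨fun χ => ((hf i).1 χ).add (ih.1 χ), by
      rw [Finsupp.sum_add_index' (fun _ => rfl) fun _ _ _ => rfl, (hf i).2, ih.2]⟩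

theorem Cmp.mul {a x : Ω} {f : (Ch G) →₀ Ω} {ψ : Ch G} (hf : Cmp a f) (hx : Wt ψ x) :
    ∃ g, Cmp (a * x) g ∧ ∀ χ, g χ = f (χ * ψ⁻¹) * x := by
  refine ⟨(Finsupp.equivMapDomain (Equiv.mulRight ψ) f).mapRange (· * x) (zero_mul x),
    ⟨fun χ => ?_, ?_⟩, fun χ => rfl⟩
  · have := (hf.1 (χ * ψ⁻¹)).mul hx
    rwa [inv_mul_cancel_right] at this
  · rw [Finsupp.sum_mapRange_index fun _ => rfl, Finsupp.sum_equivMapDomain, ← hf.2,
      Finsupp.sum_mul]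

variable (G) in
/-- the span of the monomials of weight `χ` -/
def Sp (h : Set Ω) (k : ℕ) (χ : Ch G) : Submodule ℂ Ω :=
  Submodule.span ℂ {m | m ∈ Submonoid.closure h ∧ χ ^ k = 1 ∧ Wt χ m}

variable {h : Set Ω} {k : ℕ}

theorem Sp.wt {χ : Ch G} {a : Ω} (ha : a ∈ Sp G h k χ) : Wt χ a := by
  induction ha using Submodule.span_induction with
  | mem m hm => exact hm.2.2
  | zero => exact Wt.zero _
  | add a b _ _ ha hb => exact ha.add hb
  | smul c a _ ha => exact ha.smul c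

theorem Sp.mem {χ : Ch G} {a : Ω} (ha : a ∈ Sp G h k χ) : a ∈ Algebra.adjoin ℂ h := by
  rw [← Subalgebra.mem_toSubmodule, Algebra.adjoin_eq_span]
  exact Submodule.span_mono (fun m hm => hm.1) ha

theorem Sp.ord {χ : Ch G} {a : Ω} (ha : a ∈ Sp G h k χ) (h0 : a ≠ 0) : χ ^ k = 1 := by
  by_contra hc
  have : Sp G h k χ = ⊥ := Submodule.span_eq_bot.2 fun m hm => (hc hm.2.1).elim
  rw [this] at ha
  exact h0 ha

theorem exists_cmp (hh : ∀ a ∈ h, ∃ χ : Ch G, χ ^ k = 1 ∧ Wt χ a) {a : Ω}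
    (ha : a ∈ Algebra.adjoin ℂ h) : ∃ f, Cmp a f ∧ ∀ χ, f χ ∈ Sp G h k χ := by
  have h1 : a ∈ ⨆ χ, Sp G h k χ := by
    rw [← Subalgebra.mem_toSubmodule, Algebra.adjoin_eq_span] at ha
    refine Submodule.span_le.2 (fun m hm => ?_) ha
    obtain ⟨χ, h1, h2⟩ : ∃ χ : Ch G, χ ^ k = 1 ∧ Wt χ m := by
      induction hm using Submonoid.closure_induction with
      | mem a ha => exact hh a ha
      | one => exact ⟨1, one_pow _, Wt.one⟩
      | mul a b _ _ ha hb =>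
        obtain ⟨χ, h1, h2⟩ := ha
        obtain ⟨ψ, h3, h4⟩ := hb
        exact ⟨χ * ψ, by rw [mul_pow, h1, h3, one_mul], h2.mul h4⟩
    exact Submodule.mem_iSup_of_mem χ (Submodule.subset_span ⟨hm, h1, h2⟩)
  obtain ⟨f, hf, h2⟩ := (Submodule.mem_iSup_iff_exists_finsupp _ _).1 h1
  exact ⟨f, ⟨fun χ => Sp.wt (hf χ), h2⟩, hf⟩

variable {Γ : Type} [LinearOrderedCommGroupWithZero Γ] {v : Valuation Ω Γ}

theorem main [Md v h] (hh : ∀ a ∈ h, ∃ χ : Ch G, χ ^ k = 1 ∧ Wt χ a) {ι : Type} [Fintype ι]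
    {x b : Ω} {ψ : Ch G} {y a : ι → Ω} {θ : ι → Ch G} (hx : Wt ψ x)
    (hy : ∀ l, Wt (θ l) (y l)) (hb : b ∈ Algebra.adjoin ℂ h) (hv : v b = 1)
    (ha : ∀ l, a l ∈ Algebra.adjoin ℂ h) (e : b * x = ∑ l, a l * y l) :
    ∃ (χ : Ch G) (b' : Ω) (a' : ι → Ω), b' ∈ Sp G h k χ ∧ v b' = 1 ∧
      (∀ l, a' l ∈ Sp G h k (χ * ψ * (θ l)⁻¹)) ∧ b' * x = ∑ l, a' l * y l := by
  obtain ⟨f, hf, hf'⟩ := exists_cmp hh hb
  choose g hg hg' using fun l => exists_cmp hh (ha l)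
  obtain ⟨f₁, h1, h1'⟩ := hf.mul hx
  choose g₁ h2 h2' using fun l => (hg l).mul (hy l)
  have h3 := Cmp.sum Finset.univ h2
  rw [← e] at h3
  have h4 := h1.unique h3
  obtain ⟨χ, hχ⟩ : ∃ χ, v (f χ) = 1 := by
    by_contra hc
    have : v b < 1 := by
      rw [← hf.2, Finsupp.sum]
      exact v.map_sum_lt one_ne_zero fun χ _ =>
        lt_of_le_of_ne (Md.adjoin_le (Sp.mem (hf' χ))) fun h => hc ⟨χ, h⟩
    exact this.ne hv
  refine ⟨χ, f χ, fun l => g l (χ * ψ * (θ l)⁻¹), hf' χ, hχ, fun l => hg' l _, ?_⟩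
  have h5 := DFunLike.congr_fun h4 (χ * ψ)
  rw [h1', mul_inv_cancel_right, Finsupp.finsetSum_apply] at h5
  rw [h5]
  exact Finset.sum_congr rfl fun l _ => h2' l _

variable (G) in
/-- the invariant monomials of small degree -/
def H0 (s : Finset Ω) (k : ℕ) : Set Ω :=
  {z | Fix G z ∧ ∃ e : s → ℕ, (∀ a, e a ≤ k) ∧ z = ∏ a : s, (a : Ω) ^ e a}

theorem H0_finite (s : Finset Ω) (k : ℕ) : (H0 G s k).Finite :=
  ((Set.Finite.pi' fun _ : s => Set.finite_le_nat k).image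
    fun e : s → ℕ => ∏ a : s, (a : Ω) ^ e a).subset fun _ hz => by
      obtain ⟨-, e, h1, h2⟩ := hz
      exact ⟨e, h1, h2.symm⟩

theorem fix_mem {s : Finset Ω} (hk : 0 < k)
    (hh : ∀ a ∈ (s : Set Ω), ∃ χ : Ch G, χ ^ k = 1 ∧ Wt χ a) {z : Ω}
    (hz : z ∈ Algebra.adjoin ℂ (s : Set Ω)) (hf : Fix G z) : z ∈ Algebra.adjoin ℂ (H0 G s k) := by
  classical
  obtain ⟨f, h1, h2⟩ := exists_cmp hh hz
  have h3 : Cmp z (Finsupp.single (1 : Ch G) z) := ⟨fun χ => by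
    rw [Finsupp.single_apply]
    split_ifs with hχ
    · exact hχ ▸ wt_one.2 hf
    · exact Wt.zero _, Finsupp.sum_single_index rfl⟩
  have h4 : z ∈ Sp G s k 1 := by simpa [h1.unique h3] using h2 1
  refine (Submodule.span_le (p := (Algebra.adjoin ℂ (H0 G s k)).toSubmodule)).2 ?_ h4
  rintro m ⟨hm, -, hw⟩
  obtain ⟨e, -, rfl⟩ := Submonoid.mem_closure_finset.1 hm
  have hp : ∀ a : s, Fix G ((a : Ω) ^ k) := fun a => by
    obtain ⟨χ, h5, h6⟩ := hh a a.2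
    exact wt_one.1 (h5 ▸ h6.pow k)
  have e1 : ∏ a ∈ s, a ^ e a =
      (∏ a : s, ((a : Ω) ^ k) ^ (e a / k)) * ∏ a : s, (a : Ω) ^ (e a % k) := by
    rw [← Finset.prod_mul_distrib, ← Finset.prod_coe_sort s]
    refine Finset.prod_congr rfl fun a _ => ?_
    rw [← pow_mul, ← pow_add, Nat.div_add_mod]
  rcases eq_or_ne (∏ a : s, ((a : Ω) ^ k) ^ (e a / k)) 0 with h0 | h0
  · rw [e1, h0, zero_mul]
    exact zero_mem _
  have hu : Fix G (∏ a : s, ((a : Ω) ^ k) ^ (e a / k)) := Fix.prod fun a _ => by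
    rw [← zpow_natCast]
    exact (hp a).zpow _
  have hr : Fix G (∏ a : s, (a : Ω) ^ (e a % k)) := by
    have := hu.inv.mul (wt_one.1 hw)
    rwa [e1, inv_mul_cancel_left₀ h0] at this
  rw [e1]
  change _ ∈ Algebra.adjoin ℂ (H0 G s k)
  refine mul_mem (prod_mem fun a _ => pow_mem (Algebra.subset_adjoin ?_) _)
    (Algebra.subset_adjoin ⟨hr, _, fun a => (Nat.mod_lt _ hk).le, rfl⟩)
  refine ⟨hp a, Pi.single a k, fun b => ?_, ?_⟩
  · rw [Pi.single_apply]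
    split_ifs <;> simp
  · rw [Finset.prod_eq_single a (fun b _ hb => by simp [hb]) (by simp)]
    simp

theorem part1 {s : Finset Ω} [Md v (s : Set Ω)] (hk : 0 < k)
    (hh : ∀ a ∈ (s : Set Ω), ∃ χ : Ch G, χ ^ k = 1 ∧ Wt χ a) {x : Ω}
    (hx : x ∈ Loc v (s : Set Ω)) (hf : Fix G x) : x ∈ Loc v (H0 G s k) := by
  obtain ⟨a, ha, b, hb, hv, e⟩ := hx
  obtain ⟨χ, b', a', h1, h2, h3, h4⟩ := main (ι := Unit) (y := fun _ => 1) (a := fun _ => a)
    (θ := fun _ => 1) hh (wt_one.2 hf) (fun _ => Wt.one) hb hv (fun _ => ha)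
    (by simp [← e, mul_comm])
  have h0 : b' ≠ 0 := by rintro rfl; simp at h2
  have h5 : Fix G (b' ^ k) := wt_one.1 (Sp.ord h1 h0 ▸ (Sp.wt h1).pow k)
  refine ⟨_, fix_mem hk hh ?_ (hf.mul h5), _, fix_mem hk hh (pow_mem (Sp.mem h1) k) h5,
    by rw [map_pow, h2, one_pow], rfl⟩
  obtain ⟨j, rfl⟩ := Nat.exists_eq_add_one_of_ne_zero hk.ne'
  have : x * b' ^ (j + 1) = a' () * b' ^ j := by
    have h6 : b' * x = a' () := by simpa using h4
    rw [← h6]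
    ring
  rw [this]
  exact mul_mem (Sp.mem (h3 ())) (pow_mem (Sp.mem h1) j)

theorem split [Md v h] (hh : ∀ a ∈ h, ∃ χ : Ch G, χ ^ k = 1 ∧ Wt χ a) {N : ℕ}
    {y : Fin N → Loc v h} (hs : maximalIdeal (Loc v h) = Ideal.span (Set.range y))
    {θ : Fin N → Ch G} (hy : ∀ l, Wt (θ l) (y l : Ω)) {t : Ω} {ψ : Ch G} (ht : t ∈ Loc v h)
    (hw : Wt ψ t) (hv : v t < 1) : ∃ t' : Fin N → Ω, (∀ l, t' l ∈ Loc v h ∧
      Wt (ψ * (θ l)⁻¹) (t' l)) ∧ t = ∑ l, t' l * y l := by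
  classical
  have h1 := (mem_max_Loc (⟨t, ht⟩ : Loc v h)).2 hv
  rw [hs] at h1
  obtain ⟨c, hc⟩ := Ideal.mem_span_range_iff_exists_fun.1 h1
  choose a ha b hb h2 h3 using fun l => (c l).2
  have h4 : t = ∑ l, (c l : Ω) * y l := by
    have := congrArg (Subalgebra.val _) hc
    rw [map_sum] at this
    exact this.symm
  have hvb : v (∏ m, b m) = 1 :=
    Finset.prod_induction b (fun z => v z = 1) (fun _ _ p q => by rw [v.map_mul, p, q, one_mul])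
      v.map_one fun m _ => h2 m
  obtain ⟨χ, b', a', h5, h6, h7, h8⟩ := main (y := fun l => (y l : Ω))
    (a := fun l => a l * ∏ m ∈ Finset.univ.erase l, b m) (b := ∏ m, b m) hh hw hy
    (prod_mem fun m _ => hb m) hvb
    (fun l => mul_mem (ha l) (prod_mem fun m _ => hb m)) (by
      rw [h4, Finset.mul_sum]
      refine Finset.sum_congr rfl fun l _ => ?_
      rw [← h3 l, ← Finset.mul_prod_erase _ _ (Finset.mem_univ l)]
      ring)
  have h0 : b' ≠ 0 := fun h0 => zero_ne_one (v.map_zero.symm.trans (h0 ▸ h6))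
  refine ⟨fun l => b'⁻¹ * a' l, fun l => ⟨mul_mem (inv_mem_Loc (adjoin_le_Loc (Sp.mem h5)) h6)
    (adjoin_le_Loc (Sp.mem (h7 l))), ?_⟩, ?_⟩
  · have := (Sp.wt h5).inv.mul (Sp.wt (h7 l))
    rwa [mul_assoc, inv_mul_cancel_left] at this
  · simp only [mul_assoc]
    rw [← Finset.mul_sum, ← h8, inv_mul_cancel_left₀ h0]

theorem part2 [Md v h] (hk : 0 < k) (hh : ∀ a ∈ h, ∃ χ : Ch G, χ ^ k = 1 ∧ Wt χ a) {N : ℕ}
    {y : Fin N → Loc v h} (hs : maximalIdeal (Loc v h) = Ideal.span (Set.range y))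
    {θ : Fin N → Ch G} (hy : ∀ l, Wt (θ l) (y l : Ω)) (hθ : ∀ l, θ l ^ k = 1) (n : ℕ) :
    ∀ (α : Fin N → ℕ) (t : Ω) (ψ : Ch G), N * k ≤ ∑ l, α l + n → t ∈ Loc v h → Wt ψ t →
      ψ * ∏ l, θ l ^ α l = 1 → (α ≠ 0 ∨ v t < 1) → t * ∏ l, (y l : Ω) ^ α l ∈
      AddSubmonoid.closure {t | ∃ s ∈ Loc v h, Fix G s ∧ ∃ α ∈ {α : Fin N → ℕ | α ≠ 0 ∧
        ∀ l, α l ≤ k}, ∃ μ, Fix G μ ∧ UM v h y (fun l => α l) μ ∧ t = s * μ} := by
  classical
  induction n using Nat.strong_induction_on with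
  | _ n ih =>
  intro α t ψ hn ht hw h1 h2
  by_cases hl : ∃ l, k ≤ α l
  · obtain ⟨l, hl⟩ := hl
    obtain ⟨β, rfl⟩ : ∃ β, α = β + Pi.single l k := ⟨α - Pi.single l k, by
      ext m
      rcases eq_or_ne m l with rfl | hm
      · simp [Nat.sub_add_cancel hl]
      · simp [hm]⟩
    have e1 : ∀ {M : Type} [CommMonoid M] (z : Fin N → M),
        ∏ m, z m ^ (Pi.single l k : Fin N → ℕ) m = z l ^ k := fun z => by
      rw [Finset.prod_eq_single l (fun b _ hb => by simp [hb]) (by simp)]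
      simp
    simp only [Pi.add_apply, pow_add, Finset.prod_mul_distrib, e1] at h1 ⊢
    rw [hθ, mul_one] at h1
    refine AddSubmonoid.subset_closure ⟨t * ∏ m, (y m : Ω) ^ β m,
      mul_mem ht (prod_mem fun m _ => pow_mem (y m).2 _),
      wt_one.1 (h1 ▸ hw.mul (Wt.prod _ fun m _ => (hy m).pow _)), Pi.single l k,
      ⟨fun h0 => hk.ne' (by simpa using congrFun h0 l), fun m => ?_⟩, (y l : Ω) ^ k,
      wt_one.1 (hθ l ▸ (hy l).pow k), ⟨1, one_mem _, map_one v, ?_⟩, (mul_assoc _ _ _).symm⟩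
    · rw [Pi.single_apply]
      split_ifs <;> simp
    · simp only [zpow_natCast, e1, one_mul]
  have hl' : ∀ l, α l < k := fun l => lt_of_not_ge fun h => hl ⟨l, h⟩
  rcases (Md.loc_le ht).eq_or_lt with hv | hv
  · refine AddSubmonoid.subset_closure ⟨1, one_mem _, fun σ _ => map_one σ, α,
      ⟨h2.resolve_right hv.not_lt, fun l => (hl' l).le⟩, _,
      wt_one.1 (h1 ▸ hw.mul (Wt.prod _ fun m _ => (hy m).pow _)), ⟨t, ht, hv, ?_⟩, (one_mul _).symm⟩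
    simp only [zpow_natCast]
  obtain ⟨t', h3, rfl⟩ := split hh hs hy ht hw hv
  rw [Finset.sum_mul]
  refine sum_mem fun l _ => ?_
  have e1 : ∀ {M : Type} [CommMonoid M] (z : Fin N → M),
      ∏ m, z m ^ (α + Pi.single l 1 : Fin N → ℕ) m = z l * ∏ m, z m ^ α m := fun z => by
    simp only [Pi.add_apply, pow_add, Finset.prod_mul_distrib]
    rw [Finset.prod_eq_single l (f := fun m => z m ^ (Pi.single l 1 : Fin N → ℕ) m)
      (fun b _ hb => by simp [hb]) (by simp), mul_comm]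
    simp
  have h4 : ∑ m, α m < N * k := by
    have := Finset.sum_lt_sum_of_nonempty (s := Finset.univ) ⟨l, Finset.mem_univ l⟩
      fun m _ => hl' m
    simpa using this
  have h5 : ∑ m, (α + Pi.single l 1 : Fin N → ℕ) m = ∑ m, α m + 1 := by
    simp [Finset.sum_add_distrib]
  have := ih (n - 1) (by omega) (α + Pi.single l 1) (t' l) _ (by omega) (h3 l).1 (h3 l).2
    (by rw [e1, ← mul_assoc, inv_mul_cancel_right, h1])
    (Or.inl fun h0 => by simpa using congrFun h0 l)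
  rwa [e1, ← mul_assoc] at this

end Grd

open Grd in
theorem grd : StGRD := by
  intro Ω _ _ Γ _ v G N S
  obtain ⟨h, y, d, B, fr, hh, hy⟩ := S
  rename_i md
  obtain ⟨s, rfl⟩ := md.fin.exists_finset_coe
  obtain ⟨k, hk, h1⟩ := exists_wt_set (G := G)
    (md.fin.union (Set.finite_range fun l => (y l : Ω))) (by
      rintro a (ha | ⟨l, rfl⟩)
      · exact hh a ha
      · exact hy l)
  have h2 := fun a ha => h1 a (Or.inl ha)
  choose θ h3 h4 using fun l => h1 (y l) (Or.inr ⟨l, rfl⟩)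
  refine ⟨⟨H0 G s k, H0_finite s k, ?_, fun a ha hf => part1 hk h2 ha hf⟩,
    {α : Fin N → ℕ | α ≠ 0 ∧ ∀ l, α l ≤ k},
    (Set.Finite.pi' fun _ => Set.finite_le_nat k).subset fun α hα => hα.2,
    fun h0 => h0.1 rfl, fun a ha hf hv => ?_⟩
  · rintro a ⟨hf, e, -, rfl⟩
    exact ⟨prod_mem fun a _ => pow_mem (mem_Loc a.2) _, hf⟩
  · simpa using part2 hk h2 fr.span h4 h3 (N * k) 0 a 1 (by simp) ha (wt_one.2 hf) (by simp)
      (Or.inr hv)

end Vale.Agent.P282Y
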