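import Vale.Agent.P282Y.Sk

/-!
# P282Y: a function field is the residue field of a divisor of a rational field
-/

open Polynomial Set

set_option linter.unusedSectionVars false

noncomputable section

namespace Vale.Agent.P282Y

namespace HypH

variable {K : Type} [Field K] [Algebra ℂ K] {Γ : Type} [LinearOrderedCommGroupWithZero Γ]

theorem or_inv (v : Valuation K Γ) (a : K) : ∃ b, v b ≤ 1 ∧ (a = b ∨ a = b⁻¹) :=
  (le_total (v a) 1).elim (fun h => ⟨a, h, .inl rfl⟩) fun h =>
    ⟨a⁻¹, by rw [map_inv₀]; exact inv_le_one_of_one_le₀ h, .inr (inv_inv a).symm⟩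

theorem basis (v : Valuation K Γ) {N : ℕ} (h : Algebra.trdeg ℂ K = N) :
    ∃ x : Fin N → K, IsTranscendenceBasis ℂ x ∧ ∀ i, v (x i) ≤ 1 := by
  obtain ⟨s, hs⟩ := exists_isTranscendenceBasis ℂ K
  obtain ⟨e⟩ := Cardinal.eq.1 ((Cardinal.mk_fin N).trans (hs.cardinalMk_eq_trdeg.trans h).symm)
  choose x h1 h2 using fun i => or_inv v (e i : K)
  have : Algebra.IsAlgebraic (Algebra.adjoin ℂ (range x)) K := hs.isAlgebraic_iff.2 fun a => by
    obtain ⟨i, rfl⟩ := e.surjective a
    have k : IsAlgebraic (Algebra.adjoin ℂ (range x)) (x i) :=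
      isAlgebraic_algebraMap (⟨x i, Algebra.subset_adjoin ⟨i, rfl⟩⟩ : Algebra.adjoin ℂ (range x))
    rcases h2 i with c | c
    · exact c ▸ k
    · exact c ▸ k.inv
  exact ⟨x, Algebra.IsAlgebraic.isTranscendenceBasis_of_le_trdeg_of_finite ℂ x
    ((Cardinal.mk_fin N).trans h.symm).le, h1⟩

variable {F : Type} [Field F] [Algebra ℂ F] [Algebra F K] [IsScalarTower ℂ F K] (θ : K)

/-- the rational functions defined at `θ` -/
def A : Subalgebra ℂ (RatFunc F) where
  carrier := {a | eval₂ (algebraMap F K) θ a.denom ≠ 0}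
  mul_mem' {a b} ha hb h := mul_ne_zero ha hb (by
    rw [← eval₂_mul]
    exact eval₂_eq_zero_of_dvd_of_eval₂_eq_zero _ _ (RatFunc.denom_mul_dvd a b) h)
  add_mem' {a b} ha hb h := mul_ne_zero ha hb (by
    rw [← eval₂_mul]
    exact eval₂_eq_zero_of_dvd_of_eval₂_eq_zero _ _ (RatFunc.denom_add_dvd a b) h)
  algebraMap_mem' c := by
    rw [IsScalarTower.algebraMap_apply ℂ F[X] (RatFunc F), mem_ofPred_eq, RatFunc.denom_algebraMap,
      eval₂_one]
    exact one_ne_zero

/-- the value at `θ` -/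
def ev : A (F := F) θ →ₐ[ℂ] K where
  toFun a := RatFunc.eval (algebraMap F K) θ a
  map_one' := RatFunc.eval_one _ _
  map_mul' a b := RatFunc.eval_mul _ _ a.2 b.2
  map_zero' := RatFunc.eval_zero _ _
  map_add' a b := RatFunc.eval_add _ _ a.2 b.2
  commutes' c := (RatFunc.eval_algebraMap _ _ c).trans (by
    rw [Polynomial.algebraMap_apply, eval₂_C, ← IsScalarTower.algebraMap_apply])

theorem inv_mem {a : RatFunc F} (h : eval₂ (algebraMap F K) θ a.num ≠ 0) : a⁻¹ ∈ A θ := fun k =>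
  h (eval₂_eq_zero_of_dvd_of_eval₂_eq_zero _ _ ((RatFunc.denom_dvd fun c => h (by
    rw [c, eval₂_zero])).2 ⟨a.denom, by rw [← inv_div, RatFunc.num_div_denom]⟩) k)

theorem mem_or (a : RatFunc F) : a ∈ A θ ∨ a⁻¹ ∈ A θ := or_iff_not_imp_left.2 fun h =>
  inv_mem θ fun k => by
    obtain ⟨p, q, e⟩ := a.isCoprime_num_denom
    have := congrArg (eval₂ (algebraMap F K) θ) e
    rw [eval₂_add, eval₂_mul, eval₂_mul, k, not_not.1 h, eval₂_one] at this
    simp at this

/-- the coordinates -/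
def XX {N : ℕ} (y : Fin N → F) : Fin (N + 1) → A (F := F) θ :=
  Fin.cons ⟨RatFunc.X, by
    rw [← SetLike.mem_coe]
    exact fun h => one_ne_zero (by rwa [RatFunc.denom_X, eval₂_one] at h)⟩ fun i =>
    ⟨RatFunc.C (y i), by
      rw [← SetLike.mem_coe]
      exact fun h => one_ne_zero (by rwa [RatFunc.denom_C, eval₂_one] at h)⟩

theorem ev_zero {N : ℕ} (y : Fin N → F) : ev θ (XX θ y 0) = θ := RatFunc.eval_X _ _

theorem ev_succ {N : ℕ} (y : Fin N → F) (i : Fin N) :
    ev θ (XX θ y i.succ) = algebraMap F K (y i) := RatFunc.eval_C _ _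

theorem tb {N : ℕ} {y : Fin N → F} (h : IsTranscendenceBasis ℂ y) :
    IsTranscendenceBasis ℂ fun i => (XX θ y i : RatFunc F) := by
  have : Algebra.IsAlgebraic F[X] (RatFunc F) := IsLocalization.isAlgebraic _ (nonZeroDivisors F[X])
  have k := h.sumElim_comp
    ((IsTranscendenceBasis.polynomial Unit F).algebraMap_comp (A := RatFunc F))
  let e : Unit ⊕ Fin N ≃ Fin (N + 1) := ⟨Sum.elim (fun _ => 0) Fin.succ,
    Fin.cases (.inl ()) .inr, by rintro (_ | _) <;> rfl, fun i => Fin.cases rfl (fun _ => rfl) i⟩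
  exact (isTranscendenceBasis_equiv' e (funext (by rintro (_ | _) <;> rfl))).1 k

end HypH

open HypH in
theorem hyp : StHYP := by
  intro K _ _ Γ _ v N _ hE hN
  obtain ⟨x, hx, hv⟩ := basis v hN
  let F := IntermediateField.adjoin ℂ (range x)
  have := hx.isAlgebraic_field
  have : Algebra.EssFiniteType F K := .of_comp ℂ F K
  have : Module.Finite F K := Algebra.finite_of_essFiniteType_of_isAlgebraic
  obtain ⟨θ₀, h0⟩ := Field.exists_primitive_element F K
  obtain ⟨θ, h1, h2⟩ := or_inv v θ₀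
  let y : Fin N → F := fun i => ⟨x i, IntermediateField.subset_adjoin _ _ ⟨i, rfl⟩⟩
  have hy : IsTranscendenceBasis ℂ y := .of_comp_algebraMap (A' := K) hx
  have h3 := tb θ hy
  have h4 : ¬ AlgebraicIndependent ℂ fun i => ev θ (XX θ y i) := fun k => by
    have := k.cardinalMk_le_trdeg.trans_eq hN
    rw [Cardinal.mk_fin, Nat.cast_le] at this
    omega
  obtain ⟨P, p1, p2⟩ : ∃ P : MvPolynomial (Fin (N + 1)) ℂ,
      MvPolynomial.aeval (fun i => ev θ (XX θ y i)) P = 0 ∧ P ≠ 0 := by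
    simpa only [algebraicIndependent_iff, not_forall, exists_prop] using h4
  have h5 : ((MvPolynomial.aeval (XX θ y) P : A (F := F) θ) : RatFunc F) =
      MvPolynomial.aeval (fun i => (XX θ y i : RatFunc F)) P :=
    MvPolynomial.comp_aeval_apply (XX θ y) (A (F := F) θ).val P
  refine ⟨RatFunc F, _, _, A θ, ev θ, XX θ y, MvPolynomial.aeval (XX θ y) P, mem_or θ,
    fun a h => inv_mem θ fun k => h (by
      change RatFunc.eval _ _ _ = _
      rw [RatFunc.eval, k, zero_div]), h3, (funext (ev_succ θ y)).symm ▸ hx,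
    Fin.cases ((ev_zero θ y).symm ▸ h1) fun i => (ev_succ θ y i).symm ▸ hv i, ?_, fun k => ?_,
    (MvPolynomial.comp_aeval_apply (XX θ y) (ev θ) P).trans p1, fun a => ?_⟩
  · rw [h5, Algebra.adjoin_range_eq_range_aeval]
    exact ⟨P, rfl⟩
  · exact p2 (algebraicIndependent_iff.1 h3.1 P (h5.symm.trans (congrArg Subtype.val k)))
  · let E := IntermediateField.adjoin ℂ (range fun i => ev θ (XX θ y i))
    have e1 : F ≤ E := IntermediateField.adjoin.mono _ _ _ (by
      rintro _ ⟨i, rfl⟩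
      exact ⟨i.succ, ev_succ θ y i⟩)
    have e2 : θ ∈ E := IntermediateField.subset_adjoin _ _ ⟨0, ev_zero θ y⟩
    have e3 : a ∈ IntermediateField.extendScalars e1 := (h0.ge.trans
      (IntermediateField.adjoin_simple_le_iff.2 (h2.elim (fun c => c ▸ e2)
        fun c => c ▸ inv_mem e2))) trivial
    obtain ⟨p, hp, q, hq, rfl⟩ := IntermediateField.mem_adjoin_iff_div.1 (show a ∈ E from e3)
    rcases eq_or_ne q 0 with rfl | c
    · exact ⟨0, zero_mem _, 1, one_mem _, one_ne_zero, by simp⟩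
    · exact ⟨p, hp, q, hq, c, div_mul_cancel₀ p c⟩

end Vale.Agent.P282Y
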