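import Vale.Agent.P282Y.Loc

/-!
# P282Y: the loop of the algorithm
-/

open IsLocalRing P277Z.Hir

noncomputable section

namespace Vale.Agent.P282Y

variable {Ω : Type} [Field Ω] [Algebra ℂ Ω] {Γ : Type} [LinearOrderedCommGroupWithZero Γ] {N : ℕ}
  {v : Valuation Ω Γ} {G : Subgroup (Ω ≃ₐ[ℂ] Ω)}

theorem cen_of (hE : StEX) (hH : StHOM) (S : St v G N) (f : Loc v S.h) (h0 : f ≠ 0)
    (h1 : v f < 1) (hf : Hm G f) :
    ∃ (y : Fin N → Loc v S.h) (d : _) (fr : Fr v S.h y d) (hy : ∀ l, Hm G (y l)) (n : ℕ)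
      (m : ℕ → Fin N) (w : ℕ → ℝ), (∀ l ∈ S.B, y l = S.y l) ∧
      S.Le ⟨S.h, y, d, S.B, fr, S.hh, hy⟩ ∧ Cen S.B y f n m w := by
  obtain ⟨y, δ, n, m, w, ha, hy, hB, hc⟩ := hE (Loc v S.h) N (fun a => Hm G (a : Ω))
    (fun y δ ha hy l a h => by
      obtain ⟨d, fr, e, -⟩ := S.fr.chg ha
      show Hm G (δ l a : Ω)
      rw [e]
      exact ((hH Ω G).2 N _ d fr.du hy).1 l a h)
    S.B S.y _ f S.fr.afr S.hy hf h0 ((mem_max_Loc f).2 h1)
  obtain ⟨d, fr, -, h2, h3⟩ := S.fr.chg ha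
  refine ⟨y, d, fr, hy, n, m, w, hB, ⟨le_rfl, fun a h => ?_, St.Mon.unit h2 h3⟩, hc⟩
  refine St.mon_of_flag (S := S) (T := ⟨S.h, y, d, S.B, fr, S.hh, hy⟩) le_rfl (fun l hl => ?_) h
  rw [← hB l hl]
  exact St.Mon.flag (S := ⟨S.h, y, d, S.B, fr, S.hh, hy⟩) hl

theorem Cen.le {R : Type} [CommRing R] [Algebra ℂ R] [IsLocalRing R] {B : Finset (Fin N)}
    {y : Fin N → R} {f : R} {n : ℕ} {m : ℕ → Fin N} {w : ℕ → ℝ} (hc : Cen B y f n m w) :
    n ≤ N := by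
  simpa using Fintype.card_le_of_injective (fun i : Fin n => m i)
    fun i j h => Fin.ext (hc.inj i i.2 j j.2 h)

theorem Cen.pos {R : Type} [CommRing R] [Algebra ℂ R] [IsLocalRing R] {B : Finset (Fin N)}
    {y : Fin N → R} {f : R} {n : ℕ} {m : ℕ → Fin N} {w : ℕ → ℝ} (hc : Cen B y f n m w)
    (h0 : f ≠ 0) : 0 < n := by
  refine Nat.pos_of_ne_zero fun hn => h0 ?_
  subst hn
  exact LA.FI.le_ideal ⊥ (fun j hj => absurd (hc.reach.2 j (Nat.zero_le j)) hj.ne') one_pos hc.adm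

theorem mon_cen [IsAlgClosed Ω] (hE : StEX) (hW : StWF) (hR : StRAT) (hH : StHOM) (h1 : StSL1)
    (h2 : StSL2)
    (p : {p : ℕ × (ℕ → ℝ) × (ℕ → Option (Fin N)) // p.1 ≤ N ∧ Reach p.1 p.2.1}) :
    ∀ (S : St v G N) (f : Loc v S.h) (m : ℕ → Fin N), Cen S.B S.y f p.1.1 m p.1.2.1 →
      p.1.2.2 = dvB S.B m → f ≠ 0 → Hm G f → ∃ T : St v G N, S.Le T ∧ T.Mon f := by
  induction p using (hW N).induction with
  | _ p ih =>
    intro S f m hc hd h0 hf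
    obtain ⟨e, ω, he, hω⟩ := hR _ _ hc.reach
    obtain ⟨i₀, z, T, hs⟩ := h1 Ω Γ v G N S _ m ω (hc.pos h0) hc.inj fun i hi => by
      have : (0 : ℝ) < ω i := by
        rw [hω]
        exact mul_pos (Nat.cast_pos.2 he) (hc.reach.1 i hi).1
      exact Nat.cast_pos.1 this
    obtain ⟨f', e1, hlt⟩ := h2 Ω Γ v G N S T f _ m _ e ω i₀ z hc he hω hs
    have h3 : (f : Ω) ≠ 0 := fun h => h0 (Subtype.ext h)
    have h4 : z ^ e ≠ 0 := left_ne_zero_of_mul (e1 ▸ h3)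
    have h5 : f' ≠ 0 := fun h => right_ne_zero_of_mul (e1 ▸ h3) (congrArg Subtype.val h)
    have h6 : Hm G f' := by
      rw [show (f' : Ω) = f / z ^ e by rw [e1]; field_simp]
      exact hf.div (hs.hz.pow e)
    rcases (Md.loc_le f'.2).eq_or_lt with h7 | h7
    · exact ⟨T, hs.le, e1 ▸ (hs.monz.pow e).mul (St.Mon.unit f'.2 h7)⟩
    · obtain ⟨y, d, fr, hy, n, m', w, hB, hle, hc'⟩ := cen_of hE hH T f' h5 h7 h6
      have h8 : sB T.B y = sB T.B T.y := funext fun l => by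
        unfold sB
        split_ifs with hl
        · exact hB l hl
        · rfl
      obtain ⟨U, h9, h10⟩ := ih ⟨(n, w, dvB T.B m'), hc'.le, hc'.reach⟩
        (by
          rw [hd]
          exact hlt _ _ _ (h8 ▸ hc'.ok) hc'.adm)
        ⟨T.h, y, d, T.B, fr, T.hh, hy⟩ f' m' hc' rfl h5 h6
      exact ⟨U, hs.le.trans (hle.trans h9),
        e1 ▸ ((hle.trans h9).mon _ (hs.monz.pow e)).mul h10⟩

theorem loop (hE : StEX) (hW : StWF) (hR : StRAT) (hH : StHOM) (h1 : StSL1) (h2 : StSL2) :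
    StLOOP := by
  intro Ω _ _ _ Γ _ v G N S Φ hΦ
  induction Φ, hΦ using Set.Finite.induction_on with
  | empty => exact fun _ => ⟨S, St.Le.refl S, fun _ h => h.elim⟩
  | @insert a Φ _ _ ih =>
    intro h
    obtain ⟨T, h3, h4⟩ := ih fun b hb => h b (Set.mem_insert_of_mem _ hb)
    obtain ⟨h5, h6, h7⟩ := h a (Set.mem_insert _ _)
    have : ∃ U : St v G N, T.Le U ∧ U.Mon a := by
      rcases (Md.loc_le (h3.loc h5)).eq_or_lt with h8 | h8
      · exact ⟨T, St.Le.refl T, St.Mon.unit (h3.loc h5) h8⟩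
      · have h9 : (⟨a, h3.loc h5⟩ : Loc v T.h) ≠ 0 := fun h => h6 (congrArg Subtype.val h)
        obtain ⟨y, d, fr, hy, n, m, w, -, hle, hc⟩ := cen_of hE hH T ⟨a, h3.loc h5⟩ h9 h8 h7
        obtain ⟨U, h10, h11⟩ := mon_cen hE hW hR hH h1 h2 ⟨(n, w, dvB T.B m), hc.le, hc.reach⟩
          ⟨T.h, y, d, T.B, fr, T.hh, hy⟩ ⟨a, h3.loc h5⟩ m hc rfl h9 h7
        exact ⟨U, hle.trans h10, h11⟩
    obtain ⟨U, h8, h9⟩ := this
    refine ⟨U, h3.trans h8, fun b hb => ?_⟩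
    rcases hb with rfl | hb
    · exact h9
    · exact h8.mon _ (h4 b hb)

end Vale.Agent.P282Y
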