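import Vale.Agent.P282Y.Loc

/-!
# P282Y: local uniformisation from the embedded case
-/

open IsLocalRing

noncomputable section

namespace Vale.Agent.P282Y

namespace LuA

variable {L K : Type} [Field L] [Algebra ℂ L] [Field K] [Algebra ℂ K]
  {Γ Δ : Type} [LinearOrderedCommGroupWithZero Γ] [LinearOrderedCommGroupWithZero Δ]
  {v : Valuation K Γ} {W : Valuation L Δ}

/-- the composite of the place `π` with the valuation `v` -/
theorem comp (hC : StCHEV) (hv : Zd v) (A : Subalgebra ℂ L) (π : A →ₐ[ℂ] K)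
    (hV : ∀ a : L, a ∈ A ∨ a⁻¹ ∈ A) (hU : ∀ a : A, π a ≠ 0 → (a : L)⁻¹ ∈ A) :
    ∃ O : ValuationSubring L, Zd O.valuation ∧ (∀ a : L, O.valuation a ≤ 1 → a ∈ A) ∧
      (∀ a : A, O.valuation (a : L) ≤ 1 ↔ v (π a) ≤ 1) ∧
      ∀ a : A, O.valuation (a : L) < 1 ↔ v (π a) < 1 := by
  let A' : Subalgebra ℂ L :=
    { carrier := {a | ∃ b : A, v (π b) ≤ 1 ∧ (b : L) = a}
      mul_mem' := by
        rintro _ _ ⟨a, ha, rfl⟩ ⟨b, hb, rfl⟩
        exact ⟨a * b, by rw [map_mul, map_mul]; exact mul_le_one' ha hb, rfl⟩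
      add_mem' := by
        rintro _ _ ⟨a, ha, rfl⟩ ⟨b, hb, rfl⟩
        exact ⟨a + b, by rw [map_add]; exact v.map_add_le ha hb, rfl⟩
      algebraMap_mem' := fun c =>
        ⟨algebraMap ℂ A c, by rw [AlgHom.commutes]; exact hv.const_le c, rfl⟩ }
  have hA : A' ≤ A := by
    rintro _ ⟨a, -, rfl⟩
    exact a.2
  let ρ : A' →ₐ[ℂ] K := π.comp (Subalgebra.inclusion hA)
  have hρ : ∀ a : A', v (ρ a) ≤ 1 := by
    rintro ⟨_, a, ha, rfl⟩
    exact ha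
  let I : Ideal A' :=
    { carrier := {a | v (ρ a) < 1}
      add_mem' := fun {a b} ha hb => by
        show v (ρ (a + b)) < 1
        rw [map_add]
        exact v.map_add_lt ha hb
      zero_mem' := by
        show v (ρ 0) < 1
        simp
      smul_mem' := fun c a ha => by
        show v (ρ (c * a)) < 1
        rw [map_mul, map_mul]
        exact lt_of_le_of_lt (mul_le_of_le_one_left' (hρ c)) ha }
  have hI : I ≠ ⊤ := by
    rw [Ideal.ne_top_iff_one]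
    show ¬ v (ρ 1) < 1
    simp
  obtain ⟨O, hO, h1⟩ := hC L A' I hI fun a => by
    obtain ⟨c, hc⟩ := hv.res (ρ a) (hρ a)
    refine ⟨c, ?_⟩
    show v (ρ (a - algebraMap ℂ A' c)) < 1
    rwa [map_sub, AlgHom.commutes]
  have h2 : ∀ a : A, v (π a) ≤ 1 → O.valuation (a : L) ≤ 1 ∧
      (O.valuation (a : L) < 1 ↔ v (π a) < 1) := fun a ha => h1 ⟨a, a, ha, rfl⟩
  have h3 : ∀ a : L, a ≠ 0 → ∀ hi : a⁻¹ ∈ A, v (π ⟨a⁻¹, hi⟩) < 1 → ¬ O.valuation a ≤ 1 := by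
    intro a ha hi h4 h5
    have h6 : O.valuation a⁻¹ < 1 := (h2 ⟨a⁻¹, hi⟩ h4.le).2.2 h4
    have h7 : O.valuation a * O.valuation a⁻¹ < 1 :=
      lt_of_le_of_lt (mul_le_of_le_one_left' h5) h6
    rw [← map_mul, mul_inv_cancel₀ ha, map_one] at h7
    exact lt_irrefl _ h7
  have h4 : ∀ a : A, O.valuation (a : L) ≤ 1 → v (π a) ≤ 1 := by
    intro a ha
    by_contra h5
    have h6 : π a ≠ 0 := fun h0 => h5 (by simp [h0])
    have h7 : (a : L) ≠ 0 := fun h0 => h6 (by rw [show a = 0 from Subtype.ext h0, map_zero])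
    refine h3 a h7 (hU a h6) ?_ ha
    have h8 : π ⟨(a : L)⁻¹, hU a h6⟩ = (π a)⁻¹ := by
      refine eq_inv_of_mul_eq_one_left ?_
      rw [← map_mul, ← map_one π]
      congr 1
      exact Subtype.ext (inv_mul_cancel₀ h7)
    rw [h8, map_inv₀]
    exact inv_lt_one_of_one_lt₀ (not_le.1 h5)
  refine ⟨O, hO, fun a ha => ?_, fun a => ⟨h4 a, fun ha => (h2 a ha).1⟩,
    fun a => ⟨fun ha => (h2 a (h4 a ha.le)).2.1 ha, fun ha => (h2 a ha.le).2.2 ha⟩⟩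
  by_contra h5
  have h6 := (hV a).resolve_left h5
  have h7 : a ≠ 0 := by
    rintro rfl
    exact h5 (zero_mem _)
  refine h3 a h7 h6 ?_ ha
  have h8 : π ⟨a⁻¹, h6⟩ = 0 := by
    by_contra h9
    exact h5 (by simpa using hU _ h9)
  rw [h8, map_zero]
  exact zero_lt_one

/-- the image of a local ring of a model -/
theorem push (hv : Zd v) {h : Set L} [hm : Md W h] (ρ : Loc W h →ₐ[ℂ] K)
    (h1 : ∀ a, v (ρ a) ≤ 1) (h2 : ∀ a : Loc W h, W a < 1 ↔ v (ρ a) < 1) :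
    ∃ (g : Set K) (_ : Md v g), ∀ x, x ∈ Loc v g ↔ ∃ a, ρ a = x := by
  have h3 : ∀ a : Loc W h, W a = 1 ↔ v (ρ a) = 1 := fun a =>
    ⟨fun e => le_antisymm (h1 a) (not_lt.1 fun h4 => ((h2 a).2 h4).ne e),
      fun e => le_antisymm (Md.loc_le a.2) (not_lt.1 fun h4 => ((h2 a).1 h4).ne e)⟩
  refine ⟨ρ '' {a | (a : L) ∈ h}, ⟨hv, (hm.fin.preimage Subtype.val_injective.injOn).image _, ?_⟩,
    fun x => ⟨?_, ?_⟩⟩
  · rintro _ ⟨a, -, rfl⟩
    exact h1 a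
  · have h4 : Algebra.adjoin ℂ (ρ '' {a | (a : L) ∈ h}) ≤ ρ.range := by
      refine Algebra.adjoin_le ?_
      rintro _ ⟨a, -, rfl⟩
      exact ⟨a, rfl⟩
    rintro ⟨c, hc, b, hb, h5, h6⟩
    obtain ⟨c, rfl⟩ := h4 hc
    obtain ⟨b, rfl⟩ := h4 hb
    obtain ⟨u, rfl⟩ := (isUnit_Loc b).2 ((h3 b).2 h5)
    refine ⟨c * ↑u⁻¹, ?_⟩
    have h7 : x * ρ u = ρ c := h6
    rw [map_mul, ← h7, mul_assoc, ← map_mul, u.mul_inv, map_one, mul_one]
  · have key : ∀ a (ha : a ∈ Algebra.adjoin ℂ h), ρ ⟨a, adjoin_le_Loc ha⟩ ∈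
        Algebra.adjoin ℂ (ρ '' {a | (a : L) ∈ h}) := by
      intro a ha
      induction ha using Algebra.adjoin_induction with
      | mem a ha => exact Algebra.subset_adjoin ⟨_, ha, rfl⟩
      | algebraMap c =>
        rw [show (⟨algebraMap ℂ L c, _⟩ : Loc W h) = algebraMap ℂ _ c from rfl, AlgHom.commutes]
        exact Subalgebra.algebraMap_mem _ c
      | add a b ha' hb' ha hb =>
        rw [show (⟨a + b, _⟩ : Loc W h) = ⟨a, adjoin_le_Loc ha'⟩ + ⟨b, adjoin_le_Loc hb'⟩ from rfl,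
          map_add]
        exact add_mem ha hb
      | mul a b ha' hb' ha hb =>
        rw [show (⟨a * b, _⟩ : Loc W h) = ⟨a, adjoin_le_Loc ha'⟩ * ⟨b, adjoin_le_Loc hb'⟩ from rfl,
          map_mul]
        exact mul_mem ha hb
    rintro ⟨a, rfl⟩
    obtain ⟨c, hc, b, hb, h5, h6⟩ := a.2
    refine ⟨_, key c hc, _, key b hb, (h3 _).1 h5, ?_⟩
    rw [← map_mul]
    congr 1
    exact Subtype.ext h6

/-- the affine space -/
theorem first {N : ℕ} (hW : Zd W) (X : Fin N → L) (d : Fin N → Derivation ℂ L L) (hd : Du X d)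
    (hX : ∀ i, W (X i) ≤ 1) : ∃ (_ : Md W (Set.range X)) (y : Fin N → Loc W (Set.range X)),
      Fr W (Set.range X) y d := by
  have hm : Md W (Set.range X) := ⟨hW, Set.finite_range X, by
    rintro _ ⟨i, rfl⟩
    exact hX i⟩
  choose c hc using fun i => Md.res (v := W) (h := Set.range X) ⟨X i, mem_Loc ⟨i, rfl⟩⟩
  refine ⟨hm, fun i => ⟨X i, mem_Loc ⟨i, rfl⟩⟩ - algebraMap ℂ _ (c i), ?_, ?_, ?_⟩
  · refine gen_max _ (Ideal.span_le.2 ?_) ?_
    · rintro _ ⟨i, rfl⟩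
      exact hc i
    · rintro _ ⟨i, rfl⟩
      exact ⟨c i, Ideal.subset_span ⟨i, rfl⟩⟩
  · refine hd.of_dual fun l m => ?_
    show d l (X m - algebraMap ℂ L (c m)) = _
    rw [map_sub, Derivation.map_algebraMap, sub_zero, hd.dual]
  · intro l
    refine pres_Loc _ le_rfl _ ?_
    rintro _ ⟨i, rfl⟩
    rw [hd.dual]
    split_ifs
    · exact one_mem _
    · exact zero_mem _

end LuA

open LuA in
theorem lu (hC : StCHEV) (hY : StHYP) (hD : StDU) (hM : StMONO) (hF : StFRAME) : StLU := by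
  intro K _ _ Γ _ v N hv he hN
  obtain ⟨L, _, _, A, π, X, t, hV, hU, hX, hX', hle, ht, ht0, hπt, hfr⟩ := hY K Γ v N hv he hN
  obtain ⟨O, hO, hA, h1, h2⟩ := comp hC hv A π hV hU
  obtain ⟨d, hd⟩ := hD L (N + 1) _ hX
  obtain ⟨hm, y, hy⟩ := first hO _ d hd fun i => (h1 _).2 (hle i)
  obtain ⟨h', hm', y', d', hy', hL, hΦ, -⟩ := hM L _ O.valuation _ (N + 1) y d {(t : L)} hy
    (Set.finite_singleton _) (by
      rintro _ rfl
      exact ⟨Md.adjoin_le ht, t, adjoin_le_Loc ht, 1, one_mem _,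
        fun h0 => ht0 (Subtype.ext h0), one_ne_zero, mul_one _⟩)
  have hLA : Loc O.valuation h' ≤ A := fun a ha => hA a (Md.loc_le ha)
  let ρ : Loc O.valuation h' →ₐ[ℂ] K := π.comp (Subalgebra.inclusion hLA)
  have r1 : ∀ a, v (ρ a) ≤ 1 := fun a => (h1 ⟨a, hLA a.2⟩).1 (Md.loc_le a.2)
  have r2 : ∀ a : Loc O.valuation h', O.valuation (a : L) < 1 ↔ v (ρ a) < 1 :=
    fun a => h2 ⟨a, hLA a.2⟩
  obtain ⟨g, hg, r3⟩ := push hv ρ r1 r2
  obtain ⟨j, hj⟩ : ∃ j, ρ (y' j) = 0 := by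
    obtain ⟨c, u, hu, hu1, e⟩ := hΦ _ rfl
    have e1 : ρ (⟨u, hu⟩ * ∏ l, y' l ^ c l) = 0 := by
      rw [← hπt]
      refine congrArg π (Subtype.ext ?_)
      simp only [zpow_natCast] at e
      rw [e]
      simp
    rw [map_mul, map_prod, mul_eq_zero, Finset.prod_eq_zero_iff] at e1
    rcases e1 with e1 | ⟨j, -, e1⟩
    · have e2 := (r2 ⟨u, hu⟩).2 (by rw [e1, map_zero]; exact zero_lt_one)
      exact absurd hu1 e2.ne
    · rw [map_pow] at e1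
      exact ⟨j, eq_zero_of_pow_eq_zero e1⟩
  let σ : Loc O.valuation h' →ₐ[ℂ] Loc v g := ρ.codRestrict _ fun a => (r3 _).2 ⟨a, rfl⟩
  have hs : maximalIdeal (Loc v g) = Ideal.span (Set.range fun k => σ (y' (j.succAbove k))) := by
    refine le_antisymm (fun x hx => ?_) (Ideal.span_le.2 ?_)
    · obtain ⟨a, ha⟩ := (r3 x).1 x.2
      have e1 : a ∈ maximalIdeal _ := (mem_max_Loc a).2 ((r2 a).2 (ha ▸ (mem_max_Loc x).1 hx))
      rw [hy'.span] at e1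
      obtain ⟨s, hs⟩ := Ideal.mem_span_range_iff_exists_fun.1 e1
      rw [show x = σ a from Subtype.ext ha.symm, ← hs, map_sum, Fin.sum_univ_succAbove _ j,
        map_mul, show σ (y' j) = 0 from Subtype.ext hj, mul_zero, zero_add]
      refine sum_mem fun k _ => ?_
      rw [map_mul]
      exact Ideal.mul_mem_left _ _ (Ideal.subset_span ⟨k, rfl⟩)
    · rintro _ ⟨k, rfl⟩
      exact (mem_max_Loc _).2 ((r2 _).1 (hy'.lt _))
  have hXg : ∀ i, π (X i) ∈ Loc v g := fun i =>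
    (r3 _).2 ⟨⟨X i, hL (mem_Loc ⟨i, rfl⟩)⟩, rfl⟩
  obtain ⟨d₀, hd₀⟩ := hD K N _ hX'
  obtain ⟨d₁, hd₁⟩ := hF K Γ v g N _ _ d₀ hs hd₀ fun l =>
    ⟨_, hXg l.succ, 1, one_mem _, one_ne_zero, mul_one _⟩
  have hadj : Algebra.adjoin ℂ (Set.range fun i => π (X i)) ≤ Loc v g := by
    refine Algebra.adjoin_le ?_
    rintro _ ⟨i, rfl⟩
    exact hXg i
  refine ⟨g, hg, _, d₁, hd₁, fun a => ?_⟩
  obtain ⟨p, hp, q, hq, h3, h4⟩ := hfr a
  exact ⟨p, hadj hp, q, hadj hq, h3, h4⟩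

end Vale.Agent.P282Y
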