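import Vale.Agent.P282Y.Loc

/-!
# P282Y: embedded local uniformisation from a regular model
-/

open IsLocalRing

noncomputable section

namespace Vale.Agent.P282Y

namespace Mono

variable {K Ω : Type} [Field K] [Algebra ℂ K] [Field Ω] [Algebra ℂ Ω]
  {Γ Γ' : Type} [LinearOrderedCommGroupWithZero Γ] [LinearOrderedCommGroupWithZero Γ'] {N : ℕ}
  {v : Valuation K Γ} {W : Valuation Ω Γ'} {ι : K →ₐ[ℂ] Ω} {h : Set K}

theorem mem_loc (hW : ∀ a, W (ι a) = 1 ↔ v a = 1) {x : Ω} :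
    x ∈ Loc W (ι '' h) ↔ ∃ a ∈ Loc v h, ι a = x := by
  constructor
  · rintro ⟨a, ha, b, hb, h1, h2⟩
    rw [Algebra.adjoin_image] at ha hb
    obtain ⟨a, ha, rfl⟩ := ha
    obtain ⟨b, hb, rfl⟩ := hb
    have h3 : v b = 1 := (hW b).1 h1
    have h4 : b ≠ 0 := by rintro rfl; simp at h3
    refine ⟨a / b, ⟨a, ha, b, hb, h3, div_mul_cancel₀ _ h4⟩, ?_⟩
    rw [map_div₀, div_eq_iff ((map_ne_zero ι).2 h4)]
    exact h2.symm
  · rintro ⟨x, ⟨a, ha, b, hb, h1, rfl⟩, rfl⟩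
    refine ⟨ι (x * b), ?_, ι b, ?_, (hW b).2 h1, (map_mul ι _ _).symm⟩ <;>
      rw [Algebra.adjoin_image]
    exacts [⟨_, ha, rfl⟩, ⟨_, hb, rfl⟩]

theorem mem_loc' (hW : ∀ a, W (ι a) = 1 ↔ v a = 1) {a : K} :
    ι a ∈ Loc W (ι '' h) ↔ a ∈ Loc v h := by
  rw [mem_loc hW]
  exact ⟨fun ⟨b, hb, e⟩ => ι.injective e ▸ hb, fun ha => ⟨a, ha, rfl⟩⟩

/-- the two local rings are isomorphic -/
def eqv (hW : ∀ a, W (ι a) = 1 ↔ v a = 1) (h : Set K) : Loc v h ≃+* Loc W (ι '' h) :=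
  RingEquiv.ofBijective
    (((ι : K →+* Ω).comp (Loc v h).val.toRingHom).codRestrict _ fun a => (mem_loc' hW).2 a.2)
    ⟨fun _ _ e => Subtype.ext (ι.injective (congrArg Subtype.val e)), fun x => by
      obtain ⟨a, ha, e⟩ := (mem_loc hW).1 x.2
      exact ⟨⟨a, ha⟩, Subtype.ext e⟩⟩

theorem coe_eqv (hW : ∀ a, W (ι a) = 1 ↔ v a = 1) (a : Loc v h) : (eqv hW h a : Ω) = ι a := rfl

theorem span_iff (hW : ∀ a, W (ι a) = 1 ↔ v a = 1) [Md v h] [Md W (ι '' h)]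
    (y : Fin N → Loc v h) :
    maximalIdeal (Loc W (ι '' h)) = Ideal.span (Set.range fun l => eqv hW h (y l)) ↔
      maximalIdeal (Loc v h) = Ideal.span (Set.range y) := by
  have e : Ideal.span (Set.range fun l => eqv hW h (y l)) =
      (Ideal.span (Set.range y)).map (eqv hW h) := by
    rw [Ideal.map_span, ← Set.range_comp]
    rfl
  rw [e, ← map_ringEquiv_maximalIdeal (eqv hW h)]
  refine ⟨fun h1 => ?_, fun h1 => by rw [h1]⟩
  have := congrArg (Ideal.comap (eqv hW h)) h1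
  rwa [Ideal.comap_map_of_bijective _ (eqv hW h).bijective,
    Ideal.comap_map_of_bijective _ (eqv hW h).bijective] at this

theorem um_back (hW : ∀ a, W (ι a) = 1 ↔ v a = 1) {y : Fin N → Loc v h} {c : Fin N → ℤ} {a : K}
    (ha : UM W (ι '' h) (fun l => eqv hW h (y l)) c (ι a)) : UM v h y c a := by
  obtain ⟨u, hu, h1, h2⟩ := ha
  obtain ⟨u, hu', rfl⟩ := (mem_loc hW).1 hu
  refine ⟨u, hu', (hW u).1 h1, ι.injective ?_⟩
  simpa [coe_eqv, map_prod] using h2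

theorem jac_map {D : Fin N → Derivation ℂ K K} {D' : Fin N → Derivation ℂ Ω Ω}
    (hD : ∀ l a, D' l (ι a) = ι (D l a)) (b : Fin N → K) :
    jac D' (fun l => ι (b l)) = ι (jac D b) := by
  rw [jac, jac, AlgHom.map_det]
  congr 1
  ext i j
  simp [hD]

/-- extension of the valuation -/
theorem exists_ext (hC : StCHEV) (hv : Zd v) (ι : K →ₐ[ℂ] Ω) :
    ∃ O : ValuationSubring Ω, Zd O.valuation ∧ v.IsEquiv (O.valuation.comap (ι : K →+* Ω)) := by
  let A₀ : Subalgebra ℂ K :=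
    { carrier := {a | v a ≤ 1}
      mul_mem' := fun {a b} ha hb => by
        change v (a * b) ≤ 1
        rw [map_mul]
        exact mul_le_one' ha hb
      add_mem' := fun ha hb => v.map_add_le ha hb
      algebraMap_mem' := hv.const_le }
  let I : Ideal (A₀.map ι) :=
    { carrier := {x | ∃ a, v a < 1 ∧ ι a = x}
      add_mem' := by
        rintro x y ⟨a, ha, e⟩ ⟨b, hb, e'⟩
        exact ⟨a + b, v.map_add_lt ha hb, by rw [map_add, e, e']; rfl⟩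
      zero_mem' := ⟨0, by simp, by simp⟩
      smul_mem' := by
        rintro ⟨_, c, hc, rfl⟩ x ⟨a, ha, e⟩
        refine ⟨c * a, ?_, by rw [map_mul, e]; rfl⟩
        rw [map_mul]
        exact (mul_le_of_le_one_left' hc).trans_lt ha }
  obtain ⟨O, h1, h2⟩ := hC Ω (A₀.map ι) I (by
    rw [Ideal.ne_top_iff_one]
    rintro ⟨a, ha, e⟩
    obtain rfl : a = 1 := ι.injective (e.trans (map_one ι).symm)
    simp at ha) (by
    rintro ⟨_, a, ha, rfl⟩
    obtain ⟨c, hc⟩ := hv.res a ha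
    exact ⟨c, _, hc, by simp⟩)
  refine ⟨O, h1, Valuation.isEquiv_iff_val_le_one.2 fun {a} =>
    ⟨fun ha => (h2 ⟨ι a, a, ha, rfl⟩).1, fun ha => le_of_not_gt fun h3 => ?_⟩⟩
  have h4 : a ≠ 0 := by rintro rfl; simp at h3
  have h5 : v a⁻¹ < 1 := by rw [map_inv₀]; exact inv_lt_one_of_one_lt₀ h3
  have h6 : O.valuation (ι a⁻¹) < 1 := (h2 ⟨ι a⁻¹, a⁻¹, h5.le, rfl⟩).2.2 ⟨_, h5, rfl⟩
  have h7 : O.valuation (ι a) * O.valuation (ι a⁻¹) = 1 := by
    rw [← map_mul, ← map_mul, mul_inv_cancel₀ h4, map_one, map_one]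
  exact ((mul_le_of_le_one_left' ha).trans_lt h6).ne h7

/-- the automorphisms which fix the image of `K` -/
def gal (ι : K →ₐ[ℂ] Ω) : Subgroup (Ω ≃ₐ[ℂ] Ω) where
  carrier := {σ | ∀ a, σ (ι a) = ι a}
  mul_mem' := fun {σ τ} hσ hτ a => by rw [AlgEquiv.mul_apply, hτ, hσ]
  one_mem' := fun _ => rfl
  inv_mem' := fun {σ} hσ a => σ.injective (by
    rw [hσ, ← AlgEquiv.mul_apply, mul_inv_cancel, AlgEquiv.one_apply])

theorem fix_gal (a : K) : Fix (gal ι) (ι a) := fun _ hσ => hσ a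

theorem of_fix {x : AlgebraicClosure K}
    (hx : Fix (gal (IsScalarTower.toAlgHom ℂ K (AlgebraicClosure K))) x) :
    ∃ a, IsScalarTower.toAlgHom ℂ K (AlgebraicClosure K) a = x := by
  have : CharZero K := charZero_of_injective_algebraMap (algebraMap ℂ K).injective
  exact (InfiniteGalois.mem_range_algebraMap_iff_fixed x).2 fun σ =>
    hx (σ.restrictScalars ℂ) fun a => σ.commutes a

end Mono

open Mono

theorem mono (hC : StCHEV) (hX : StEXT) (hL : StLOOP) (hD : StDESC) (hF : StFRAME) : StMONO := by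
  intro K _ _ Γ _ v h hm N y d Φ hf hΦ hpq
  set ι := IsScalarTower.toAlgHom ℂ K (AlgebraicClosure K) with hι
  obtain ⟨O, hO, hE⟩ := exists_ext hC hm.zd ι
  have hW : ∀ a, O.valuation (ι a) = 1 ↔ v a = 1 := fun a => hE.eq_one_iff_eq_one.symm
  have hW' : ∀ a, O.valuation (ι a) ≤ 1 ↔ v a ≤ 1 := fun a => hE.le_one_iff_le_one.symm
  obtain ⟨hX1, hX2⟩ := hX K (AlgebraicClosure K)
  choose ex hex using hX1
  have hm' : Md O.valuation (ι '' h) := ⟨hO, hm.fin.image _, by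
    rintro _ ⟨a, ha, rfl⟩
    exact (hW' a).2 (hm.le a ha)⟩
  let S : St O.valuation (gal ι) N :=
    { h := ι '' h
      y := fun l => eqv hW h (y l)
      d := fun l => ex (d l)
      B := ∅
      fr := ⟨(span_iff hW y).2 hf.span, hX2 N _ d _ hf.du fun l => hex (d l), fun l x hx => by
        obtain ⟨a, ha, rfl⟩ := (mem_loc hW).1 hx
        exact (mem_loc hW).2 ⟨_, hf.pres l a ha, (hex _ _).symm⟩⟩
      hh := by
        rintro _ ⟨a, -, rfl⟩
        exact (fix_gal a).hm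
      hy := fun l => (fix_gal _).hm }
  choose! p hp q hq hp0 hq0 hpq' using fun a ha => (hpq a ha).2
  obtain ⟨T, hST, hT⟩ := hL _ _ O.valuation (gal ι) N S (ι '' (p '' Φ ∪ q '' Φ))
    (((hΦ.image p).union (hΦ.image q)).image ι) (by
      rintro _ ⟨_, ⟨a, ha, rfl⟩ | ⟨a, ha, rfl⟩, rfl⟩
      · exact ⟨(mem_loc' hW).2 (hp a ha), (map_ne_zero ι).2 (hp0 a ha), (fix_gal _).hm⟩
      · exact ⟨(mem_loc' hW).2 (hq a ha), (map_ne_zero ι).2 (hq0 a ha), (fix_gal _).hm⟩)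
  obtain ⟨h₀, hm₀, η, h1, h2, h3, h4, c, J, h5, h6⟩ := hD _ _ O.valuation (gal ι) N T (ι '' Φ)
    (fun l => ι (y l)) (hΦ.image ι) (by
      rintro _ ⟨a, ha, rfl⟩
      refine ⟨fix_gal a, (hW' a).2 (hpq a ha).1, ?_⟩
      obtain ⟨α, -, hα⟩ := hT _ ⟨_, Or.inl ⟨a, ha, rfl⟩, rfl⟩
      obtain ⟨β, -, hβ⟩ := hT _ ⟨_, Or.inr ⟨a, ha, rfl⟩, rfl⟩
      have := hα.mul T.y_ne (hβ.zpow (-1))
      rw [← hpq' a ha, map_mul, zpow_neg_one,
        mul_inv_cancel_right₀ ((map_ne_zero ι).2 (hq0 a ha))] at this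
      exact ⟨_, this⟩) (fun l => fix_gal _) (by
      obtain ⟨α, -, hα⟩ := hST.jac
      exact ⟨_, hα⟩)
  obtain ⟨h', rfl⟩ : ∃ h' : Set K, h₀ = ι '' h' :=
    ⟨ι ⁻¹' h₀, (Set.image_preimage_eq_of_subset fun x hx => of_fix (h1 x hx)).symm⟩
  obtain ⟨η, rfl⟩ : ∃ η' : Fin N → Loc v h', η = fun l => eqv hW h' (η' l) :=
    ⟨fun l => (eqv hW h').symm (η l), funext fun l => by simp⟩
  have hm'' : Md v h' := ⟨hm.zd, Set.Finite.of_finite_image hm₀.fin ι.injective.injOn,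
    fun a ha => (hW' a).1 (hm₀.le _ ⟨a, ha, rfl⟩)⟩
  have hle : Loc v h ≤ Loc v h' := fun a ha =>
    (mem_loc' hW).1 (h3 _ (hST.loc ((mem_loc' hW).2 ha)) (fix_gal a))
  obtain ⟨d', hd'⟩ := hF K Γ v h' N η (fun l => y l) d ((span_iff hW η).1 h2) hf.du fun l =>
    ⟨_, hle (y l).2, 1, one_mem _, one_ne_zero, mul_one _⟩
  refine ⟨h', hm'', η, d', hd', hle, fun a ha => ?_, c, um_back hW ?_⟩
  · obtain ⟨c', hc'⟩ := h4 _ ⟨a, ha, rfl⟩
    exact ⟨c', um_back hW hc'⟩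
  · have h7 := h6 fun l => ex (d' l)
    simp only [coe_eqv] at h7
    rw [jac_map (ι := ι) (fun l => hex (d' l)), jac_map (ι := ι) (fun l => hex (d' l)),
      hd'.du.jac_self, map_one, mul_one] at h7
    rwa [h7]

end Vale.Agent.P282Y
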