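import Vale.Agent.P282Y.Sk

/-!
# P282Y: orders along divisors, charts of divisors
-/

set_option linter.unusedSectionVars false

open scoped NNReal ENNReal
open IsLocalRing Vale.Agent.P282.Gap

noncomputable section

namespace Vale.Agent.P282Y

namespace OrdA

section field

variable {K : Type} [Field K] [Algebra ℂ K] {n : ℕ} {y : Fin n → K} {d : Fin n → Derivation ℂ K K}
  {w : Valuation K ℝ≥0}

theorem expand (h : Du y d) (D : Derivation ℂ K K) (x : K) : D x = ∑ l, D (y l) * d l x := by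
  have := h.ext (D - ∑ l, D (y l) • d l) fun m => by
    rw [Derivation.sub_apply, ← Derivation.coeFnAddMonoidHom_apply (∑ l, D (y l) • d l), map_sum,
      Finset.sum_apply]
    simp [h.dual]
  have k := DFunLike.congr_fun this x
  rw [Derivation.sub_apply, ← Derivation.coeFnAddMonoidHom_apply (∑ l, D (y l) • d l), map_sum,
    Finset.sum_apply] at k
  simpa [sub_eq_zero] using k

theorem chain (h : Du y d) (D : Fin n → Derivation ℂ K K) (c : Fin n → K) :
    jac D c = jac d c * jac D y := by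
  rw [jac, jac, jac, mul_comm, ← Matrix.det_mul]
  exact congrArg Matrix.det (Matrix.ext fun i j => expand h (D i) (c j))

theorem one_of {a b : K} (ha : w a ≤ 1) (hb : w b ≤ 1) (h : a * b = 1) : w a = 1 :=
  le_antisymm ha (by
    calc 1 = w a * w b := by rw [← map_mul, h, map_one]
      _ ≤ w a := mul_le_of_le_one_right' hb)

theorem det_le {M : Matrix (Fin n) (Fin n) K} (h : ∀ i j, w (M i j) ≤ 1) : w M.det ≤ 1 := by
  rw [Matrix.det_apply']
  exact (w.integer.sum_mem fun σ _ => w.integer.mul_mem (intCast_mem w.integer _)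
    (w.integer.prod_mem fun i _ => h _ _) :)

theorem der_le {S : Subalgebra ℂ K} (hS : ∀ s : S, w s ≤ 1) {D : Derivation ℂ K K}
    (hD : ∀ a ∈ S, D a ∈ S) {x a b : K} (hx : w x ≤ 1) (ha : a ∈ S) (hb : b ∈ S) (h1 : w b = 1)
    (e : x * b = a) : w (D x) ≤ 1 := by
  have k : D x * b = D a - x * D b := by
    rw [← e, Derivation.leibniz, smul_eq_mul, smul_eq_mul]
    ring
  have := congrArg w k
  rw [map_mul, h1, mul_one] at this
  rw [this]
  refine w.map_sub_le (hS ⟨_, hD a ha⟩) ?_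
  rw [map_mul]
  exact mul_le_one' hx (hS ⟨_, hD b hb⟩)

end field

section chart

variable {R K : Type} [CommRing R] [IsDomain R] [IsLocalRing R] [Algebra ℂ R] [Field K]
  [Algebra ℂ K] [Algebra R K] {n r : ℕ} {ω : (Fin n → Derivation ℂ K K) → K}
  {c : SncChart R n r ω} {w : Valuation K ℝ≥0}

theorem unit (h : c.Sees w) (u : c.Sˣ) : w ((u : c.S) : K) = 1 :=
  one_of (h _) (h (u⁻¹ : c.Sˣ)) (by rw [← MulMemClass.coe_mul, u.mul_inv]; rfl)

theorem nm_mem {a : K} (h : c.NM a) : a ∈ c.S := by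
  obtain ⟨u, e, rfl⟩ := h
  exact mul_mem (u : c.S).2 (prod_mem fun i _ => pow_mem (c.y i).2 _)

theorem fact (h : c.Sees w) {t : c.S} (ht : ∀ s : c.S, w s < 1 → s ∈ Ideal.span {t}) (N : ℕ) :
    ∀ f : c.S, w t ^ N < w f → ∃ (k : ℕ) (s : c.S), w s = 1 ∧ f = t ^ k * s := by
  have h0 : ∀ f : c.S, w f = 1 → ∃ (k : ℕ) (s : c.S), w s = 1 ∧ f = t ^ k * s :=
    fun f e => ⟨0, f, e, by simp⟩
  induction N with
  | zero => exact fun f k => absurd (h f) (not_le.2 (by simpa using k))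
  | succ N ih =>
    intro f k
    rcases (h f).eq_or_lt with e | e
    · exact h0 f e
    obtain ⟨g, rfl⟩ := Ideal.mem_span_singleton'.1 (ht f e)
    rw [MulMemClass.coe_mul, map_mul, pow_succ] at k
    obtain ⟨j, s, a, rfl⟩ := ih g (lt_of_mul_lt_mul_right k zero_le)
    exact ⟨j + 1, s, a, by ring⟩

end chart

end OrdA

open OrdA in
/-- **ORD** -/
theorem ord (hF : StCFR) : StORD := by
  intro R K _ _ _ _ _ _ _ _ _ n r ω hK
  refine ⟨?_, fun c i w h1 h2 h3 h4 => ?_⟩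
  · rintro w k k' ⟨b, g, a1, a2, a3, a4⟩ ⟨b', g', c1, c2, c3, c4⟩
    obtain ⟨D, hD⟩ := hK.form.1
    obtain ⟨e, e1, e2⟩ := a2 b' c1
    obtain ⟨e', e3, e4⟩ := c2 b a1
    have h0 : jac D b ^ r ≠ 0 := right_ne_zero_of_mul (a3 D ▸ hD)
    have h1 : jac D b ≠ 0 := fun k => h0 (by rw [k, zero_pow hK.index_pos.ne'])
    have h2 : w e = 1 := one_of e1 e3 (mul_right_cancel₀ h1 (by
      rw [mul_comm e, mul_assoc, ← e2, ← e4, one_mul]))
    have h3 : g = g' * e ^ r := mul_right_cancel₀ h0 (by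
      rw [← a3, c3, e2, mul_pow, mul_assoc])
    rw [h3, map_mul, map_pow, h2, one_pow, mul_one, c4] at a4
    exact_mod_cast (neg_injective (Real.exp_injective a4)).symm
  obtain ⟨⟨d, d1, d2⟩, -, d3⟩ := hF R K n r ω hK c
  refine ⟨fun j => c.y j, _, fun j => h1 _, fun b hb => ⟨jac d b, det_le fun l j => ?_,
    fun D => chain d1 D b⟩, c.form, ?_⟩
  · obtain ⟨a, ha, b', hb', k1, k2⟩ := h4 _ (hb j)
    exact der_le h1 (d2 l) (hb j) ha hb' k1 k2
  · rw [map_mul, unit h1, one_mul, map_prod, Finset.prod_eq_single i (fun j _ k => by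
      rw [map_zpow₀, (h1 _).eq_of_not_lt fun e => d3 i j k ((h2 _).1 e), one_zpow])
      (fun k => absurd (Finset.mem_univ i) k), map_zpow₀, NNReal.coe_zpow, h3, ← Real.rpow_intCast,
      ← Real.exp_mul, neg_one_mul]

open OrdA in
/-- **DIVC** -/
theorem divc (hF : StCFR) (hC : StCHART) (hO : StORD) : StDIVC := by
  classical
  intro R K _ _ _ _ _ _ _ _ _ n r ω hK w hw
  obtain ⟨⟨π, hπ⟩, hn⟩ := hw.normalized
  obtain ⟨A, ⟨t, rfl⟩, hA, hA'⟩ := hw.model
  have hπ1 : w π < 1 := by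
    rw [← NNReal.coe_lt_coe, hπ, NNReal.coe_one]
    exact Real.exp_lt_one_iff.2 (by norm_num)
  have hπ0 : π ≠ 0 := fun e => (Real.exp_pos (-1)).ne' (by rw [← hπ, e, map_zero, NNReal.coe_zero])
  obtain ⟨c, c1, c2, c3⟩ := hC R K n r ω hK w (insert π (t \ {0})) hw.above
    ((t.finite_toSet.subset Set.sdiff_subset).insert π) (fun k => k.elim hπ0.symm fun k => k.2 rfl)
  obtain ⟨-, d2, d3⟩ := hF R K n r ω hK c
  have h1 : ∀ x ∈ Algebra.adjoin ℂ (t : Set K), x ∈ Loc w c.S := fun x hx => by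
    refine Algebra.adjoin_le (fun a ha => ?_) hx
    rcases eq_or_ne a 0 with rfl | e
    · exact zero_mem _
    rcases c3 a (.inr ⟨ha, e⟩) with k | k
    · exact mem_Loc (nm_mem k)
    · exact inv_inv a ▸ inv_mem_Loc (mem_Loc (nm_mem k)) (one_of (c2 ⟨_, nm_mem k⟩)
        (hA a (Algebra.subset_adjoin ha)) (inv_mul_cancel₀ e))
  have h2 : ∀ x : K, w x ≤ 1 → ∃ a ∈ c.S, ∃ b ∈ c.S, w b = 1 ∧ x * b = a := fun x hx => by
    obtain ⟨a, ha, b, hb, k1, k2⟩ := hA' x hx
    have b0 : b ≠ 0 := fun e => by simp [e] at k1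
    have : x ∈ Loc w c.S := by
      rw [(eq_mul_inv_iff_mul_eq₀ b0).2 k2]
      exact mul_mem (h1 a ha) (inv_mem_Loc (h1 b hb) k1)
    obtain ⟨a', ha', b', hb', k⟩ := this
    rw [Algebra.adjoin_eq] at ha' hb'
    exact ⟨a', ha', b', hb', k⟩
  obtain ⟨u, e, he⟩ : c.NM π := (c3 π (.inl rfl)).resolve_right fun k =>
    hπ1.ne (one_of hπ1.le (c2 ⟨_, nm_mem k⟩) (mul_inv_cancel₀ hπ0))
  have h3 : w π = ∏ j, w (c.y j) ^ e j := by
    rw [he, map_mul, unit c2, one_mul, map_prod]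
    exact Finset.prod_congr rfl fun j _ => map_pow _ _ _
  obtain ⟨i, -, hi⟩ : ∃ i ∈ Finset.univ, w (c.y i) ^ e i ≠ 1 :=
    Finset.exists_ne_one_of_prod_ne_one (h3 ▸ hπ1.ne)
  have e0 : e i ≠ 0 := fun k => hi (by rw [k, pow_zero])
  have i1 : w (c.y i) < 1 := (c2 _).lt_of_ne fun k => hi (by rw [k, one_pow])
  have i2 : w (c.y i) = w π := le_antisymm (by rw [← NNReal.coe_le_coe, hπ]; exact hn _ i1) (by
    rw [h3, ← Finset.mul_prod_erase _ _ (Finset.mem_univ i)]
    exact (mul_le_of_le_one_right' (Finset.prod_le_one' fun j _ => pow_le_one' (c2 _) _)).trans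
      (pow_le_of_le_one zero_le i1.le e0))
  have i0 : (c.y i : K) ≠ 0 := fun k => hπ0 ((map_eq_zero w).1 (by rw [← i2, k, map_zero]))
  have h4 : ∀ s : c.S, s ∈ Ideal.span {c.y i} → w s < 1 := fun s k => by
    obtain ⟨g, rfl⟩ := Ideal.mem_span_singleton'.1 k
    rw [MulMemClass.coe_mul, map_mul]
    exact (mul_le_of_le_one_left' (c2 g)).trans_lt i1
  have h5 : ∀ s : c.S, w s < 1 → s ∈ Ideal.span {c.y i} := fun s k => by
    obtain ⟨a, ha, b, hb, k1, k2⟩ := h2 (s / c.y i) (by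
      rw [map_div₀, i2]
      exact div_le_one_of_le₀ (by rw [← NNReal.coe_le_coe, hπ]; exact hn _ k) zero_le)
    refine ((d2 i).mem_or_mem (x := s) (y := ⟨b, hb⟩) (Ideal.mem_span_singleton'.2
      ⟨⟨a, ha⟩, Subtype.ext ?_⟩)).resolve_right fun k' => (h4 _ k').ne k1
    change a * c.y i = s * b
    rw [← k2]
    field_simp
  refine ⟨c, i, ⟨c2, fun f => ?_⟩, ?_, (hO R K n r ω hK).2 c i w c2
    (fun s => ⟨h5 s, h4 s⟩) (by rw [i2, hπ]) h2⟩
  · rcases eq_or_ne f 0 with rfl | k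
    · exact zero_mem _
    obtain ⟨N, hN⟩ := exists_pow_lt_of_lt_one
      (pos_iff_ne_zero.2 ((map_ne_zero w).2 fun k' => k (Subtype.ext k'))) i1
    obtain ⟨j, s, a, rfl⟩ := fact c2 h5 N f hN
    refine Ideal.mul_mem_right _ _ (Ideal.subset_span ⟨by
      rw [MulMemClass.coe_mul, map_mul, a, mul_one], Pi.single i j, ?_⟩)
    rw [c1, Finset.prod_eq_single i (fun l _ k => by rw [Pi.single_eq_of_ne k, pow_zero])
      (fun k => absurd (Finset.mem_univ i) k), Pi.single_eq_same]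
  · rw [SncChart.discr, c1, Finset.sum_eq_single i (fun j _ k => by
      rw [(c2 _).eq_of_not_lt fun e => d3 i j k (h5 _ e), NNReal.coe_one, Real.log_one, neg_zero,
        zero_mul]) (fun k => absurd (Finset.mem_univ i) k), i2, hπ, Real.log_exp, neg_neg, one_mul]

end Vale.Agent.P282Y
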