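import Vale.Agent.P282Y.Sk

/-!
# P282Y: the toric lemma
-/

namespace Vale.Agent.P282Y

namespace Per

open Multiplicative

variable {Γ : Type} [LinearOrderedCommGroupWithZero Γ] {A : Type} [AddCommGroup A] {N : ℕ}
  (ν : Multiplicative A →* Γ) (M : AddSubgroup A)

/-- generators of value at most one -/
structure Ok (e : Fin N → A) : Prop where
  mem : ∀ j, e j ∈ M
  le : ∀ j, ν (ofAdd (e j)) ≤ 1
  span : ∀ α ∈ M, ∃ c : Fin N → ℤ, α = ∑ j, c j • e j

/-- the coefficients at the generators of value less than one are not negative -/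
def Ps (e : Fin N → A) (α : A) : Prop :=
  ∃ c : Fin N → ℤ, α = ∑ j, c j • e j ∧ ∀ j, ν (ofAdd (e j)) < 1 → 0 ≤ c j

theorem nu_pos (a : Multiplicative A) : 0 < ν a :=
  zero_lt_iff.2 ((Group.isUnit a).map ν).ne_zero

theorem sum_move (e : Fin N → A) (c : Fin N → ℤ) {i j : Fin N} (h : i ≠ j) :
    ∑ k, c k • e k =
      ∑ k, Function.update c i (c i + c j) k • Function.update e j (e j - e i) k := by
  have h1 : ∀ k, Function.update c i (c i + c j) k • Function.update e j (e j - e i) k =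
      c k • e k + (if k = i then c j • e i else 0) - if k = j then c j • e i else 0 := fun k => by
    by_cases h2 : k = i
    · subst h2
      simp [h, add_smul]
    · by_cases h3 : k = j
      · subst h3
        simp [h2, smul_sub]
      · simp [h2, h3]
  simp [h1, Finset.sum_sub_distrib, Finset.sum_add_distrib]

variable {ν M}

theorem act_move {e : Fin N → A} {i j : Fin N} (hi : ν (ofAdd (e i)) < 1)
    (hj : ν (ofAdd (e j)) ≤ ν (ofAdd (e i))) (k : Fin N)
    (hk : ν (ofAdd (Function.update e j (e j - e i) k)) < 1) : ν (ofAdd (e k)) < 1 := by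
  by_cases h : k = j
  · exact h ▸ hj.trans_lt hi
  · rwa [Function.update_of_ne h] at hk

theorem Ok.move {e : Fin N → A} (he : Ok ν M e) {i j : Fin N} (h : i ≠ j)
    (hj : ν (ofAdd (e j)) ≤ ν (ofAdd (e i))) : Ok ν M (Function.update e j (e j - e i)) := by
  refine ⟨fun k => ?_, fun k => ?_, fun α hα => ?_⟩
  · by_cases h : k = j
    · rw [h, Function.update_self]
      exact M.sub_mem (he.mem j) (he.mem i)
    · rw [Function.update_of_ne h]
      exact he.mem k
  · by_cases h : k = j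
    · rw [h, Function.update_self, ofAdd_sub, map_div]
      exact (div_le_one₀ (nu_pos ν _)).2 hj
    · rw [Function.update_of_ne h]
      exact he.le k
  · obtain ⟨c, rfl⟩ := he.span α hα
    exact ⟨_, sum_move e c h⟩

theorem Ps.move {e : Fin N → A} {α : A} (hα : Ps ν e α) {i j : Fin N} (h : i ≠ j)
    (hi : ν (ofAdd (e i)) < 1) (hj : ν (ofAdd (e j)) ≤ ν (ofAdd (e i))) :
    Ps ν (Function.update e j (e j - e i)) α := by
  obtain ⟨c, rfl, hc⟩ := hα
  refine ⟨_, sum_move e c h, fun k hk => ?_⟩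
  by_cases h : k = i
  · rw [h, Function.update_self]
    exact add_nonneg (hc i hi) (hc j (hj.trans_lt hi))
  · rw [Function.update_of_ne h]
    exact hc k (act_move hi hj k hk)

theorem not_neg {e : Fin N → A} (he : Ok ν M e) {c : Fin N → ℤ}
    (hc : ∀ k, ν (ofAdd (e k)) < 1 → c k ≤ 0) {j : Fin N} (hj : ν (ofAdd (e j)) < 1)
    (hj' : c j < 0) : 1 < ν (ofAdd (∑ k, c k • e k)) := by
  rw [ofAdd_sum, map_prod]
  simp only [ofAdd_zsmul, map_zpow]
  refine (one_lt_zpow_of_neg₀ (nu_pos ν _) hj hj').trans_le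
    (Finset.single_le_prod' (f := fun k => ν (ofAdd (e k)) ^ c k) (fun k _ => ?_)
      (Finset.mem_univ j))
  rcases (he.le k).eq_or_lt with h | h
  · rw [h, one_zpow]
  · exact one_le_zpow_of_nonpos₀ (nu_pos ν _) h.le (hc k h)

variable (ν) in
/-- the number of extreme coefficients -/
def cnt (e : Fin N → A) (c : Fin N → ℤ) (P Q : ℕ) : ℕ :=
  (Finset.univ.filter fun k => ν (ofAdd (e k)) < 1 ∧ (c k = P ∨ c k = -Q)).card

theorem cnt_le (e : Fin N → A) (c : Fin N → ℤ) (P Q : ℕ) : cnt ν e c P Q ≤ N :=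
  (Finset.card_le_univ _).trans (Fintype.card_fin N).le

theorem loop (m : ℕ) : ∀ (e : Fin N → A) (c : Fin N → ℤ) (P Q : ℕ), Ok ν M e →
    ν (ofAdd (∑ k, c k • e k)) ≤ 1 → (∀ k, ν (ofAdd (e k)) < 1 → -(Q : ℤ) ≤ c k ∧ c k ≤ P) →
    (P + Q) * (N + 1) + cnt ν e c P Q < m →
    ∃ e' : Fin N → A, Ok ν M e' ∧ (∀ β, Ps ν e β → Ps ν e' β) ∧ Ps ν e' (∑ k, c k • e k) := by
  induction m with
  | zero => intro e c P Q _ _ _ h; omega
  | succ m ih =>
    intro e c P Q he hν hc hm
    rcases Q with _ | Q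
    · exact ⟨e, he, fun _ h => h, c, rfl, fun k hk => by simpa using (hc k hk).1⟩
    by_cases hQ : ∃ j, ν (ofAdd (e j)) < 1 ∧ c j = -((Q + 1 : ℕ) : ℤ)
    swap
    · refine ih e c P Q he hν (fun k hk => ?_) ?_
      · have h1 := hc k hk
        have h2 : ¬c k = -((Q + 1 : ℕ) : ℤ) := fun h => hQ ⟨k, hk, h⟩
        omega
      · have := cnt_le (ν := ν) e c P Q
        rw [← add_assoc P, Nat.succ_mul] at hm
        omega
    obtain ⟨j, hj, hj'⟩ := hQ
    rcases P with _ | P
    · exact absurd hν (not_le.2 (not_neg he (fun k hk => by simpa using (hc k hk).2) hj (by omega)))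
    by_cases hP : ∃ i, ν (ofAdd (e i)) < 1 ∧ c i = ((P + 1 : ℕ) : ℤ)
    swap
    · refine ih e c P (Q + 1) he hν (fun k hk => ?_) ?_
      · have h1 := hc k hk
        have h2 : ¬c k = ((P + 1 : ℕ) : ℤ) := fun h => hP ⟨k, hk, h⟩
        omega
      · have := cnt_le (ν := ν) e c P (Q + 1)
        rw [add_right_comm P, Nat.succ_mul] at hm
        omega
    obtain ⟨i, hi, hi'⟩ := hP
    have key : ∀ i j : Fin N, i ≠ j → ν (ofAdd (e i)) < 1 → ν (ofAdd (e j)) ≤ ν (ofAdd (e i)) →
        (c i = ((P + 1 : ℕ) : ℤ) ∨ c i = -((Q + 1 : ℕ) : ℤ)) → c i + c j = P - Q →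
        ∃ e' : Fin N → A, Ok ν M e' ∧ (∀ β, Ps ν e β → Ps ν e' β) ∧
          Ps ν e' (∑ k, c k • e k) := fun i j h hi hj h1 h2 => by
      rw [sum_move e c h] at hν ⊢
      refine (ih _ _ (P + 1) (Q + 1) (he.move h hj) hν (fun k hk => ?_) ?_).imp
        fun e' h3 => ⟨h3.1, fun β hβ => h3.2.1 β (hβ.move h hi hj), h3.2.2⟩
      · by_cases h : k = i
        · rw [h, Function.update_self]
          omega
        · rw [Function.update_of_ne h]
          exact hc k (act_move hi hj k hk)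
      · have h3 : cnt ν (Function.update e j (e j - e i)) (Function.update c i (c i + c j))
            (P + 1) (Q + 1) < cnt ν e c (P + 1) (Q + 1) := by
          refine Finset.card_lt_card ⟨fun k hk => ?_, fun h3 => ?_⟩
          · rw [Finset.mem_filter] at hk ⊢
            refine ⟨hk.1, act_move hi hj k hk.2.1, ?_⟩
            by_cases h : k = i
            · exact h ▸ h1
            · simpa only [Function.update_of_ne h] using hk.2.2
          · have h4 := (Finset.mem_filter.1
              (h3 (Finset.mem_filter.2 ⟨Finset.mem_univ i, hi, h1⟩))).2.2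
            rw [Function.update_self] at h4
            omega
        omega
    have hij : i ≠ j := fun h => by rw [h] at hi'; omega
    rcases le_total (ν (ofAdd (e j))) (ν (ofAdd (e i))) with h | h
    · exact key i j hij hi h (Or.inl hi') (by omega)
    · exact key j i hij.symm hj h (Or.inr hj') (by omega)

theorem one {e : Fin N → A} (he : Ok ν M e) {α : A} (hα : α ∈ M) (hν : ν (ofAdd α) ≤ 1) :
    ∃ e' : Fin N → A, Ok ν M e' ∧ (∀ β, Ps ν e β → Ps ν e' β) ∧ Ps ν e' α := by
  obtain ⟨c, rfl⟩ := he.span α hα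
  refine loop _ e c (∑ k, (c k).natAbs) (∑ k, (c k).natAbs) he hν (fun k _ => ?_) (lt_add_one _)
  have := Finset.single_le_sum (f := fun k => (c k).natAbs) (fun _ _ => Nat.zero_le _)
    (Finset.mem_univ k)
  omega

theorem all {e : Fin N → A} (he : Ok ν M e) {Φ : Set A} (hΦ : Φ.Finite)
    (h : ∀ α ∈ Φ, α ∈ M ∧ ν (ofAdd α) ≤ 1) : ∃ e' : Fin N → A, Ok ν M e' ∧ ∀ α ∈ Φ, Ps ν e' α := by
  induction Φ, hΦ using Set.Finite.induction_on with
  | empty => exact ⟨e, he, by simp⟩
  | @insert α Φ _ _ ih =>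
    obtain ⟨e₁, h1, h2⟩ := ih fun β hβ => h β (Or.inr hβ)
    obtain ⟨e₂, h3, h4, h5⟩ := one h1 (h α (Or.inl rfl)).1 (h α (Or.inl rfl)).2
    refine ⟨e₂, h3, ?_⟩
    rintro β (rfl | hβ)
    · exact h5
    · exact h4 β (h2 β hβ)

theorem start (ν : Multiplicative (Fin N → ℤ) →* Γ) (M : AddSubgroup (Fin N → ℤ)) :
    ∃ e : Fin N → Fin N → ℤ, Ok ν M e := by
  have hr : Module.finrank ℤ M.toIntSubmodule ≤ N :=
    (Submodule.finrank_le _).trans (by simp)
  let b := Module.finBasis ℤ M.toIntSubmodule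
  let f : Fin N → Fin N → ℤ := fun j => if h : j.1 < _ then (b ⟨j, h⟩).1 else 0
  have hf : ∀ j, f j ∈ M := fun j => by
    simp only [f]
    split_ifs with h
    · exact (b ⟨j, h⟩).2
    · exact M.zero_mem
  have hs : ∀ α ∈ M, α ∈ Submodule.span ℤ (Set.range f) := fun α hα => by
    have h1 := congrArg Subtype.val (b.sum_repr ⟨α, hα⟩)
    simp only [AddSubmonoidClass.coe_finsetSum, SetLike.val_smul] at h1
    rw [← h1]
    refine Submodule.sum_mem _ fun i _ => Submodule.smul_mem _ _ (Submodule.subset_span ?_)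
    exact ⟨⟨i, i.2.trans_le hr⟩, dif_pos i.2⟩
  refine ⟨fun j => if ν (ofAdd (f j)) ≤ 1 then f j else -f j, fun j => ?_, fun j => ?_,
    fun α hα => ?_⟩
  · split_ifs
    · exact hf j
    · exact M.neg_mem (hf j)
  · split_ifs with h
    · exact h
    · rw [ofAdd_neg, map_inv]
      exact inv_le_one_of_one_le₀ (not_le.1 h).le
  · obtain ⟨c, rfl⟩ := (Submodule.mem_span_range_iff_exists_fun ℤ).1 (hs α hα)
    refine ⟨fun j => if ν (ofAdd (f j)) ≤ 1 then c j else -c j,
      Finset.sum_congr rfl fun j _ => ?_⟩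
    by_cases h : ν (ofAdd (f j)) ≤ 1
    · simp only [if_pos h]
    · simp only [if_neg h, smul_neg, neg_smul, neg_neg]

end Per

open Per in
theorem per : StPER := by
  intro Γ _ N γ M k Φ hγ hk hM hΦ h
  let ν : Multiplicative (Fin N → ℤ) →* Γ :=
    { toFun := fun α => ∏ l, γ l ^ α.toAdd l
      map_one' := by simp
      map_mul' := fun α β => by simp [zpow_add₀ (hγ _), Finset.prod_mul_distrib] }
  obtain ⟨e₀, he₀⟩ := start ν M
  obtain ⟨e, he, hp⟩ := all he₀ hΦ h
  refine ⟨e, fun j => ⟨he.mem j, he.le j⟩, fun h0 => ?_, he.span, hp⟩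
  choose c hc using fun l => he.span _ (hM l)
  have h1 : Matrix.of c * Matrix.of e = (k : ℤ) • (1 : Matrix (Fin N) (Fin N) ℤ) := by
    ext l m
    have h2 := congrFun (hc l) m
    simp only [Finset.sum_apply, Pi.smul_apply, smul_eq_mul] at h2
    rw [Matrix.mul_apply, Matrix.smul_apply, Matrix.one_apply]
    simp only [Matrix.of_apply, ← h2, Pi.single_apply, eq_comm]
    simp
  have h2 := congrArg Matrix.det h1
  rw [Matrix.det_mul, h0, mul_zero, Matrix.det_smul, Matrix.det_one, mul_one] at h2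
  exact pow_ne_zero _ (Int.natCast_ne_zero.2 hk.ne') h2.symm

end Vale.Agent.P282Y
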