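import Vale.Agent.P282Y.Sk

/-!
# P282Y: the coordinate ideals of a frame are prime
-/

open IsLocalRing

namespace Vale.Agent.P282Y

namespace PrimeAux

variable {R : Type} [CommRing R] [Algebra ℂ R]

theorem cancel (I : Ideal R) (D : Derivation ℂ R R) (x : R) (hI : ∀ a ∈ I, D a ∈ I)
    (hx : D x = 1) : ∀ (k : ℕ) (a : R), x ^ k * a ∈ I → a ∈ I ⊔ Ideal.span {x} := by
  intro k
  induction k with
  | zero => intro a ha; exact Ideal.mem_sup_left (by simpa using ha)
  | succ k ih =>
    intro a ha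
    have h1 := hI _ ha
    have h2 : D (x ^ (k + 1) * a) = x ^ k * (((k + 1 : ℕ) : R) * a + x * D a) := by
      rw [Derivation.leibniz, Derivation.leibniz_pow, hx]
      simp only [smul_eq_mul, nsmul_eq_mul, Nat.add_sub_cancel, mul_one]
      ring
    rw [h2] at h1
    have h3 := ih _ h1
    have h4 : x * D a ∈ I ⊔ Ideal.span {x} :=
      Ideal.mem_sup_right (Ideal.mul_mem_right _ _ (Ideal.mem_span_singleton_self x))
    have h5 : ((k + 1 : ℕ) : R) * a ∈ I ⊔ Ideal.span {x} := by
      simpa using sub_mem h3 h4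
    have h6 : ((k + 1 : ℕ) : ℂ) ≠ 0 := Nat.cast_ne_zero.2 (Nat.succ_ne_zero k)
    have h7 : a = algebraMap ℂ R ((k + 1 : ℕ) : ℂ)⁻¹ * (((k + 1 : ℕ) : R) * a) := by
      rw [← mul_assoc, ← map_natCast (algebraMap ℂ R), ← map_mul, inv_mul_cancel₀ h6, map_one,
        one_mul]
    rw [h7]
    exact Ideal.mul_mem_left _ _ h5

omit [Algebra ℂ R] in
theorem krull [IsLocalRing R] [IsNoetherianRing R] (I : Ideal R) (x : R) (hx : x ∈ maximalIdeal R)
    (a : R) (ha : ∀ k : ℕ, a ∈ I ⊔ Ideal.span {x ^ k}) : a ∈ I := by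
  have h := Ideal.iInf_pow_smul_eq_bot_of_isLocalRing (M := R ⧸ I) (I := maximalIdeal R)
    (maximalIdeal.isMaximal R).ne_top
  rw [← Ideal.Quotient.eq_zero_iff_mem, ← Submodule.mem_bot R, ← h, Submodule.mem_iInf]
  intro k
  obtain ⟨i, hi, c, hc, rfl⟩ := Submodule.mem_sup.1 (ha k)
  obtain ⟨b, rfl⟩ := Ideal.mem_span_singleton'.1 hc
  rw [map_add, Ideal.Quotient.eq_zero_iff_mem.2 hi, zero_add, mul_comm]
  exact Submodule.smul_mem_smul (N := ⊤) (n := Ideal.Quotient.mk I b) (Ideal.pow_mem_pow hx k)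
    Submodule.mem_top

omit [Algebra ℂ R] in
theorem split [IsLocalRing R] [IsNoetherianRing R] (I : Ideal R) (x : R) (hx : x ∈ maximalIdeal R)
    (a : R) (ha : a ∉ I) : ∃ (s : ℕ) (b : R), a - x ^ s * b ∈ I ∧ b ∉ I ⊔ Ideal.span {x} := by
  by_contra hn
  push Not at hn
  refine ha (krull I x hx a fun k => ?_)
  induction k with
  | zero => simp
  | succ k ih =>
    obtain ⟨i, hi, c, hc, rfl⟩ := Submodule.mem_sup.1 ih
    obtain ⟨b, rfl⟩ := Ideal.mem_span_singleton'.1 hc
    have h1 := hn k b (by simpa [mul_comm] using hi)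
    obtain ⟨j, hj, c, hc', rfl⟩ := Submodule.mem_sup.1 h1
    obtain ⟨e, rfl⟩ := Ideal.mem_span_singleton'.1 hc'
    refine Submodule.mem_sup.2 ⟨i + j * x ^ k, add_mem hi (Ideal.mul_mem_right _ _ hj),
      e * x ^ (k + 1), Ideal.mem_span_singleton'.2 ⟨e, rfl⟩, by ring⟩

theorem step [IsLocalRing R] [IsNoetherianRing R] (I : Ideal R) (D : Derivation ℂ R R) (x : R)
    (hI : ∀ a ∈ I, D a ∈ I) (hx : D x = 1) (hm : x ∈ maximalIdeal R)
    (hP : (I ⊔ Ideal.span {x}).IsPrime) : I.IsPrime := by
  refine ⟨fun h => hP.ne_top (by rw [h, top_sup_eq]), fun {a b} hab => ?_⟩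
  by_contra hn
  push Not at hn
  obtain ⟨s, a', ha, ha'⟩ := split I x hm a hn.1
  obtain ⟨t, b', hb, hb'⟩ := split I x hm b hn.2
  have h1 : x ^ (s + t) * (a' * b') ∈ I := by
    have : x ^ (s + t) * (a' * b') =
        a * b - (a - x ^ s * a') * b - (x ^ s * a') * (b - x ^ t * b') := by ring
    rw [this]
    exact sub_mem (sub_mem hab (Ideal.mul_mem_right _ _ ha)) (Ideal.mul_mem_left _ _ hb)
  rcases hP.mem_or_mem (cancel I D x hI hx _ _ h1) with h | h
  exacts [ha' h, hb' h]

theorem pres [IsLocalRing R] {N : ℕ} {y : Fin N → R} {d : Fin N → Derivation ℂ R R} (h : AFr y d)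
    (J : Set (Fin N)) (l : Fin N) (hl : l ∉ J) :
    ∀ a ∈ Ideal.span (y '' J), d l a ∈ Ideal.span (y '' J) := by
  intro a ha
  induction ha using Submodule.span_induction with
  | mem a ha =>
    obtain ⟨j, hj, rfl⟩ := ha
    rw [h.dual, if_neg (by rintro rfl; exact hl hj)]
    exact zero_mem _
  | zero => simp
  | add a b _ _ ha hb => rw [map_add]; exact add_mem ha hb
  | smul c a ha' ha =>
    rw [smul_eq_mul, Derivation.leibniz, smul_eq_mul, smul_eq_mul]
    exact add_mem (Ideal.mul_mem_left _ _ ha) (Ideal.mul_mem_right _ _ ha')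

end PrimeAux

open PrimeAux in
theorem prime : StPRIME := by
  classical
  intro R _ _ _ _ N y d h
  have hy : ∀ l, y l ∈ maximalIdeal R := fun l => h.span ▸ Ideal.subset_span ⟨l, rfl⟩
  have hle : ∀ J : Set (Fin N), Ideal.span (y '' J) ≤ maximalIdeal R := fun J =>
    Ideal.span_le.2 (by rintro _ ⟨l, -, rfl⟩; exact hy l)
  have h1 : ∀ s : Finset (Fin N), (Ideal.span (y '' (↑s : Set (Fin N))ᶜ)).IsPrime := by
    intro s
    induction s using Finset.induction_on with
    | empty =>
      rw [Finset.coe_empty, Set.compl_empty, Set.image_univ, ← h.span]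
      infer_instance
    | insert l s hl ih =>
      refine step _ (d l) (y l) (pres h _ l (by simp)) (by simp [h.dual]) (hy l) ?_
      have e : (↑s : Set (Fin N))ᶜ = insert l (↑(insert l s) : Set (Fin N))ᶜ := by
        ext j
        by_cases hj : j = l
        · simp [hj, hl]
        · simp [hj]
      rwa [e, Set.image_insert_eq, Ideal.span_insert, sup_comm] at ih
  have h2 : ∀ J : Set (Fin N), (Ideal.span (y '' J)).IsPrime := fun J => by
    simpa using h1 (Jᶜ).toFinset
  have h3 : ∀ (J : Set (Fin N)) (l : Fin N), l ∉ J → y l ∉ Ideal.span (y '' J) := by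
    intro J l hl hm
    have := hle J (pres h J l hl _ hm)
    rw [h.dual, if_pos rfl] at this
    exact (maximalIdeal.isMaximal R).ne_top ((Ideal.eq_top_iff_one _).2 this)
  refine ⟨h2, h3, IsRegularLocalRing.of_spanFinrank_maximalIdeal_le R ?_⟩
  have h4 : ∀ s : Finset (Fin N), (s.card : ℕ∞) ≤ (Ideal.span (y '' (↑s : Set (Fin N)))).height := by
    intro s
    induction s using Finset.induction_on with
    | empty => simp
    | insert l s hl ih =>
      have := h2 (↑s : Set (Fin N))
      have := h2 (↑(insert l s) : Set (Fin N))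
      have hlt : Ideal.span (y '' (↑s : Set (Fin N))) < Ideal.span (y '' ↑(insert l s)) := by
        refine lt_of_le_of_ne (Ideal.span_mono (Set.image_mono (by simp))) fun e => ?_
        refine h3 (↑s : Set (Fin N)) l (by simpa using hl) ?_
        rw [e]
        exact Ideal.subset_span ⟨l, by simp, rfl⟩
      rw [Finset.card_insert_of_notMem hl, Nat.cast_add, Nat.cast_one]
      exact le_trans (by gcongr) (Ideal.height_add_one_le_of_lt_of_isPrime hlt)
  have h5 := h4 Finset.univ
  have := h2 (↑(Finset.univ : Finset (Fin N)) : Set (Fin N))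
  have h6 : (maximalIdeal R).spanFinrank ≤ N := by
    rw [h.span]
    refine (Submodule.spanFinrank_span_le_ncard_of_finite (Set.finite_range y)).trans ?_
    rw [← Set.image_univ]
    exact (Set.ncard_image_le Set.finite_univ).trans (by simp)
  refine le_trans ?_ (Ideal.height_le_ringKrullDim_of_isPrime
    (I := Ideal.span (y '' (↑(Finset.univ : Finset (Fin N)) : Set (Fin N)))))
  rw [Finset.card_univ, Fintype.card_fin] at h5
  exact_mod_cast le_trans (by exact_mod_cast h6) h5

end Vale.Agent.P282Y
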