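import Vale.Agent.P282Y.Loc

/-!
# P282Y: existence of the slices of weighted blow ups
-/

open IsLocalRing

noncomputable section

namespace Vale.Agent.P282Y

namespace Sl1

variable {Ω : Type} [Field Ω] [Algebra ℂ Ω] {Γ : Type} [LinearOrderedCommGroupWithZero Γ] {N : ℕ}
  {v : Valuation Ω Γ} {G : Subgroup (Ω ≃ₐ[ℂ] Ω)}

theorem v_nat (hv : Zd v) {k : ℕ} (hk : 0 < k) : v (k : Ω) = 1 := by
  rw [← map_natCast (algebraMap ℂ Ω)]
  exact hv.const _ (Nat.cast_ne_zero.2 hk.ne')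

/-- homogeneous recentring -/
theorem recentre {h : Set Ω} [hm : Md v h] {x : Ω} (hx : x ∈ Loc v h) (hH : Hm G x) :
    ∃ y u : Ω, y ∈ Loc v h ∧ u ∈ Loc v h ∧ Hm G y ∧ v y < 1 ∧ v u = 1 ∧
      (∀ D : Derivation ℂ Ω Ω, D y = u * D x) ∧
      (∃ p : ℂ, ∃ e ∈ Loc v h, x - algebraMap ℂ Ω p = e * y) ∧ (v x < 1 → y = x) := by
  rcases (Md.loc_le hx).eq_or_lt with h1 | h1
  swap
  · exact ⟨x, 1, hx, one_mem _, hH, h1, map_one v, fun D => (one_mul _).symm,
      ⟨0, 1, one_mem _, by simp⟩, fun _ => rfl⟩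
  obtain ⟨p, hp⟩ := Md.res (⟨x, hx⟩ : Loc v h)
  obtain ⟨k, hk, hF⟩ := hH.fix_pow
  have hp0 : p ≠ 0 := by
    rintro rfl
    rw [map_zero, sub_zero, mem_max_Loc] at hp
    exact hp.ne h1
  set s : Loc v h := ∑ i ∈ Finset.range k, (⟨x, hx⟩ : Loc v h) ^ i * algebraMap ℂ _ p ^ (k - 1 - i)
    with hs
  have h2 : residue (Loc v h) ⟨x, hx⟩ = algebraMap ℂ _ p := by
    have := (residue_eq_zero_iff _).2 hp
    rw [map_sub, sub_eq_zero] at this
    exact this
  have h3 : IsUnit s := by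
    rw [← residue_ne_zero_iff_isUnit, hs, map_sum]
    have : ∀ i, residue (Loc v h) ((⟨x, hx⟩ : Loc v h) ^ i * algebraMap ℂ _ p ^ (k - 1 - i)) =
        algebraMap ℂ (ResidueField (Loc v h)) (p ^ i * p ^ (k - 1 - i)) := fun i => by
      rw [map_mul, map_pow, map_pow, h2, map_mul, map_pow, map_pow]
      rfl
    simp only [this]
    rw [← map_sum, geom_sum₂_self]
    exact (map_ne_zero _).2 (mul_ne_zero (Nat.cast_ne_zero.2 hk.ne') (pow_ne_zero _ hp0))
  have h4 : v s = 1 := (isUnit_Loc _).1 h3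
  have h5 : (s : Ω) * (x - algebraMap ℂ Ω p) = x ^ k - algebraMap ℂ Ω p ^ k :=
    congrArg Subtype.val (geom_sum₂_mul (⟨x, hx⟩ : Loc v h) (algebraMap ℂ _ p) k)
  have h6 : (s : Ω) ≠ 0 := fun e => by simp [e] at h4
  have h7 : v (x - algebraMap ℂ Ω p) < 1 := (mem_max_Loc _).1 hp
  refine ⟨x ^ k - algebraMap ℂ Ω p ^ k, k * x ^ (k - 1),
    sub_mem (pow_mem hx _) (pow_mem (algebraMap_mem _ p) _),
    mul_mem (natCast_mem _ k) (pow_mem hx _), (hF.sub ?_).hm, ?_, ?_, fun D => ?_,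
    ⟨p, (s : Ω)⁻¹, inv_mem_Loc s.2 h4, ?_⟩, fun h => absurd h1 h.ne⟩
  · rw [← map_pow]
    exact Fix.const _
  · rwa [← h5, map_mul, h4, one_mul]
  · rw [map_mul, map_pow, h1, v_nat hm.zd hk, one_pow, one_mul]
  · rw [map_sub, ← map_pow, D.map_algebraMap, sub_zero, D.leibniz_pow, smul_eq_mul, nsmul_eq_mul,
      mul_assoc]
  · rw [← h5, inv_mul_cancel_left₀ h6]

omit [Algebra ℂ Ω] in
theorem det_row (a r : Fin N → Ω) (l : Fin N) :
    ((Matrix.diagonal a).updateRow l r).det = (∏ j ∈ Finset.univ.erase l, a j) * r l := by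
  rw [← Matrix.cramer_transpose_apply, Matrix.diagonal_transpose,
    Matrix.cramer_eq_adjugate_mulVec, Matrix.adjugate_diagonal, Matrix.mulVec_diagonal]

theorem der_div (D : Derivation ℂ Ω Ω) (y : Ω) {z : Ω} (hz : z ≠ 0) (k : ℕ) :
    D (y / z ^ k) = (D y - k * y * (D z / z)) / z ^ k := by
  have h1 : D (z ^ k) = k * z ^ k * (D z / z) := by
    rw [D.leibniz_pow, smul_eq_mul, nsmul_eq_mul]
    rcases k with _ | k
    · simp
    · rw [Nat.add_sub_cancel, pow_succ]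
      field_simp
  have h2 := D.leibniz (y / z ^ k) (z ^ k)
  rw [div_mul_cancel₀ _ (pow_ne_zero k hz), h1, smul_eq_mul, smul_eq_mul] at h2
  rw [h2]
  field_simp
  ring

theorem der_root (D : Derivation ℂ Ω Ω) {y z : Ω} (hz : z ≠ 0) {k : ℕ} (h : z ^ k = y) :
    D y = k * y * (D z / z) := by
  have h1 := der_div D y hz k
  rw [← h, div_self (pow_ne_zero k hz), D.map_one_eq_zero, eq_comm,
    div_eq_zero_iff, or_iff_left (pow_ne_zero k hz), sub_eq_zero] at h1
  rw [← h, h1]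

theorem core (hH : StHOM) (S : St v G N) (W : Fin N → ℕ) (l₀ : Fin N) (z : Ω) (h' : Set Ω)
    (hW : 0 < W l₀) (hz : z ^ W l₀ = S.y l₀) (hv : ∀ l, v (S.y l / z ^ W l) ≤ 1)
    (h1 : S.h ⊆ h') (h2 : z ∈ h') (h3 : ∀ l, 0 < W l → S.y l / z ^ W l ∈ h')
    (h4 : ∀ a ∈ h', a ∈ S.h ∨ a = z ∨ ∃ l, a = S.y l / z ^ W l) (hfin : h'.Finite) :
    ∃ T : St v G N, T.h = h' ∧ (∀ l ∈ T.B, (l = l₀ ∧ (T.y l : Ω) = z) ∨
      (l ≠ l₀ ∧ l ∈ S.B ∧ (T.y l : Ω) = S.y l / z ^ W l)) ∧ Hm G z ∧ T.Mon z ∧ S.Le T := by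
  classical
  have z0 : z ≠ 0 := by
    rintro rfl
    exact S.y_ne l₀ (by rw [← hz, zero_pow hW.ne'])
  have zk : ∀ k : ℕ, z ^ k ≠ 0 := fun k => pow_ne_zero k z0
  have vz : v z < 1 := by
    have := S.fr.lt l₀
    rw [← hz, map_pow] at this
    exact lt_of_not_ge fun h => this.not_ge (one_le_pow_of_one_le' h _)
  have hz' : Hm G z := (hH Ω G).1 z _ hW (hz ▸ S.hy l₀)
  have hm : Md v h' := ⟨S.md.zd, hfin, fun a ha => by
    rcases h4 a ha with h | rfl | ⟨l, rfl⟩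
    exacts [S.md.le a h, vz.le, hv l]⟩
  have hL : Loc v S.h ≤ Loc v h' := Loc_mono fun a ha => mem_Loc (h1 ha)
  have zL : z ∈ Loc v h' := mem_Loc h2
  set x : Fin N → Ω := fun l => S.y l / z ^ W l with hx
  have yx : ∀ l, (S.y l : Ω) = x l * z ^ W l := fun l => (div_mul_cancel₀ _ (zk _)).symm
  have xL : ∀ l, x l ∈ Loc v h' := fun l => by
    rcases (W l).eq_zero_or_pos with h | h
    · simpa [hx, h] using hL (S.y l).2
    · exact mem_Loc (h3 l h)
  have xH : ∀ l, Hm G (x l) := fun l => (S.hy l).div (hz'.pow _)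
  have x0 : x l₀ = 1 := by simp only [hx]; rw [← hz, div_self (zk _)]
  choose y u yL uL yH yv uv yD yp ye using fun l => recentre (xL l) (xH l)
  have u0 : ∀ l, u l ≠ 0 := fun l e => by simpa [e] using uv l
  have W0 : (W l₀ : Ω) ≠ 0 := fun e => by simpa [e] using v_nat S.md.zd hW
  let y' : Fin N → Loc v h' := fun l => if l = l₀ then ⟨z, zL⟩ else ⟨y l, yL l⟩
  have y0 : (y' l₀ : Ω) = z := by simp [y']
  have y1 : ∀ l, l ≠ l₀ → (y' l : Ω) = y l := fun l h => by simp [y', h]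
  let E : Derivation ℂ Ω Ω := ∑ l, (z⁻¹ * (W l * S.y l)) • S.d l
  let d' : Fin N → Derivation ℂ Ω Ω := fun l =>
    if l = l₀ then E else ((u l)⁻¹ * z ^ W l) • S.d l
  have d0 : d' l₀ = E := by simp [d']
  have d1 : ∀ l, l ≠ l₀ → ∀ a, d' l a = (u l)⁻¹ * z ^ W l * S.d l a := fun l h a => by
    simp [d', h]
  have Ea : ∀ a, E a = ∑ l, z⁻¹ * (W l * S.y l) * S.d l a := fun a => der_sum_apply _ _ a
  have Ey : ∀ j, E (S.y j) = z⁻¹ * (W j * S.y j) := fun j => by simp [Ea, S.fr.du.dual]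
  have Ez : E z = 1 := by
    have := der_root E z0 hz
    rw [Ey, mul_comm z⁻¹, mul_right_inj' (mul_ne_zero W0 (S.y_ne l₀)), div_eq_mul_inv] at this
    exact (mul_eq_right₀ (inv_ne_zero z0)).1 this.symm
  have Ex : ∀ j, E (x j) = 0 := fun j => by
    simp only [hx]
    rw [der_div E _ z0, Ey, Ez, one_div, mul_comm, sub_self, zero_div]
  have dz : ∀ l, l ≠ l₀ → S.d l z = 0 := fun l h => by
    have := der_root (S.d l) z0 hz
    rw [S.fr.du.dual, if_neg h, eq_comm] at this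
    simpa [W0, S.y_ne l₀, z0] using this
  have dx : ∀ l, l ≠ l₀ → ∀ j, d' l (x j) = if l = j then (u l)⁻¹ else 0 := fun l h j => by
    simp only [hx]
    rw [d1 l h, der_div _ _ z0, dz l h, S.fr.du.dual]
    split_ifs with e
    · subst e
      simp [zk]
    · simp
  have du : Du (fun l => (y' l : Ω)) d' := S.fr.du.of_dual fun l j => by
    by_cases a : l = l₀ <;> by_cases b : j = l₀
    · rw [a, b, y0, d0, Ez, if_pos rfl]
    · rw [a, y1 j b, d0, yD, Ex, mul_zero, if_neg (Ne.symm b)]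
    · rw [b, y0, d1 l a, dz l a, mul_zero, if_neg a]
    · rw [y1 j b, yD, dx l a]
      split_ifs with e
      · rw [e, mul_inv_cancel₀ (u0 j)]
      · rw [mul_zero]
  have cL : ∀ l, z⁻¹ * (W l * S.y l) ∈ Loc v h' := fun l => by
    rcases h : W l with _ | k
    · simp
    · rw [yx, h, show z⁻¹ * (((k + 1 : ℕ) : Ω) * (x l * z ^ (k + 1))) =
        ((k + 1 : ℕ) : Ω) * (x l * z ^ k) by rw [pow_succ]; field_simp]
      exact mul_mem (natCast_mem _ _) (mul_mem (xL l) (pow_mem zL _))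
  have pres : ∀ l, ∀ a ∈ Loc v h', d' l a ∈ Loc v h' := fun l =>
    pres_Loc _ le_rfl _ fun g hg => by
      by_cases a : l = l₀
      · rw [a, d0]
        rcases h4 g hg with h | rfl | ⟨j, rfl⟩
        · rw [Ea]
          exact sum_mem fun j _ => mul_mem (cL j) (hL (S.fr.pres j g (mem_Loc h)))
        · exact Ez ▸ one_mem _
        · exact Ex j ▸ zero_mem _
      · rcases h4 g hg with h | rfl | ⟨j, rfl⟩
        · rw [d1 l a]
          exact mul_mem (mul_mem (inv_mem_Loc (uL l) (uv l)) (pow_mem zL _))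
            (hL (S.fr.pres l g (mem_Loc h)))
        · rw [d1 l a, dz l a, mul_zero]
          exact zero_mem _
        · rw [dx l a]
          split_ifs
          exacts [inv_mem_Loc (uL l) (uv l), zero_mem _]
  have yI : ∀ l, y' l ∈ Ideal.span (Set.range y') := fun l => Ideal.subset_span ⟨l, rfl⟩
  have mI : ∀ (a : Loc v h') (l : Fin N) (e : Ω), e ∈ Loc v h' → (a : Ω) = e * y' l →
      a ∈ Ideal.span (Set.range y') := fun a l e he h =>
    (show a = ⟨e, he⟩ * y' l from Subtype.ext h) ▸ Ideal.mul_mem_left _ _ (yI l)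
  have oI : ∀ l, (⟨S.y l, hL (S.y l).2⟩ : Loc v h') ∈ Ideal.span (Set.range y') := fun l => by
    rcases h : W l with _ | k
    · have e : x l = S.y l := by simp [hx, h]
      refine mI _ l 1 (one_mem _) ?_
      rw [y1 l fun e => by rw [e] at h; omega, ye l (e ▸ S.fr.lt l), e, one_mul]
    · refine mI _ l₀ (x l * z ^ k) (mul_mem (xL l) (pow_mem zL _)) ?_
      rw [y0, mul_assoc, ← pow_succ, ← h]
      exact yx l
  have span : maximalIdeal (Loc v h') = Ideal.span (Set.range y') := by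
    refine gen_max _ (Ideal.span_le.2 ?_) fun g hg => ?_
    · rintro _ ⟨l, rfl⟩
      refine (mem_max_Loc _).2 ?_
      by_cases a : l = l₀
      · rwa [a, y0]
      · rw [y1 l a]
        exact yv l
    · rcases h4 g hg with h | rfl | ⟨j, rfl⟩
      · obtain ⟨c, hc⟩ := Md.res (⟨g, mem_Loc h⟩ : Loc v S.h)
        rw [S.fr.span] at hc
        obtain ⟨s, hs⟩ := Ideal.mem_span_range_iff_exists_fun.1 hc
        refine ⟨c, ?_⟩
        have e : (⟨g, mem_Loc hg⟩ : Loc v h') - algebraMap ℂ _ c =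
            ∑ l, (⟨s l, hL (s l).2⟩ : Loc v h') * ⟨S.y l, hL (S.y l).2⟩ := Subtype.ext (by
          have := congrArg Subtype.val hs
          simpa using this.symm)
        rw [e]
        exact sum_mem fun l _ => Ideal.mul_mem_left _ _ (oI l)
      · exact ⟨0, mI _ l₀ 1 (one_mem _) (by simp [y0])⟩
      · by_cases a : j = l₀
        · exact ⟨1, mI _ l₀ 0 (zero_mem _) (by
            rw [zero_mul, map_one]
            exact sub_eq_zero.2 (a ▸ x0))⟩
        · obtain ⟨p, e, he, hp⟩ := yp j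
          exact ⟨p, mI _ j e he (by rw [y1 j a]; exact hp)⟩
  let T : St v G N :=
    { h := h'
      y := y'
      d := d'
      B := insert l₀ (S.B.filter fun l => v (x l) < 1)
      fr := ⟨span, du, pres⟩
      hh := fun a ha => by
        rcases h4 a ha with h | rfl | ⟨l, rfl⟩
        exacts [S.hh a h, hz', xH l]
      hy := fun l => by
        by_cases a : l = l₀
        · rwa [a, y0]
        · rw [y1 l a]
          exact yH l }
  have mz : T.Mon z := y0 ▸ St.Mon.flag (S := T) (Finset.mem_insert_self _ _)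
  refine ⟨T, rfl, fun l hl => ?_, hz', mz, hL, fun a => St.mon_of_flag hL fun l hl => ?_, ?_⟩
  · by_cases a : l = l₀
    · exact Or.inl ⟨a, a ▸ y0⟩
    · obtain ⟨b, c⟩ := Finset.mem_filter.1 ((Finset.mem_insert.1 hl).resolve_left a)
      exact Or.inr ⟨a, b, (y1 l a).trans (ye l c)⟩
  · rw [yx]
    refine St.Mon.mul ?_ (mz.pow _)
    rcases (hv l).eq_or_lt with c | c
    · exact St.Mon.unit (xL l) c
    · have a : l ≠ l₀ := fun a => by
        change v (x l) < 1 at c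
        rw [a, x0, map_one] at c
        exact c.false
      have := St.Mon.flag (S := T) (Finset.mem_insert_of_mem (Finset.mem_filter.2 ⟨hl, c⟩))
      rwa [show (T.y l : Ω) = x l from (y1 l a).trans (ye l c)] at this
  · have e : (Matrix.of fun i j => d' i (S.y j : Ω)) =
        (Matrix.diagonal fun l => (u l)⁻¹ * z ^ W l).updateRow l₀
          fun j => z⁻¹ * (W j * S.y j) := by
      ext i j
      rw [Matrix.of_apply, Matrix.updateRow_apply]
      split_ifs with a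
      · rw [a, d0, Ey]
      · rw [d1 i a, S.fr.du.dual, Matrix.diagonal_apply, mul_ite, mul_one, mul_zero]
    change T.Mon (Matrix.det (Matrix.of fun i j => d' i (S.y j : Ω)))
    rw [e, det_row]
    refine St.Mon.mul (St.Mon.prod fun l _ => St.Mon.mul
      (St.Mon.unit (inv_mem_Loc (uL l) (uv l)) (by rw [map_inv₀, uv, inv_one])) (mz.pow _)) ?_
    obtain ⟨k, hk⟩ := Nat.exists_eq_succ_of_ne_zero hW.ne'
    rw [← hz, show z⁻¹ * ((W l₀ : Ω) * z ^ W l₀) = W l₀ * z ^ k by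
      rw [hk, pow_succ]; field_simp]
    exact St.Mon.mul (St.Mon.unit (natCast_mem _ _) (v_nat S.md.zd hW)) (mz.pow _)

end Sl1

theorem sl1 (hH : StHOM) : StSL1 := by
  intro Ω _ _ _ Γ _ v G N S n m ω hn hm hω
  classical
  have hr : ∀ i, ∃ z : Ω, i < n → z ^ ω i = S.y (m i) := fun i => by
    by_cases hi : i < n
    · obtain ⟨z, hz⟩ := IsAlgClosed.exists_pow_nat_eq (S.y (m i) : Ω) (hω i hi)
      exact ⟨z, fun _ => hz⟩
    · exact ⟨0, fun h => absurd h hi⟩
  choose r hr using hr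
  obtain ⟨i₀, hi₀, hmax⟩ := Finset.exists_max_image (Finset.range n) (fun i => v (r i))
    ⟨0, Finset.mem_range.2 hn⟩
  rw [Finset.mem_range] at hi₀
  let W : Fin N → ℕ := fun l => if h : ∃ i < n, l = m i then ω h.choose else 0
  have W1 : ∀ i < n, W (m i) = ω i := fun i hi => by
    have h : ∃ j < n, m i = m j := ⟨i, hi, rfl⟩
    simp only [W, dif_pos h]
    rw [← hm i hi _ h.choose_spec.1 h.choose_spec.2]
  have W0 : ∀ l, (¬ ∃ i < n, l = m i) → W l = 0 := fun l h => dif_neg h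
  have z0 : r i₀ ≠ 0 := fun e => S.y_ne (m i₀) (by rw [← hr i₀ hi₀, e, zero_pow (hω i₀ hi₀).ne'])
  obtain ⟨T, e1, e2, e3, e4, e5⟩ := Sl1.core hH S W (m i₀) (r i₀)
    (S.h ∪ {r i₀} ∪ {a | ∃ i < n, a = S.y (m i) / r i₀ ^ ω i}) (by rw [W1 i₀ hi₀]; exact hω i₀ hi₀)
    (by rw [W1 i₀ hi₀]; exact hr i₀ hi₀) (fun l => by
      by_cases h : ∃ i < n, l = m i
      · obtain ⟨i, hi, rfl⟩ := h
        rw [W1 i hi, ← hr i hi, ← div_pow, map_pow, map_div₀]
        exact pow_le_one' (div_le_one_of_le₀ (hmax i (Finset.mem_range.2 hi)) zero_le) _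
      · rw [W0 l h, pow_zero, div_one]
        exact (S.fr.lt l).le)
    (fun a ha => Or.inl (Or.inl ha)) (Or.inl (Or.inr rfl)) (fun l hl => by
      by_cases h : ∃ i < n, l = m i
      · obtain ⟨i, hi, rfl⟩ := h
        exact Or.inr ⟨i, hi, by rw [W1 i hi]⟩
      · exact absurd (W0 l h) hl.ne')
    (by
      rintro a ((h | h) | ⟨i, hi, rfl⟩)
      exacts [Or.inl h, Or.inr (Or.inl h), Or.inr (Or.inr ⟨m i, by rw [W1 i hi]⟩)])
    ((S.md.fin.union (Set.finite_singleton _)).union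
      (((Set.finite_lt_nat n).image fun i => (S.y (m i) : Ω) / r i₀ ^ ω i).subset
        fun a ⟨i, hi, e⟩ => ⟨i, hi, e.symm⟩))
  refine ⟨i₀, r i₀, T, hi₀, hr i₀ hi₀, e1, fun l hl => (e2 l hl).imp id fun ⟨a, b, c⟩ =>
    ⟨a, b, ?_⟩, e3, e4, e5⟩
  by_cases h : ∃ i < n, l = m i
  · obtain ⟨i, hi, rfl⟩ := h
    exact Or.inl ⟨i, hi, rfl, by rw [c, W1 i hi]⟩
  · exact Or.inr ⟨fun i hi e => h ⟨i, hi, e⟩, by rw [c, W0 l h, pow_zero, div_one]⟩

end Vale.Agent.P282Y
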