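import Vale.Agent.P282Y.Sl2a

/-!
# P282Y: the type drops on the slice of the weighted blow up (end of the proof)
-/

open IsLocalRing P277Z.Hir

noncomputable section

namespace Vale.Agent.P282Y

namespace Sl2K

open Sl2H

variable {Ω : Type} [Field Ω] [Algebra ℂ Ω] {Γ : Type} [LinearOrderedCommGroupWithZero Γ] {N : ℕ}
  {v : Valuation Ω Γ} {G : Subgroup (Ω ≃ₐ[ℂ] Ω)} {S T : St v G N} {n : ℕ} {m : ℕ → Fin N}
  {w : ℕ → ℝ} {e : ℕ} {ω : ℕ → ℕ} {i₀ : ℕ} {z : Ω}

variable (H : Hyp S T n m w e ω i₀ z)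
include H

/-- every coordinate of the centre is divisible by `z ^ ω j` -/
theorem y_dvd (h0 : ∀ i, n ≤ i → w i = 0) (j : ℕ) :
    ∃ b ∈ Loc v T.h, (S.y (m j) : Ω) = z ^ ω j * b := by
  rcases lt_or_ge j n with hj | hj
  · exact ⟨_, (H.x j).2, H.y_eq hj⟩
  · have h1 : ω j = 0 := by
      have := H.om j
      rw [h0 j hj, mul_zero] at this
      exact_mod_cast this
    exact ⟨_, H.slc.le.loc (S.y (m j)).2, by rw [h1, pow_zero, one_mul]⟩

/-- the weak transform -/
theorem weak (h0 : ∀ i, n ≤ i → w i = 0) {a : Loc v S.h}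
    (ha : a ∈ LA.FI (fun j => S.y (m j)) w 1) : ∃ b ∈ Loc v T.h, (a : Ω) = z ^ e * b := by
  induction ha using Submodule.span_induction with
  | zero => exact ⟨0, zero_mem _, by simp⟩
  | add a b _ _ ha hb =>
    obtain ⟨a', ha', h1⟩ := ha
    obtain ⟨b', hb', h2⟩ := hb
    exact ⟨a' + b', add_mem ha' hb', by rw [AddMemClass.coe_add, h1, h2, mul_add]⟩
  | smul r a _ ha =>
    obtain ⟨a', ha', h1⟩ := ha
    exact ⟨r * a', mul_mem (H.slc.le.loc r.2) ha', by
      rw [smul_eq_mul, MulMemClass.coe_mul, h1, mul_left_comm]⟩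
  | mem a ha =>
    obtain ⟨α, h1, rfl⟩ := ha
    have key : ∀ β : Multiset ℕ, (((β.map ω).sum : ℕ) : ℝ) = e * (β.map w).sum ∧
        ∃ b ∈ Loc v T.h, (((β.map fun j => S.y (m j)).prod : Loc v S.h) : Ω) =
          z ^ (β.map ω).sum * b := by
      intro β
      induction β using Multiset.induction_on with
      | empty => exact ⟨by simp, 1, one_mem _, by simp⟩
      | cons j β ih =>
        obtain ⟨h2, b, hb, h3⟩ := ih
        obtain ⟨c, hc, h4⟩ := y_dvd H h0 j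
        simp only [Multiset.map_cons, Multiset.sum_cons, Multiset.prod_cons]
        refine ⟨by rw [Nat.cast_add, h2, H.om, mul_add], c * b, mul_mem hc hb, ?_⟩
        rw [MulMemClass.coe_mul, h3, h4, pow_add]
        ring
    obtain ⟨h2, b, hb, h3⟩ := key α
    have h4 : e ≤ (α.map ω).sum := by
      have : (e : ℝ) ≤ ((α.map ω).sum : ℕ) := by
        rw [h2]
        exact le_mul_of_one_le_right (Nat.cast_nonneg _) h1
      exact_mod_cast this
    obtain ⟨k, hk⟩ := Nat.exists_eq_add_of_le h4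
    exact ⟨z ^ k * b, mul_mem (pow_mem H.z_mem _) hb, by rw [h3, hk, pow_add, mul_assoc]⟩

section der

variable {δ : Derivation ℂ (Loc v S.h) (Loc v S.h)} {δ' : Derivation ℂ (Loc v T.h) (Loc v T.h)}
  {q : Loc v T.h} {i : ℕ}

/-- the lifted derivation on the transform of a coordinate -/
theorem der_x (hL : ∀ (a : Loc v S.h) (k : ℤ) (a' : Loc v T.h), (a : Ω) = z ^ k * a' →
      (δ a : Ω) = z ^ (k - ω i) * (δ' a' + (k : Loc v T.h) * q * a' : Loc v T.h))
    {a : Loc v S.h} {k : ℕ} {a' : Loc v T.h} (ha : (a : Ω) = z ^ k * a') (h0 : δ a = 0) :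
    δ' a' ∈ Ideal.span {a'} := by
  have h1 := hL a k a' (by rwa [zpow_natCast])
  rw [h0, ZeroMemClass.coe_zero, eq_comm, mul_eq_zero, ZeroMemClass.coe_eq_zero] at h1
  have h2 := h1.resolve_left (zpow_ne_zero _ H.z_ne)
  rw [eq_neg_of_add_eq_zero_left h2]
  exact neg_mem (Ideal.mul_mem_left _ _ (Ideal.subset_span rfl))

theorem der_eq (hL : ∀ (a : Loc v S.h) (k : ℤ) (a' : Loc v T.h), (a : Ω) = z ^ k * a' →
      (δ a : Ω) = z ^ (k - ω i) * (δ' a' + (k : Loc v T.h) * q * a' : Loc v T.h))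
    {a : Loc v S.h} {k : ℕ} {a' : Loc v T.h} (ha : (a : Ω) = z ^ k * a') (hk : k ≤ ω i) :
    ((δ' a' + (k : Loc v T.h) * q * a' : Loc v T.h) : Ω) = z ^ (ω i - k) * δ a := by
  have h1 := hL a k a' (by rwa [zpow_natCast])
  rw [Int.cast_natCast] at h1
  rw [h1, ← mul_assoc, ← zpow_natCast, ← zpow_add₀ H.z_ne, Nat.cast_sub hk]
  simp

theorem der_max (hL : ∀ (a : Loc v S.h) (k : ℤ) (a' : Loc v T.h), (a : Ω) = z ^ k * a' →
      (δ a : Ω) = z ^ (k - ω i) * (δ' a' + (k : Loc v T.h) * q * a' : Loc v T.h))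
    {a : Loc v S.h} {k : ℕ} {a' : Loc v T.h} (ha : (a : Ω) = z ^ k * a') (hk : k ≤ ω i)
    (h1 : a' ∈ maximalIdeal _) (h2 : δ a ∈ maximalIdeal _) : δ' a' ∈ maximalIdeal _ := by
  have h3 : δ' a' + (k : Loc v T.h) * q * a' ∈ maximalIdeal _ := by
    rw [mem_max_Loc, der_eq H hL ha hk, map_mul, map_pow]
    exact mul_lt_one_of_nonneg_of_lt_one_right (pow_le_one' H.z_lt.le _) zero_le
      ((mem_max_Loc _).1 h2)
  simpa using sub_mem h3 (Ideal.mul_mem_left _ ((k : Loc v T.h) * q) h1)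

end der

/-- lifting of the marked elements -/
theorem der_lift {f : Loc v S.h} {f' : Loc v T.h} (hf : (f : Ω) = z ^ e * f') {i : ℕ}
    {g : Loc v S.h} {c : ℝ} (hg : LA.Der ℂ {(f, 1)} (fun j => S.y (m j)) w i g c) (hi : i ≤ i₀) :
    ∃ (k : ℤ) (g' : Loc v T.h), (k : ℝ) = e * c ∧ (g : Ω) = z ^ k * g' ∧
      Der' {(f', 1)} H.x w i g' c := by
  induction hg with
  | @base g c hg =>
    obtain ⟨rfl, rfl⟩ := Prod.mk.inj (Set.mem_singleton_iff.1 hg)
    exact ⟨e, f', by simp, by rwa [zpow_natCast], .base rfl⟩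
  | succ _ ih =>
    obtain ⟨k, g', h1, h2, h3⟩ := ih (by omega)
    exact ⟨k, g', h1, h2, h3.succ⟩
  | @step i g c δ hδ _ ih =>
    obtain ⟨k, g', h1, h2, h3⟩ := ih hi
    obtain ⟨δ', q, hL⟩ := H.lift δ hi hδ
    refine ⟨k - ω i, _, ?_, (hL g k g' h2).1, h3.step δ' _ fun j hj => ?_⟩
    · rw [Int.cast_sub, h1, Int.cast_natCast, H.om, mul_sub]
    · exact der_x H (fun a k a' h => (hL a k a' h).1)
        (H.y_eq (hj.trans (hi.trans_lt H.slc.lt))) (hδ j hj)

theorem span_lift {i : ℕ} (hi : i < n) {a : Loc v S.h}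
    (ha : a ∈ Ideal.span ((fun j => S.y (m j)) '' {j | j < i})) :
    ∃ b ∈ Ideal.span (H.x '' {j | j < i}), (a : Ω) = z ^ ω i * b := by
  induction ha using Submodule.span_induction with
  | zero => exact ⟨0, zero_mem _, by simp⟩
  | add a b _ _ ha hb =>
    obtain ⟨a', ha', h1⟩ := ha
    obtain ⟨b', hb', h2⟩ := hb
    exact ⟨a' + b', add_mem ha' hb', by rw [AddMemClass.coe_add, h1, h2, AddMemClass.coe_add,
      mul_add]⟩
  | smul r a _ ha =>
    obtain ⟨a', ha', h1⟩ := ha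
    exact ⟨⟨r, H.slc.le.loc r.2⟩ * a', Ideal.mul_mem_left _ _ ha', by
      rw [smul_eq_mul, MulMemClass.coe_mul, h1, mul_left_comm]
      rfl⟩
  | mem a ha =>
    obtain ⟨j, hj, rfl⟩ := ha
    obtain ⟨k, hk⟩ := Nat.exists_eq_add_of_le (H.anti (le_of_lt hj))
    refine ⟨⟨z, H.z_mem⟩ ^ k * H.x j, Ideal.mul_mem_left _ _ (Ideal.subset_span ⟨j, hj, rfl⟩), ?_⟩
    rw [H.y_eq (lt_trans hj hi), hk, pow_add, mul_assoc]
    rfl

open Classical in
/-- the equations of the total transform of the boundary -/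
def sT : Option (Fin N) → Loc v T.h
  | none => ⟨z, H.z_mem⟩
  | some l => if l ∈ S.B then
      (if h : ∃ j < n, l = m j then H.x h.choose else ⟨S.y l, H.slc.le.loc (S.y l).2⟩) else 1

theorem sT_m (hm : ∀ i < n, ∀ j < n, m i = m j → i = j) {i : ℕ} (hi : i < n) (hB : m i ∈ S.B) :
    sT H (some (m i)) = H.x i := by
  have h : ∃ j < n, m i = m j := ⟨i, hi, rfl⟩
  rw [sT, if_pos hB, dif_pos h, ← hm i hi _ h.choose_spec.1 h.choose_spec.2]

theorem sT_o {l : Fin N} (hl : ∀ i < n, l ≠ m i) (hB : l ∈ S.B) :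
    (sT H (some l) : Ω) = S.y l := by
  rw [sT, if_pos hB, dif_neg fun ⟨j, h1, h2⟩ => hl j h1 h2]

theorem sT_n {l : Fin N} (hB : l ∉ S.B) : sT H (some l) = 1 := by rw [sT, if_neg hB]

/-- the lifted certificate -/
theorem cert {f : Loc v S.h} {f' : Loc v T.h} (hf : (f : Ω) = z ^ e * f')
    (hC : Cen S.B S.y f n m w) :
    Cert' (sT H) {(f', 1)} H.x w (fun j => (dvB S.B m j).map some) n := by
  refine ⟨hC.cert.anti, hC.cert.pos, fun i hi hx => ?_⟩
  have hi₀ : i ≤ i₀ := le_of_not_gt fun h => H.x_i₀ (hx _ h)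
  obtain ⟨D, g, hg, hD, hu, hs, hn, -⟩ :=
    hC.cert.wit i hi fun j _ => (mem_max_Loc _).2 (S.fr.lt _)
  obtain ⟨k, g', h1, h2, h3⟩ := der_lift H hf hg hi₀
  obtain rfl : k = ω i := by
    rw [← H.om] at h1
    exact_mod_cast h1
  rw [zpow_natCast] at h2
  obtain ⟨D', q, hL⟩ := H.lift D hi₀ hD
  have hL1 := fun a k a' h => (hL a k a' h).1
  have hlt : ∀ j < i, D' (H.x j) ∈ maximalIdeal _ := fun j hj =>
    (Ideal.span_singleton_le_iff_mem _).2 (hx j hj)
      (der_x H hL1 (H.y_eq (hj.trans hi)) (hD j hj))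
  refine ⟨D', g', h3, hlt, fun h4 => ?_, fun l h4 h5 => ?_, fun h4 => ?_, fun l h4 => ?_⟩
  · have h5 : IsUnit (D' g' + (ω i : Loc v T.h) * q * g') := by
      rw [isUnit_Loc, der_eq H hL1 h2 le_rfl, Nat.sub_self, pow_zero, one_mul]
      exact (isUnit_Loc _).1 hu
    by_contra h6
    exact (mem_maximalIdeal _).1
      (add_mem ((mem_maximalIdeal _).2 h6) (Ideal.mul_mem_left _ _ h4)) h5
  · rcases l with _ | l
    · rw [(hL g _ g' (by rwa [zpow_natCast])).2 _ rfl]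
      exact Ideal.mul_mem_right _ _ h5
    · by_cases hB : l ∈ S.B
      · have h6 : D (S.y l) ∈ maximalIdeal _ := by
          have := hs l (fun h => h4 (by rw [h]; rfl))
          rw [sB, if_pos hB] at this
          exact this ((mem_max_Loc _).2 (S.fr.lt _))
        by_cases h7 : ∃ j < n, l = m j
        · obtain ⟨j, hj, rfl⟩ := h7
          rw [sT_m H hC.inj hj hB] at h5 ⊢
          rcases lt_or_ge j i with h8 | h8
          · exact hlt j h8
          · exact der_max H hL1 (H.y_eq hj) (H.anti h8) h5 h6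
        · exact der_max H hL1 (k := 0) (by
            rw [pow_zero, one_mul, sT_o H (fun j h8 h9 => h7 ⟨j, h8, h9⟩) hB]) (Nat.zero_le _) h5 h6
      · rw [sT_n H hB] at h5
        exact ((mem_maximalIdeal _).1 h5 isUnit_one).elim
  · obtain ⟨b, hb, h5⟩ := span_lift H hi (hn (Option.map_eq_none_iff.1 h4))
    rw [AddSubgroupClass.coe_sub, h2, H.y_eq hi, ← mul_sub] at h5
    rwa [show g' - H.x i = b from Subtype.ext (mul_left_cancel₀ (pow_ne_zero _ H.z_ne) h5)]
  · by_cases hB : m i ∈ S.B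
    · rw [dvB, if_pos hB] at h4
      rw [← Option.some.inj h4, sT_m H hC.inj hi hB]
    · rw [dvB, if_neg hB] at h4
      cases h4

/-- the centres of the slice are compatible with the total transform of the boundary -/
theorem ok (hm : ∀ i < n, ∀ j < n, m i = m j → i = j) {y : ℕ → Loc v T.h} {u : ℕ → ℝ}
    {du : ℕ → Option (Fin N)} (hy : LA.Ok (sB T.B T.y) y u du) :
    LA.Ok (sT H) y u fun j => (du j).map fun l => if l = m i₀ then none else some l := by
  refine ⟨hy.anti, hy.nonneg, hy.mem, fun j l hj hl => ?_, fun i j h1 h2 h3 h4 => ?_⟩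
  · obtain ⟨l, h1, rfl⟩ := Option.map_eq_some_iff.1 hl
    have h2 := hy.div j l hj h1
    by_cases hB : l ∈ T.B
    · rw [h2, sB, if_pos hB]
      rcases H.slc.flag l hB with ⟨h3, h4⟩ | ⟨h3, h4, ⟨i, hi, rfl, h5⟩ | ⟨h5, h6⟩⟩
      · rw [if_pos h3]
        exact Subtype.ext h4
      · rw [if_neg h3, sT_m H hm hi h4]
        exact Subtype.ext (h5.trans (H.x_eq hi).symm)
      · rw [if_neg h3]
        exact Subtype.ext (h6.trans (sT_o H h5 h4).symm)
    · have := hy.mem j hj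
      rw [h2, sB, if_neg hB] at this
      exact ((mem_maximalIdeal _).1 this isUnit_one).elim
  · exact Option.map_eq_none_iff.2 (hy.sorted i j h1 h2 h3 (Option.map_eq_none_iff.1 h4))

end Sl2K

theorem sl2 (hU : StUQ) : StSL2 := by
  intro Ω _ _ Γ _ v G N S T f n m w e ω i₀ z hC he hω hS
  have he' : (0 : ℝ) < e := Nat.cast_pos.2 he
  have H : Sl2H.Hyp S T n m w e ω i₀ z := by
    refine ⟨hS, fun i j hij => ?_, fun i hi => ?_, hω⟩
    · have : (ω j : ℝ) ≤ ω i := by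
        rw [hω, hω]
        exact mul_le_mul_of_nonneg_left (hC.cert.anti hij) he'.le
      exact_mod_cast this
    · have : (0 : ℝ) < ω i := by
        rw [hω]
        exact mul_pos he' (hC.cert.pos i hi)
      exact_mod_cast this
  obtain ⟨f', hf', hf⟩ := Sl2K.weak H hC.cert.zero hC.adm
  refine ⟨⟨f', hf'⟩, hf, fun y u du hy hu => ?_⟩
  rcases hU _ _ _ _ _ y w u _ _ n (Sl2K.cert H (f' := ⟨f', hf'⟩) hf hC) (Sl2K.ok H hC.inj hy)
    (by rintro _ rfl; exact hu) with ⟨i, h1, h2⟩ | h1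
  · exact ⟨i, by simpa using h1, by simpa using h2⟩
  · exact (H.x_i₀ (h1 _ hS.lt)).elim

end Vale.Agent.P282Y
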