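import Vale.Agent.P282Y.Sk

/-!
# P282Y: the weak uniqueness theorem for centres
-/

open IsLocalRing P277Z.Hir P277Z.Hir.LA

noncomputable section

namespace Vale.Agent.P282Y

namespace Uq

variable {R : Type} [CommRing R] [Algebra ℂ R] [IsLocalRing R] {Λ : Type}

omit [IsLocalRing R] in
theorem der_mem {F : Set (R × ℝ)} {x y : ℕ → R} {w v : ℕ → ℝ} {i : ℕ} {g : R} {c : ℝ}
    (h : Der' F x w i g c) (hF : ∀ f ∈ F, f.1 ∈ FI y v f.2) (hv : Antitone v) (h0 : ∀ j, 0 ≤ v j)
    (hy : ∀ j < i, y j = x j) (hw : ∀ j ≤ i, v j ≤ w j) : g ∈ FI y v c := by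
  induction h with
  | @base f d h => exact hF (f, d) h
  | succ _ ih => exact ih (fun j hj => hy j (by omega)) fun j hj => hw j (by omega)
  | @step i f d δ c hδ _ ih =>
    have h1 : 0 ≤ w i := (h0 i).trans (hw i le_rfl)
    refine add_mem (FI.der δ h1 (fun j => ?_) (ih hy hw))
      (Ideal.mul_mem_left _ _ (FI.mono (sub_le_self d h1) (ih hy hw)))
    rcases lt_or_ge j i with hj | hj
    · have h2 := hδ j hj
      rw [← hy j hj] at h2
      obtain ⟨a, ha⟩ := Ideal.mem_span_singleton'.1 h2
      rw [← ha]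
      exact Ideal.mul_mem_left _ _ (FI.gen j (sub_le_self _ h1))
    · exact FI.of_nonpos (sub_nonpos.2 ((hv hj).trans (hw i le_rfl))) _

theorem aux {s : Λ → R} {F : Set (R × ℝ)} {x y : ℕ → R} {w v : ℕ → ℝ} {dw dv : ℕ → Option Λ}
    {n : ℕ} (hC : Cert' s F x w dw n) (hJ : Ok s y v dv) (hF : ∀ f ∈ F, f.1 ∈ FI y v f.2)
    (hn : ¬ Lt v dv w dw) : ∀ i ≤ n, ∃ (y' : ℕ → R) (dv' : ℕ → Option Λ), Ok s y' v dv' ∧
      (∀ j, (dv' j).isSome = (dv j).isSome) ∧ (∀ c, FI y' v c = FI y v c) ∧
      ∀ j < i, y' j = x j ∧ v j = w j ∧ (dv j).isSome = (dw j).isSome := by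
  intro i
  induction i with
  | zero => exact fun _ => ⟨y, dv, hJ, fun _ => rfl, fun _ => rfl, fun j hj => by omega⟩
  | succ i ih =>
    intro hi
    obtain ⟨y', dv', hJ', e1, e2, e3⟩ := ih (by omega)
    have hw := hC.pos i hi
    have hn' := fun h => hn ⟨i, fun j hj => (e3 j hj).2, h⟩
    have hv : v i ≤ w i := le_of_not_gt fun h => hn' (Or.inl h)
    obtain ⟨D, g, hg, hD, hu0, hs, hf, hd⟩ := hC.wit i hi fun j hj => (e3 j hj).1 ▸
      hJ'.mem j ((e3 j hj).2.1 ▸ hC.pos j (by omega))
    have hg' : g ∈ FI y' v (w i) := der_mem hg (fun f hf => (e2 _).symm ▸ hF f hf) hJ.anti hJ.nonneg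
      (fun j hj => (e3 j hj).1) fun j hj => hj.eq_or_lt.elim (fun e => e ▸ hv)
        fun h => (e3 j h).2.1.le
    have hu : IsUnit (D g) := hu0 (FI.le_ideal _ hJ'.mem hw hg')
    have key : ∃ j, w i ≤ v j ∧ IsUnit (D (y' j)) ∧ y' j ∈ FI (Function.update y' j (x i)) v (w i) ∧
        x i ∈ FI y' v (w i) ∧ (dv' j).isSome = (dw i).isSome ∧
        (dv' i).isSome = (dw i).isSome ∧ ∀ l, dv' j = some l → x i = s l := by
      have hij : ∀ j, IsUnit (D (y' j)) → i ≤ j := fun j hj => le_of_not_gt fun h => by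
        rw [(e3 j h).1] at hj
        exact (mem_maximalIdeal _).1 (hD j h) hj
      have hl : ∀ j l, w i ≤ v j → IsUnit (D (y' j)) → dv' j = some l → dw i = some l :=
        fun j l h1 h2 h3 => by
        by_contra h4
        have h5 := hJ'.div j l (hw.trans_le h1) h3
        exact (mem_maximalIdeal _).1 (hs l h4 (h5 ▸ hJ'.mem j (hw.trans_le h1))) (h5 ▸ h2)
      rcases hdw : dw i with _ | l
      · have h1 : Ideal.span (x '' {j | j < i}) ≤ FI y' v (w i) := Ideal.span_le.2 (by
          rintro _ ⟨j, hj, rfl⟩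
          rw [← (e3 j hj).1]
          exact FI.gen j ((e3 j hj).2.1 ▸ hC.anti (le_of_lt hj)))
        have hx : x i ∈ FI y' v (w i) := by simpa using sub_mem hg' (h1 (hf hdw))
        have h2 : D (g - x i) ∈ maximalIdeal R := by
          have h3 := hf hdw
          generalize g - x i = a at h3
          induction h3 using Submodule.span_induction with
          | zero => simp
          | add a b _ _ ha hb => rw [map_add]; exact add_mem ha hb
          | smul r a h1' ha =>
            rw [smul_eq_mul, D.leibniz, smul_eq_mul, smul_eq_mul]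
            exact add_mem (Ideal.mul_mem_left _ _ ha)
              (Ideal.mul_mem_right _ _ (FI.le_ideal _ hJ'.mem hw (h1 h1')))
          | mem a ha =>
            obtain ⟨j, hj, rfl⟩ := ha
            exact hD j hj
        have hu' : IsUnit (D (x i)) := by
          by_contra h3
          refine (mem_maximalIdeal _).1 ?_ hu
          simpa using add_mem h2 ((mem_maximalIdeal _).2 h3)
        obtain ⟨j, h3, h4, h5⟩ := FI.exch D hJ'.mem hw hx hu'
        have h6 : dv' j = none := by
          rcases h6 : dv' j with _ | l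
          · rfl
          · have := hl j l h3 h4 h6
            rw [hdw] at this
            cases this
        have h7 := hJ'.sorted i j (hij j h4) (hw.trans_le h3)
          (le_antisymm (hv.trans h3) (hJ.anti (hij j h4))) h6
        exact ⟨j, h3, h4, h5, hx, by rw [h6], by rw [h7], fun l h => by rw [h6] at h; cases h⟩
      · obtain ⟨j, h3, h4, -⟩ := FI.exch D hJ'.mem hw hg' hu
        have h5 : w i = v i := le_antisymm (h3.trans (hJ.anti (hij j h4))) hv
        have h6 : dv' i ≠ none := fun h => hn' (Or.inr ⟨h5, hw, by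
          have := e1 i
          rw [h] at this
          simpa using this.symm, by simp [hdw]⟩)
        obtain ⟨l', h7⟩ := Option.ne_none_iff_exists'.1 fun h => h6 (hJ'.sorted i j (hij j h4)
          (hw.trans_le h3) (le_antisymm (hv.trans h3) (hJ.anti (hij j h4))) h)
        obtain rfl : l = l' := Option.some.inj (hdw.symm.trans (hl j l' h3 h4 h7))
        have h8 : y' j = x i := (hJ'.div j l (hw.trans_le h3) h7).trans (hd l hdw).symm
        refine ⟨j, h3, h4, ?_, h8 ▸ FI.gen j h3, by rw [h7],
          by simpa [Option.isSome_iff_ne_none] using h6, fun l' h => ?_⟩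
        · rw [← h8, Function.update_eq_self]
          exact FI.gen j h3
        · rw [hd l hdw, Option.some.inj (h7.symm.trans h)]
    obtain ⟨j, h1, h2, h3, h4, h5, h6, h7⟩ := key
    have hij : i ≤ j := le_of_not_gt fun h => by
      rw [(e3 j h).1] at h2
      exact (mem_maximalIdeal _).1 (hD j h) h2
    have hvi : v i = w i := le_antisymm hv (h1.trans (hJ.anti hij))
    have hvj : v j = w i := le_antisymm ((hJ.anti hij).trans hv) h1
    let σ := Equiv.swap i j
    have hσ : ∀ m, v (σ m) = v m := fun m => Equiv.apply_swap_eq_self (hvi.trans hvj.symm) m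
    have hσ' : ∀ m, (dv' (σ m)).isSome = (dv' m).isSome := fun m =>
      Equiv.apply_swap_eq_self (v := fun m => (dv' m).isSome) (h6.trans h5.symm) m
    have hno : ∀ m, dv' (σ m) = none ↔ dv' m = none := fun m => by
      rw [← Option.not_isSome_iff_eq_none, ← Option.not_isSome_iff_eq_none, hσ']
    refine ⟨Function.update y' j (x i) ∘ σ, dv' ∘ σ, ⟨hJ.anti, hJ.nonneg, fun m hm => ?_,
      fun m l hm hl => ?_, fun a b hab h0 h8 h9 => ?_⟩, fun m => (hσ' m).trans (e1 m), fun c => ?_,
      fun m hm => ?_⟩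
    · rw [Function.comp_apply, Function.update_apply]
      split_ifs
      · exact FI.le_ideal _ hJ'.mem hw h4
      · exact hJ'.mem _ (by rwa [hσ])
    · rw [Function.comp_apply, Function.update_apply]
      split_ifs with h
      · exact h7 l (h ▸ hl)
      · exact hJ'.div _ l (by rwa [hσ]) hl
    · exact (hno a).2 (hJ'.sorted a b hab h0 h8 ((hno b).1 h9))
    · rw [← e2, ← FI.comp_equiv (y := Function.update y' j (x i) ∘ σ) σ.symm,
        show v ∘ σ.symm = v from funext hσ, Function.comp_assoc, σ.self_comp_symm,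
        Function.comp_id]
      refine le_antisymm (FI.le_of (fun m => ?_) c) (FI.le_of (fun m => ?_) c)
      · rw [Function.update_apply]
        split_ifs with h
        · rwa [h, hvj]
        · exact FI.gen m le_rfl
      · by_cases h : m = j
        · rwa [h, hvj]
        · have := FI.gen (y := Function.update y' j (x i)) (w := v) m le_rfl
          rwa [Function.update_of_ne h] at this
    · rcases (Nat.lt_succ_iff.1 hm).eq_or_lt with rfl | hm
      · exact ⟨by simp [σ], hvi, (e1 m).symm.trans h6⟩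
      · refine ⟨?_, (e3 m hm).2⟩
        rw [Function.comp_apply, Equiv.swap_apply_of_ne_of_ne (by omega) (by omega),
          Function.update_of_ne (by omega), (e3 m hm).1]

end Uq

theorem uq : StUQ := by
  intro R _ _ _ Λ s F x y w u dw du n hC hJ hF
  refine or_iff_not_imp_left.2 fun hn j hj => ?_
  obtain ⟨y', dv', hJ', -, -, e3⟩ := Uq.aux hC hJ hF hn n le_rfl
  exact (e3 j hj).1 ▸ hJ'.mem j ((e3 j hj).2.1 ▸ hC.pos j hj)

end Vale.Agent.P282Y
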