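import Vale.Agent.P282Y.Sk

/-!
# P282Y: the invariant is well founded and rational
-/

open P277Z.Hir

noncomputable section

namespace Vale.Agent.P282Y

namespace Wf

/-- the possible weights at `i` above `t` -/
def Val (w : ℕ → ℝ) (i : ℕ) (t : ℝ) : Set ℝ :=
  {x | t < x ∧ ∃ (k : ℕ) (β : ℕ → ℕ), 0 < k ∧
    (k : ℝ) * x = 1 - ∑ j ∈ Finset.range i, (β j : ℝ) * w j}

theorem val_congr {v w : ℕ → ℝ} {i : ℕ} (h : ∀ j < i, v j = w j) (t : ℝ) :
    Val v i t = Val w i t := by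
  have : ∀ β : ℕ → ℕ, ∑ j ∈ Finset.range i, (β j : ℝ) * v j =
      ∑ j ∈ Finset.range i, (β j : ℝ) * w j := fun β =>
    Finset.sum_congr rfl fun j hj => by rw [h j (Finset.mem_range.1 hj)]
  simp only [Val, this]

theorem fin_num {w : ℕ → ℝ} : ∀ i : ℕ, (∀ j < i, 0 < w j) →
    {c : ℝ | 0 < c ∧ ∃ β : ℕ → ℕ, c = 1 - ∑ j ∈ Finset.range i, (β j : ℝ) * w j}.Finite := by
  intro i
  induction i with
  | zero => exact fun _ => (Set.finite_singleton 1).subset fun c ⟨_, β, h⟩ => by simpa using h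
  | succ i ih =>
    intro hw
    have h1 := ih fun j hj => hw j (by omega)
    have hi := hw i (by omega)
    refine ((h1.prod (Set.finite_Iic ⌈1 / w i⌉₊)).image fun p => p.1 - (p.2 : ℝ) * w i).subset ?_
    rintro c ⟨hc, β, rfl⟩
    rw [Finset.sum_range_succ] at hc ⊢
    have h2 : 0 ≤ ∑ j ∈ Finset.range i, (β j : ℝ) * w j := Finset.sum_nonneg fun j hj =>
      mul_nonneg (Nat.cast_nonneg _) (hw j (by have := Finset.mem_range.1 hj; omega)).le
    have h3 : 0 ≤ (β i : ℝ) * w i := mul_nonneg (Nat.cast_nonneg _) hi.le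
    refine ⟨(1 - ∑ j ∈ Finset.range i, (β j : ℝ) * w j, β i), ⟨⟨by dsimp only; linarith, β, rfl⟩,
      ?_⟩, by dsimp only; ring⟩
    have h4 : (β i : ℝ) ≤ 1 / w i := by rw [le_div_iff₀ hi]; linarith
    exact Nat.cast_le (α := ℝ).1 (h4.trans (Nat.le_ceil _))

theorem fin_val {w : ℕ → ℝ} {i : ℕ} (hw : ∀ j < i, 0 < w j) {t : ℝ} (ht : 0 < t) :
    (Val w i t).Finite := by
  refine (((fin_num i hw).prod (Set.finite_Iic ⌈1 / t⌉₊)).image fun p => p.1 / (p.2 : ℝ)).subset ?_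
  rintro x ⟨hx, k, β, hk, h⟩
  have hk' : (0 : ℝ) < k := Nat.cast_pos.2 hk
  have h2 : 0 ≤ ∑ j ∈ Finset.range i, (β j : ℝ) * w j := Finset.sum_nonneg fun j hj =>
    mul_nonneg (Nat.cast_nonneg _) (hw j (Finset.mem_range.1 hj)).le
  refine ⟨((k : ℝ) * x, k), ⟨⟨mul_pos hk' (ht.trans hx), β, h⟩, ?_⟩, by dsimp only; field_simp⟩
  have h4 : (k : ℝ) ≤ 1 / t := by
    rw [le_div_iff₀ ht]
    nlinarith
  exact Nat.cast_le (α := ℝ).1 (h4.trans (Nat.le_ceil _))

/-- the key of a type -/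
def key (N : ℕ) (w : ℕ → ℝ) (dv : ℕ → Option (Fin N)) (i : Fin N) : ℕ∞ ×ₗ Bool :=
  toLex ((Val w i (w i)).encard, (dv i).isSome)

theorem lt_of_pos {n : ℕ} {w : ℕ → ℝ} (h : Reach n w) {i : ℕ} (hi : 0 < w i) : i < n :=
  lt_of_not_ge fun h' => hi.ne' (h.2 i h')

theorem nonneg {n : ℕ} {w : ℕ → ℝ} (h : Reach n w) (i : ℕ) : 0 ≤ w i :=
  (lt_or_ge i n).elim (fun h' => (h.1 i h').1.le) fun h' => (h.2 i h').ge

end Wf

open Wf

theorem wf : StWF := by
  intro N
  refine Subrelation.wf ?_ (InvImage.wf (fun a => key N a.1.2.1 a.1.2.2)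
    (Pi.Lex.wellFounded (r := (· < ·)) (s := fun _ => (· < ·)) fun _ => wellFounded_lt))
  rintro ⟨⟨n, v, dv⟩, hn, hv⟩ ⟨⟨n', w, dw⟩, hn', hw⟩ ⟨i, h1, h2⟩
  dsimp only at hn hv hn' hw h1 h2
  have hpos : 0 < v i := by
    rcases h2 with h | ⟨h, h', -⟩
    · exact (nonneg hw i).trans_lt h
    · exact h ▸ h'
  have hi : i < n := lt_of_pos hv hpos
  have hc : ∀ t, Val v i t = Val w i t := val_congr fun j hj => (h1 j hj).1
  refine ⟨⟨i, by omega⟩, fun j hj => ?_, ?_⟩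
  · have hj' : (j : ℕ) < i := hj
    simp only [key]
    rw [val_congr (v := v) (w := w) (fun j' h => (h1 j' (h.trans hj')).1), (h1 j hj').1,
      (h1 j hj').2]
  · simp only [key]
    rw [Prod.Lex.toLex_lt_toLex]
    rcases h2 with h | ⟨h, -, h', h''⟩
    · refine Or.inl ?_
      rw [← hc]
      refine (fin_val (fun j hj => (hv.1 j (hj.trans hi)).1) hpos).encard_lt_encard
        ⟨fun x hx => ⟨h.trans hx.1, hx.2⟩, fun hs => ?_⟩
      exact lt_irrefl _ (hs ⟨h, (hv.1 i hi).2⟩).1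
    · refine Or.inr ⟨by rw [hc, h], ?_⟩
      obtain ⟨l, hl⟩ := Option.ne_none_iff_exists'.1 h''
      simp [h', hl]

theorem rat : StRAT := by
  intro n w hw
  have key : ∀ m ≤ n, ∃ (e : ℕ) (ω : ℕ → ℕ), 0 < e ∧ ∀ i < m, (ω i : ℝ) = e * w i := by
    intro m
    induction m with
    | zero => exact fun _ => ⟨1, 0, one_pos, fun i hi => by omega⟩
    | succ m ih =>
      intro hm
      obtain ⟨e, ω, he, h⟩ := ih (by omega)
      obtain ⟨hp, k, β, hk, h1⟩ := hw.1 m hm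
      have h2 : (e : ℝ) * k * w m = ((e - ∑ j ∈ Finset.range m, β j * ω j : ℤ) : ℝ) := by
        rw [mul_assoc, h1, mul_sub, Finset.mul_sum]
        push_cast
        rw [mul_one, sub_right_inj]
        exact Finset.sum_congr rfl fun j hj => by rw [h j (Finset.mem_range.1 hj)]; ring
      have h3 : (0 : ℤ) ≤ e - ∑ j ∈ Finset.range m, β j * ω j := by
        refine Int.cast_nonneg_iff (R := ℝ).1 (h2 ▸ ?_)
        positivity
      obtain ⟨t, ht⟩ := Int.eq_ofNat_of_zero_le h3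
      refine ⟨e * k, fun i => if i = m then t else k * ω i, mul_pos he hk, fun i hi => ?_⟩
      dsimp only
      split_ifs with h4
      · subst h4
        rw [Nat.cast_mul, h2, ht, Int.cast_natCast]
      · rw [Nat.cast_mul, Nat.cast_mul, h i (by omega)]
        ring
  obtain ⟨e, ω, he, h⟩ := key n le_rfl
  refine ⟨e, fun i => if i < n then ω i else 0, he, fun i => ?_⟩
  dsimp only
  split_ifs with hi
  · exact h i hi
  · simp [hw.2 i (not_lt.1 hi)]

end Vale.Agent.P282Y
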