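import Vale.Agent.P282Y.Chev
import Vale.Agent.P282Y.Uq
import Vale.Agent.P282Y.Eul
import Vale.Agent.P282Y.Prime
import Vale.Agent.P282Y.Ex
import Vale.Agent.P282Y.Wf
import Vale.Agent.P282Y.Per
import Vale.Agent.P282Y.Du
import Vale.Agent.P282Y.Grd
import Vale.Agent.P282Y.Hyp
import Vale.Agent.P282Y.Cmp
import Vale.Agent.P282Y.Ord
import Vale.Agent.P282Y.Dict
import Vale.Agent.P282Y.Sl1
import Vale.Agent.P282Y.Sl2
import Vale.Agent.P282Y.Loop
import Vale.Agent.P282Y.Desc
import Vale.Agent.P282Y.Frame
import Vale.Agent.P282Y.Cfr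
import Vale.Agent.P282Y.Mono
import Vale.Agent.P282Y.Lu
import Vale.Agent.P282Y.Chart

/-!
# P282Y: local uniformisation and the dictionary, without hypotheses
-/

namespace Vale.Agent.P282Y

theorem stMONO : StMONO :=
  mono chev ext (loop (ex euler taylor xch) wf rat hom (sl1 hom) (sl2 uq)) (desc per grd hom) frame

theorem stLU : StLU := lu chev hyp du stMONO frame

theorem stCHART : StCHART := chart chev stLU stMONO prime

theorem stCFR : StCFR := cfr chev du frame prime

theorem stDICT : StDICT :=
  dict stCHART (cmp stCFR stCHART) (ord stCFR) (divi chev stCFR (ord stCFR))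
    (divc stCFR stCHART (ord stCFR)) ht1

end Vale.Agent.P282Y
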