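import Vale.Agent.P282Y.ToLoc
import Vale.Agent.P282Y.Chart

/-!
# P282Y: the frame of a chart
-/

open IsLocalRing

noncomputable section

namespace Vale.Agent.P282Y

theorem cfr (hC : StCHEV) (hD : StDU) (hF : StFRAME) (hP : StPRIME) : StCFR := by
  intro R K _ _ _ _ _ _ _ _ _ n r ω H c
  obtain ⟨S, ess, res, above, y, span, J, m, supp, u, form⟩ := c
  obtain ⟨O, h, _, rfl⟩ := toLoc hC S ess res
  obtain ⟨s, hs⟩ := exists_isTranscendenceBasis ℂ K
  obtain ⟨e⟩ := Cardinal.eq.1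
    ((Cardinal.mk_fin n).trans (hs.cardinalMk_eq_trdeg.trans H.trdeg.2).symm)
  obtain ⟨d₀, h₀⟩ := hD K n _ (hs.comp_equiv e)
  obtain ⟨d, hd⟩ := hF K _ O.valuation h n y _ d₀ span h₀ fun l => by
    obtain ⟨a, b, hb, e⟩ := IsFractionRing.div_surjective (A := R) ((Subtype.val ∘ e) l)
    have hb' := IsFractionRing.to_map_ne_zero_of_mem_nonZeroDivisors (K := K) hb
    exact ⟨_, above a, _, above b, hb', by rw [← e, div_mul_cancel₀ _ hb']⟩
  obtain ⟨h1, h2, -⟩ := hP _ n y _ hd.afr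
  exact ⟨⟨d, hd.du, hd.pres⟩, fun i => by simpa using h1 {i},
    fun i j hj => by simpa using h2 {i} j hj⟩

end Vale.Agent.P282Y
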