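import Vale.Agent.P282Y.Sk
import Mathlib.RingTheory.Valuation.LocalSubring

/-!
# P282Y: places with values in the complex numbers
-/

open Polynomial

noncomputable section

namespace Vale.Agent.P282Y

namespace ChevH

variable {Ω : Type} [Field Ω] [Algebra ℂ Ω]

/-- graphs of homomorphisms to the constants -/
def Gr (G : Subalgebra ℂ (Ω × ℂ)) : Prop := ∀ c : ℂ, ((0 : Ω), c) ∈ G → c = 0

theorem exists_max (G₀ : Subalgebra ℂ (Ω × ℂ)) (h₀ : Gr G₀) :
    ∃ G, G₀ ≤ G ∧ Gr G ∧ ∀ G', Gr G' → G ≤ G' → G' ≤ G := by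
  obtain ⟨G, hG, hm⟩ := zorn_le_nonempty₀ {G : Subalgebra ℂ (Ω × ℂ) | Gr G} (fun c hc hch y hy => by
    have : Nonempty c := ⟨⟨y, hy⟩⟩
    have hd : Directed (· ≤ ·) fun i : c => (i : Subalgebra ℂ (Ω × ℂ)) :=
      hch.directedOn.directed_val
    refine ⟨⨆ i : c, (i : Subalgebra ℂ (Ω × ℂ)), fun e he => ?_,
      fun z hz => le_iSup (fun i : c => (i : Subalgebra ℂ (Ω × ℂ))) ⟨z, hz⟩⟩
    have he' : ((0 : Ω), e) ∈ ((⨆ i : c, (i : Subalgebra ℂ (Ω × ℂ)) : Subalgebra ℂ (Ω × ℂ)) :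
        Set (Ω × ℂ)) := he
    rw [Subalgebra.coe_iSup_of_directed hd, Set.mem_iUnion] at he'
    obtain ⟨i, hi⟩ := he'
    exact hc i.2 e hi) G₀ h₀
  exact ⟨G, hG, hm.1, fun G' h1 h2 => hm.2 h1 h2⟩

variable {Γ : Type} [LinearOrderedCommGroupWithZero Γ] {v : Valuation Ω Γ}

theorem aeval_le (hc : ∀ c : ℂ, v (algebraMap ℂ Ω c) ≤ 1) {x : Ω} (hx : v x ≤ 1) (p : ℂ[X]) :
    v (aeval x p) ≤ 1 := by
  induction p using Polynomial.induction_on' with
  | add p q hp hq => rw [map_add]; exact v.map_add_le hp hq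
  | monomial n a =>
    rw [aeval_monomial, map_mul, map_pow]
    exact mul_le_one' (hc a) (pow_le_one' hx n)

theorem exists_val (hc : ∀ c : ℂ, v (algebraMap ℂ Ω c) ≤ 1) {x : Ω} (hx : v x ≤ 1) :
    ∃ c : ℂ, ∀ p : ℂ[X], v (aeval x p) < 1 → p.eval c = 0 := by
  let K : Ideal ℂ[X] :=
    { carrier := {p | v (aeval x p) < 1}
      add_mem' := fun {p q} hp hq => by
        change v (aeval x (p + q)) < 1
        rw [map_add]
        exact v.map_add_lt hp hq
      zero_mem' := by simp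
      smul_mem' := fun q p hp => by
        change v (aeval x (q * p)) < 1
        rw [map_mul, map_mul]
        exact lt_of_le_of_lt (mul_le_of_le_one_left' (aeval_le hc hx q)) hp }
  obtain ⟨g, hg⟩ : ∃ g, K = Ideal.span {g} := ⟨_, (Ideal.span_singleton_generator K).symm⟩
  have hroot : ∃ c : ℂ, g.eval c = 0 := by
    by_cases h0 : g.degree = 0
    · exfalso
      have hu : IsUnit g := isUnit_iff_degree_eq_zero.2 h0
      have h1 : (1 : ℂ[X]) ∈ K := by
        rw [hg, Ideal.span_singleton_eq_top.2 hu]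
        trivial
      have h2 : v (aeval x (1 : ℂ[X])) < 1 := h1
      simp at h2
    · exact IsAlgClosed.exists_root g h0
  obtain ⟨c, hc'⟩ := hroot
  refine ⟨c, fun p hp => ?_⟩
  have h1 : p ∈ Ideal.span {g} := hg ▸ hp
  obtain ⟨q, rfl⟩ := Ideal.mem_span_singleton'.1 h1
  rw [eval_mul, hc', mul_zero]

/-- the graph of the extension -/
def ext (hc : ∀ c : ℂ, v (algebraMap ℂ Ω c) ≤ 1) {x : Ω} (hx : v x ≤ 1) (c : ℂ) :
    Subalgebra ℂ (Ω × ℂ) where
  carrier := {z | ∃ p : ℂ[X], v (z.1 - aeval x p) < 1 ∧ z.2 = p.eval c}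
  mul_mem' := by
    rintro z z' ⟨p, hp, h1⟩ ⟨q, hq, h2⟩
    refine ⟨p * q, ?_, by rw [Prod.snd_mul, h1, h2, eval_mul]⟩
    have h3 : (z * z').1 - aeval x (p * q) = (z.1 - aeval x p) * (z'.1 - aeval x q) +
        ((z.1 - aeval x p) * aeval x q + aeval x p * (z'.1 - aeval x q)) := by
      rw [Prod.fst_mul, map_mul]
      ring
    rw [h3]
    refine v.map_add_lt ?_ (v.map_add_lt ?_ ?_) <;> rw [map_mul]
    · exact lt_of_le_of_lt (mul_le_of_le_one_right' hq.le) hp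
    · exact lt_of_le_of_lt (mul_le_of_le_one_right' (aeval_le hc hx q)) hp
    · exact lt_of_le_of_lt (mul_le_of_le_one_left' (aeval_le hc hx p)) hq
  add_mem' := by
    rintro z z' ⟨p, hp, h1⟩ ⟨q, hq, h2⟩
    refine ⟨p + q, ?_, by rw [Prod.snd_add, h1, h2, eval_add]⟩
    have h3 : (z + z').1 - aeval x (p + q) = (z.1 - aeval x p) + (z'.1 - aeval x q) := by
      rw [Prod.fst_add, map_add]
      ring
    rw [h3]
    exact v.map_add_lt hp hq
  algebraMap_mem' a := ⟨C a, by simp, by simp⟩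

end ChevH

open ChevH in
theorem chev : StCHEV := by
  intro Ω _ _ A I hI hres
  have hc0 : ∀ c : ℂ, algebraMap ℂ A c ∈ I → c = 0 := fun c hc => by
    by_contra h
    exact hI (Ideal.eq_top_of_isUnit_mem I hc ((IsUnit.mk0 c h).map _))
  let G₀ : Subalgebra ℂ (Ω × ℂ) :=
    { carrier := {z | ∃ a : A, (a : Ω) = z.1 ∧ a - algebraMap ℂ A z.2 ∈ I}
      mul_mem' := by
        rintro z z' ⟨a, h1, h2⟩ ⟨b, h3, h4⟩
        refine ⟨a * b, by rw [Prod.fst_mul, ← h1, ← h3]; rfl, ?_⟩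
        have h5 : a * b - algebraMap ℂ A (z * z').2 =
            b * (a - algebraMap ℂ A z.2) + algebraMap ℂ A z.2 * (b - algebraMap ℂ A z'.2) := by
          rw [Prod.snd_mul, map_mul]
          ring
        rw [h5]
        exact I.add_mem (I.mul_mem_left _ h2) (I.mul_mem_left _ h4)
      add_mem' := by
        rintro z z' ⟨a, h1, h2⟩ ⟨b, h3, h4⟩
        refine ⟨a + b, by rw [Prod.fst_add, ← h1, ← h3]; rfl, ?_⟩
        have h5 : a + b - algebraMap ℂ A (z + z').2 =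
            (a - algebraMap ℂ A z.2) + (b - algebraMap ℂ A z'.2) := by
          rw [Prod.snd_add, map_add]
          ring
        rw [h5]
        exact I.add_mem h2 h4
      algebraMap_mem' := fun c => ⟨algebraMap ℂ A c, rfl, by simp⟩ }
  obtain ⟨G, hG₀, hG, hmax⟩ := exists_max G₀ (by
    rintro c ⟨a, h1, h2⟩
    have h3 : a = 0 := Subtype.ext h1
    rw [h3, zero_sub, I.neg_mem_iff] at h2
    exact hc0 c h2)
  let B : Subring Ω := (G.map (AlgHom.fst ℂ Ω ℂ)).toSubring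
  have hB : ∀ {y : Ω}, y ∈ B ↔ ∃ c, (y, c) ∈ G := fun {y} =>
    ⟨fun ⟨z, hz, h⟩ => ⟨z.2, by rw [← h]; exact hz⟩, fun ⟨c, hc⟩ => ⟨(y, c), hc, rfl⟩⟩
  let J : Ideal B :=
    { carrier := {b | ((b : Ω), (0 : ℂ)) ∈ G}
      add_mem' := fun {a b} ha hb => by simpa using G.add_mem ha hb
      zero_mem' := G.zero_mem
      smul_mem' := fun a b hb => by
        obtain ⟨c, hc⟩ := hB.1 a.2
        simpa using G.mul_mem hc hb }
  have hJ : J ≠ ⊤ := by
    intro h
    have h1 : (1 : B) ∈ J := h ▸ Submodule.mem_top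
    have h2 : ((1 : Ω), (0 : ℂ)) ∈ G := h1
    have h3 := G.sub_mem G.one_mem h2
    have h4 : (1 : Ω × ℂ) - (1, 0) = (0, 1) := by ext <;> simp
    rw [h4] at h3
    exact one_ne_zero (hG 1 h3)
  obtain ⟨O, hO, hO'⟩ := Ideal.image_subset_nonunits_valuationSubring J hJ
  have hle : ∀ {y c}, (y, c) ∈ G → O.valuation y ≤ 1 := fun {y c} h =>
    (O.valuation_le_one_iff y).2 (hO (hB.2 ⟨c, h⟩))
  have hc : ∀ c : ℂ, O.valuation (algebraMap ℂ Ω c) ≤ 1 := fun c => hle (G.algebraMap_mem c)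
  have hlt : ∀ {y c}, (y, c) ∈ G → O.valuation (y - algebraMap ℂ Ω c) < 1 := fun {y c} h => by
    have h1 := G.sub_mem h (G.algebraMap_mem c)
    have h2 : (y, c) - algebraMap ℂ (Ω × ℂ) c = (y - algebraMap ℂ Ω c, 0) := by ext <;> simp
    rw [h2] at h1
    exact O.mem_nonunits_iff.1 (hO' ⟨⟨_, hB.2 ⟨0, h1⟩⟩, h1, rfl⟩)
  have hone : ∀ c : ℂ, c ≠ 0 → O.valuation (algebraMap ℂ Ω c) = 1 := fun c h => by
    refine le_antisymm (hc c) ?_
    calc 1 = O.valuation (algebraMap ℂ Ω c) * O.valuation (algebraMap ℂ Ω c⁻¹) := by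
          rw [← map_mul, ← map_mul, mul_inv_cancel₀ h, map_one, map_one]
      _ ≤ _ := mul_le_of_le_one_right' (hc _)
  refine ⟨O, ⟨hone, fun x hx => ?_⟩, fun a => ?_⟩
  · obtain ⟨c, hc'⟩ := exists_val hc hx
    have h1 : ext hc hx c ≤ G := by
      refine hmax _ ?_ ?_
      · rintro e ⟨p, hp, h⟩
        rw [zero_sub, Valuation.map_neg] at hp
        exact h.trans (hc' p hp)
      · intro z hz
        exact ⟨C z.2, by simpa using hlt (y := z.1) (c := z.2) hz, by simp⟩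
    exact ⟨c, hlt (h1 ⟨X, by simp, by simp⟩)⟩
  · obtain ⟨c, hc'⟩ := hres a
    have h1 : ((a : Ω), c) ∈ G := hG₀ ⟨a, rfl, hc'⟩
    refine ⟨hle h1, fun h => ?_, fun h => ?_⟩
    · have h2 : O.valuation (algebraMap ℂ Ω c) < 1 := by
        have h3 := O.valuation.map_sub_lt h (hlt h1)
        rwa [sub_sub_cancel] at h3
      have h4 : c = 0 := by
        by_contra h5
        exact h2.ne (hone c h5)
      simpa [h4] using hc'
    · have h2 : ((a : Ω), (0 : ℂ)) ∈ G := hG₀ ⟨a, rfl, by simpa using h⟩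
      simpa using hlt h2

end Vale.Agent.P282Y
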