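import Vale.Agent.P282Y.Txt
import Vale.Agent.P277Z.Hir.LA

/-!
# P282Y: local uniformisation in characteristic zero, the definitions
-/

open IsLocalRing P277Z.Hir

noncomputable section

namespace Vale.Agent.P282Y

section abstract

variable {R : Type} [CommRing R] [Algebra ℂ R] [IsLocalRing R] {N : ℕ}

/-- a frame of a local ring: parameters and the dual derivations -/
structure AFr (y : Fin N → R) (d : Fin N → Derivation ℂ R R) : Prop where
  span : maximalIdeal R = Ideal.span (Set.range y)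
  dual : ∀ l m, d l (y m) = if l = m then 1 else 0
  res : ∀ a : R, ∃ c : ℂ, a - algebraMap ℂ R c ∈ maximalIdeal R

/-- the equations of the boundary -/
def sB (B : Finset (Fin N)) (y : Fin N → R) (l : Fin N) : R := if l ∈ B then y l else 1

/-- the flags of a centre -/
def dvB (B : Finset (Fin N)) (m : ℕ → Fin N) (j : ℕ) : Option (Fin N) :=
  if m j ∈ B then some (m j) else none

/-- the weights of the centres -/
def Reach (n : ℕ) (w : ℕ → ℝ) : Prop :=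
  (∀ i < n, 0 < w i ∧ ∃ (k : ℕ) (β : ℕ → ℕ), 0 < k ∧
    (k : ℝ) * w i = 1 - ∑ j ∈ Finset.range i, (β j : ℝ) * w j) ∧ ∀ i, n ≤ i → w i = 0

/-- the canonical centre of `f`: coordinates `y (m j)` with weights `w j`, `j < n` -/
structure Cen (B : Finset (Fin N)) (y : Fin N → R) (f : R) (n : ℕ) (m : ℕ → Fin N) (w : ℕ → ℝ) :
    Prop where
  inj : ∀ i < n, ∀ j < n, m i = m j → i = j
  ok : LA.Ok (sB B y) (fun j => y (m j)) w (dvB B m)
  adm : f ∈ LA.FI (fun j => y (m j)) w 1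
  cert : LA.Cert ℂ (sB B y) {(f, 1)} (fun j => y (m j)) w (dvB B m) n
  reach : Reach n w

/-- weak form of `LA.Der` -/
inductive Der' (F : Set (R × ℝ)) (x : ℕ → R) (w : ℕ → ℝ) : ℕ → R → ℝ → Prop
  | base {f d} : (f, d) ∈ F → Der' F x w 0 f d
  | step {i f d} (δ : Derivation ℂ R R) (c : R) : (∀ j < i, δ (x j) ∈ Ideal.span {x j}) →
      Der' F x w i f d → Der' F x w i (δ f + c * f) (d - w i)
  | succ {i f d} : Der' F x w i f d → Der' F x w (i + 1) f d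

/-- weak form of `LA.Cert` -/
structure Cert' {Λ : Type} (s : Λ → R) (F : Set (R × ℝ)) (x : ℕ → R) (w : ℕ → ℝ)
    (dv : ℕ → Option Λ) (n : ℕ) : Prop where
  anti : Antitone w
  pos : ∀ i < n, 0 < w i
  wit : ∀ i < n, (∀ j < i, x j ∈ maximalIdeal R) → ∃ (D : Derivation ℂ R R) (g : R),
    Der' F x w i g (w i) ∧ (∀ j < i, D (x j) ∈ maximalIdeal R) ∧
    (g ∈ maximalIdeal R → IsUnit (D g)) ∧
    (∀ l, dv i ≠ some l → s l ∈ maximalIdeal R → D (s l) ∈ maximalIdeal R) ∧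
    (dv i = none → g - x i ∈ Ideal.span (x '' {j | j < i})) ∧ ∀ l, dv i = some l → x i = s l

end abstract

variable {Ω : Type} [Field Ω] [Algebra ℂ Ω] {Γ : Type} [LinearOrderedCommGroupWithZero Γ] {N : ℕ}

/-- the valuation is trivial on the constants and its residue field is `ℂ` -/
structure Zd (v : Valuation Ω Γ) : Prop where
  const : ∀ c : ℂ, c ≠ 0 → v (algebraMap ℂ Ω c) = 1
  res : ∀ a, v a ≤ 1 → ∃ c : ℂ, v (a - algebraMap ℂ Ω c) < 1

/-- the local ring of the affine model `ℂ[h]` at the center of `v` -/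
def Loc (v : Valuation Ω Γ) (h : Set Ω) : Subalgebra ℂ Ω where
  carrier := {x | ∃ a ∈ Algebra.adjoin ℂ h, ∃ b ∈ Algebra.adjoin ℂ h, v b = 1 ∧ x * b = a}
  mul_mem' := by
    rintro x y ⟨a, ha, b, hb, h1, rfl⟩ ⟨a', ha', b', hb', h1', rfl⟩
    exact ⟨_, mul_mem ha ha', _, mul_mem hb hb', by rw [map_mul, h1, h1', one_mul], by ring⟩
  add_mem' := by
    rintro x y ⟨a, ha, b, hb, h1, rfl⟩ ⟨a', ha', b', hb', h1', rfl⟩
    exact ⟨_, add_mem (mul_mem ha hb') (mul_mem ha' hb), _, mul_mem hb hb',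
      by rw [map_mul, h1, h1', one_mul], by ring⟩
  algebraMap_mem' c := ⟨_, algebraMap_mem _ c, 1, one_mem _, map_one v, mul_one _⟩

/-- an affine model on which `v` has a center -/
class Md (v : Valuation Ω Γ) (h : Set Ω) : Prop where
  zd : Zd v
  fin : h.Finite
  le : ∀ a ∈ h, v a ≤ 1

variable {v : Valuation Ω Γ} {h : Set Ω}

theorem Zd.const_le (hv : Zd v) (c : ℂ) : v (algebraMap ℂ Ω c) ≤ 1 := by
  rcases eq_or_ne c 0 with rfl | hc
  · simp
  · exact (hv.const c hc).le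

theorem adjoin_le_Loc : Algebra.adjoin ℂ h ≤ Loc v h :=
  fun a ha => ⟨a, ha, 1, one_mem _, map_one v, mul_one _⟩

theorem mem_Loc {a : Ω} (ha : a ∈ h) : a ∈ Loc v h := adjoin_le_Loc (Algebra.subset_adjoin ha)

theorem Md.adjoin_le [hm : Md v h] {a : Ω} (ha : a ∈ Algebra.adjoin ℂ h) : v a ≤ 1 := by
  induction ha using Algebra.adjoin_induction with
  | mem a ha => exact hm.le a ha
  | algebraMap c => exact hm.zd.const_le c
  | add a b _ _ ha hb => exact v.map_add_le ha hb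
  | mul a b _ _ ha hb => rw [map_mul]; exact mul_le_one' ha hb

theorem Md.loc_le [Md v h] {a : Ω} (ha : a ∈ Loc v h) : v a ≤ 1 := by
  obtain ⟨a, ha, b, -, h1, rfl⟩ := ha
  simpa [h1] using Md.adjoin_le (v := v) ha

theorem inv_mem_Loc {a : Ω} (ha : a ∈ Loc v h) (h1 : v a = 1) : a⁻¹ ∈ Loc v h := by
  obtain ⟨a', ha, b, hb, h2, rfl⟩ := ha
  have : a ≠ 0 := by rintro rfl; simp at h1
  exact ⟨b, hb, _, ha, by rw [map_mul, h1, h2, one_mul], by field_simp⟩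

theorem isUnit_Loc [Md v h] (a : Loc v h) : IsUnit a ↔ v a = 1 := by
  constructor
  · rintro ⟨u, rfl⟩
    have h1 : v ((u : Loc v h) : Ω) * v ((u⁻¹ : (Loc v h)ˣ) : Loc v h) = 1 := by
      rw [← map_mul, ← MulMemClass.coe_mul, u.mul_inv]; simp
    refine le_antisymm (Md.loc_le u.1.2) ?_
    calc 1 = _ := h1.symm
      _ ≤ _ := mul_le_of_le_one_right' (Md.loc_le (u⁻¹).1.2)
  · intro h1
    have : (a : Ω) ≠ 0 := by intro h0; simp [h0] at h1
    exact IsUnit.of_mul_eq_one ⟨_, inv_mem_Loc a.2 h1⟩ (Subtype.ext (mul_inv_cancel₀ this))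

instance [Md v h] : IsLocalRing (Loc v h) :=
  IsLocalRing.of_isUnit_or_isUnit_one_sub_self fun a => by
    rw [isUnit_Loc, isUnit_Loc]
    rcases (Md.loc_le a.2).eq_or_lt with h1 | h1
    · exact Or.inl h1
    · exact Or.inr (by simpa using v.map_one_sub_of_lt h1)

theorem mem_max_Loc [Md v h] (a : Loc v h) : a ∈ maximalIdeal (Loc v h) ↔ v a < 1 := by
  rw [mem_maximalIdeal, mem_nonunits_iff, isUnit_Loc]
  exact ⟨fun h1 => lt_of_le_of_ne (Md.loc_le a.2) h1, fun h1 => h1.ne⟩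

/-- derivations of the field dual to `y`; `y` is a differential basis -/
structure Du (y : Fin N → Ω) (d : Fin N → Derivation ℂ Ω Ω) : Prop where
  dual : ∀ l m, d l (y m) = if l = m then 1 else 0
  ext : ∀ D : Derivation ℂ Ω Ω, (∀ l, D (y l) = 0) → D = 0

variable (v h) in
/-- a frame of `Loc v h` -/
structure Fr [Md v h] (y : Fin N → Loc v h) (d : Fin N → Derivation ℂ Ω Ω) : Prop where
  span : maximalIdeal (Loc v h) = Ideal.span (Set.range y)
  du : Du (fun l => (y l : Ω)) d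
  pres : ∀ l, ∀ a ∈ Loc v h, d l a ∈ Loc v h

variable (v h) in
/-- unit of `Loc v h` times a monomial with exponents `α` -/
def UM (y : Fin N → Loc v h) (α : Fin N → ℤ) (a : Ω) : Prop :=
  ∃ u ∈ Loc v h, v u = 1 ∧ a = u * ∏ l, (y l : Ω) ^ α l

/-- homogeneous elements -/
def Hm (G : Subgroup (Ω ≃ₐ[ℂ] Ω)) (a : Ω) : Prop :=
  ∃ k : ℕ, 0 < k ∧ ∀ σ ∈ G, ∃ c : ℂ, c ^ k = 1 ∧ σ a = algebraMap ℂ Ω c * a

/-- invariant elements -/
def Fix (G : Subgroup (Ω ≃ₐ[ℂ] Ω)) (a : Ω) : Prop := ∀ σ ∈ G, σ a = a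

section hm

variable {G : Subgroup (Ω ≃ₐ[ℂ] Ω)} {a b : Ω}

theorem Fix.hm (ha : Fix G a) : Hm G a := ⟨1, one_pos, fun σ hσ => ⟨1, by simp, by simp [ha σ hσ]⟩⟩

theorem Fix.const (c : ℂ) : Fix G (algebraMap ℂ Ω c) := fun σ _ => σ.commutes c

theorem Fix.mul (ha : Fix G a) (hb : Fix G b) : Fix G (a * b) := fun σ hσ => by
  rw [map_mul, ha σ hσ, hb σ hσ]

theorem Fix.add (ha : Fix G a) (hb : Fix G b) : Fix G (a + b) := fun σ hσ => by
  rw [map_add, ha σ hσ, hb σ hσ]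

theorem Fix.sub (ha : Fix G a) (hb : Fix G b) : Fix G (a - b) := fun σ hσ => by
  rw [map_sub, ha σ hσ, hb σ hσ]

theorem Fix.zpow (ha : Fix G a) (k : ℤ) : Fix G (a ^ k) := fun σ hσ => by
  rw [map_zpow₀, ha σ hσ]

theorem Fix.inv (ha : Fix G a) : Fix G a⁻¹ := fun σ hσ => by rw [map_inv₀, ha σ hσ]

theorem Fix.prod {ι : Type*} {s : Finset ι} {f : ι → Ω} (hf : ∀ i ∈ s, Fix G (f i)) :
    Fix G (∏ i ∈ s, f i) := fun σ hσ => by
  rw [map_prod]
  exact Finset.prod_congr rfl fun i hi => hf i hi σ hσ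

theorem Hm.mul (ha : Hm G a) (hb : Hm G b) : Hm G (a * b) := by
  obtain ⟨k, hk, ha⟩ := ha
  obtain ⟨k', hk', hb⟩ := hb
  refine ⟨k * k', mul_pos hk hk', fun σ hσ => ?_⟩
  obtain ⟨c, hc, ha⟩ := ha σ hσ
  obtain ⟨c', hc', hb⟩ := hb σ hσ
  refine ⟨c * c', ?_, by rw [map_mul, ha, hb, map_mul]; ring⟩
  rw [mul_pow, pow_mul, hc, mul_comm k, pow_mul, hc']
  simp

theorem Hm.zpow (ha : Hm G a) (j : ℤ) : Hm G (a ^ j) := by
  obtain ⟨k, hk, ha⟩ := ha
  refine ⟨k, hk, fun σ hσ => ?_⟩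
  obtain ⟨c, hc, ha⟩ := ha σ hσ
  refine ⟨c ^ j, ?_, by rw [map_zpow₀, ha, mul_zpow, map_zpow₀]⟩
  rw [← zpow_natCast, ← zpow_mul, mul_comm, zpow_mul, zpow_natCast, hc, one_zpow]

theorem Hm.pow (ha : Hm G a) (j : ℕ) : Hm G (a ^ j) := by simpa using ha.zpow j

theorem Hm.inv (ha : Hm G a) : Hm G a⁻¹ := by simpa using ha.zpow (-1)

theorem Hm.div (ha : Hm G a) (hb : Hm G b) : Hm G (a / b) := by
  rw [div_eq_mul_inv]
  exact ha.mul hb.inv

theorem Hm.prod {ι : Type*} {s : Finset ι} {f : ι → Ω} (hf : ∀ i ∈ s, Hm G (f i)) :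
    Hm G (∏ i ∈ s, f i) :=
  Finset.prod_induction f (Hm G) (fun _ _ => Hm.mul) (Fix.hm fun σ _ => map_one σ) hf

theorem Hm.fix_pow (ha : Hm G a) : ∃ k : ℕ, 0 < k ∧ Fix G (a ^ k) := by
  obtain ⟨k, hk, ha⟩ := ha
  refine ⟨k, hk, fun σ hσ => ?_⟩
  obtain ⟨c, hc, ha⟩ := ha σ hσ
  rw [map_pow, ha, mul_pow, ← map_pow, hc, map_one, one_mul]

end hm

variable (v) in
/-- the states of the algorithm -/
structure St (G : Subgroup (Ω ≃ₐ[ℂ] Ω)) (N : ℕ) where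
  h : Set Ω
  [md : Md v h]
  y : Fin N → Loc v h
  d : Fin N → Derivation ℂ Ω Ω
  B : Finset (Fin N)
  fr : Fr v h y d
  hh : ∀ a ∈ h, Hm G a
  hy : ∀ l, Hm G (y l)

attribute [instance] St.md

namespace St

variable {G : Subgroup (Ω ≃ₐ[ℂ] Ω)}

/-- unit times a monomial in the flagged coordinates -/
def Mon (S : St v G N) (a : Ω) : Prop :=
  ∃ α : Fin N → ℕ, (∀ l, l ∉ S.B → α l = 0) ∧ UM v S.h S.y (fun l => α l) a

/-- `T` is a modification of `S` -/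
structure Le (S T : St v G N) : Prop where
  loc : Loc v S.h ≤ Loc v T.h
  mon : ∀ a, S.Mon a → T.Mon a
  jac : T.Mon (jac T.d fun l => (S.y l : Ω))

/-- `T` is the slice `z ^ ω i₀ = x i₀` of the weighted blow up of `S` with the centre
`x i = y (m i)` of weights `ω i`, `i < n` -/
structure Slc (S : St v G N) (n : ℕ) (m : ℕ → Fin N) (ω : ℕ → ℕ) (i₀ : ℕ) (z : Ω)
    (T : St v G N) : Prop where
  lt : i₀ < n
  root : z ^ ω i₀ = S.y (m i₀)
  gen : T.h = S.h ∪ {z} ∪ {a | ∃ i < n, a = S.y (m i) / z ^ ω i}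
  flag : ∀ l ∈ T.B, (l = m i₀ ∧ (T.y l : Ω) = z) ∨ (l ≠ m i₀ ∧ l ∈ S.B ∧
    ((∃ i < n, l = m i ∧ (T.y l : Ω) = S.y l / z ^ ω i) ∨
      ((∀ i < n, l ≠ m i) ∧ (T.y l : Ω) = S.y l)))
  hz : Hm G z
  monz : T.Mon z
  le : S.Le T

end St

end Vale.Agent.P282Y
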