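import Vale.Agent.P282Y.Sk

/-!
# P282Y, row EX: the levels of the construction of the canonical centre
-/

open IsLocalRing P277Z.Hir

noncomputable section

namespace Vale.Agent.P282Y.Ex

variable {R : Type} [CommRing R] [Algebra ℂ R] {N : ℕ}

/-- the iterated derivative along a list of positions -/
def dL (d : Fin N → Derivation ℂ R R) (L : List (Fin N)) (g : R) : R :=
  L.foldr (fun l a => d l a) g

/-- the ideal of the used coordinates -/
def Id (y : Fin N → R) (m : ℕ → Fin N) (i : ℕ) : Ideal R := Ideal.span (y '' (m '' Set.Iio i))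

/-- unused positions -/
def Un (m : ℕ → Fin N) (i : ℕ) (l : Fin N) : Prop := ∀ j < i, m j ≠ l

section basic

variable {d : Fin N → Derivation ℂ R R} {L : List (Fin N)} {g : R}

theorem dL_cons (l : Fin N) : dL d (l :: L) g = d l (dL d L g) := rfl

theorem dL_append (M : List (Fin N)) : dL d (L ++ M) g = dL d L (dL d M g) := List.foldr_append

theorem dL_rep (l : Fin N) (t : ℕ) : dL d (List.replicate t l) g = (d l)^[t] g := by
  induction t with
  | zero => rfl
  | succ t ih => rw [List.replicate_succ, dL_cons, ih, Function.iterate_succ_apply']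

theorem der_span (D : Derivation ℂ R R) {s : Set R} (hs : ∀ a ∈ s, D a = 0) {a : R}
    (ha : a ∈ Ideal.span s) : D a ∈ Ideal.span s := by
  induction ha using Submodule.span_induction with
  | zero => simp
  | add a b _ _ ha hb => rw [map_add]; exact add_mem ha hb
  | smul r a h1 ha =>
    rw [smul_eq_mul, D.leibniz, smul_eq_mul, smul_eq_mul]
    exact add_mem (Ideal.mul_mem_left _ _ ha) (Ideal.mul_mem_right _ _ h1)
  | mem a ha => rw [hs a ha]; exact zero_mem _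

theorem der_pow (D : Derivation ℂ R R) (M : Ideal R) (k : ℕ) :
    ∀ a ∈ M ^ (k + 1), D a ∈ M ^ k := by
  induction k with
  | zero => intro a _; simp
  | succ k ih =>
    intro a ha
    rw [pow_succ] at ha
    refine Submodule.mul_induction_on ha (fun a ha b hb => ?_) fun a b ha hb => ?_
    · rw [D.leibniz, smul_eq_mul, smul_eq_mul]
      refine add_mem (Ideal.mul_mem_right _ _ ha) ?_
      rw [pow_succ']
      exact Ideal.mul_mem_mul hb (ih a ha)
    · rw [map_add]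
      exact add_mem ha hb

theorem dL_ord {I M : Ideal R} (hL : ∀ l ∈ L, ∀ a ∈ I, d l a ∈ I) :
    ∀ k, g ∈ I ⊔ M ^ (k + L.length) → dL d L g ∈ I ⊔ M ^ k := by
  induction L with
  | nil => exact fun k h => h
  | cons l L ih =>
    intro k h
    rw [List.length_cons, ← add_assoc, add_right_comm] at h
    obtain ⟨a, ha, b, hb, e⟩ := Submodule.mem_sup.1
      (ih (fun l' h' => hL l' (List.mem_cons_of_mem _ h')) _ h)
    rw [dL_cons, ← e, map_add]
    exact add_mem (Ideal.mem_sup_left (hL l List.mem_cons_self a ha))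
      (Ideal.mem_sup_right (der_pow _ M k b hb))

theorem dL_der {F : Set (R × ℝ)} {x : ℕ → R} {w : ℕ → ℝ} {i : ℕ} {c : ℝ}
    (hL : ∀ l ∈ L, ∀ j < i, d l (x j) = 0) (h : LA.Der ℂ F x w i g c) :
    LA.Der ℂ F x w i (dL d L g) (c - L.length * w i) := by
  induction L with
  | nil => simpa [dL] using h
  | cons l L ih =>
    have := LA.Der.step (d l) (hL l List.mem_cons_self)
      (ih fun l' h' => hL l' (List.mem_cons_of_mem _ h'))
    rwa [show c - L.length * w i - w i = c - (l :: L).length * w i by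
      rw [List.length_cons]; push_cast; ring] at this

theorem dL_P {P : R → Prop} (hP : ∀ l a, P a → P (d l a)) (h : P g) : P (dL d L g) := by
  induction L with
  | nil => exact h
  | cons l L ih => exact hP _ _ ih

theorem Id_congr {y y' : Fin N → R} {m : ℕ → Fin N} {i : ℕ} (h : ∀ j < i, y' (m j) = y (m j)) :
    Id y' m i = Id y m i := by
  unfold Id
  rw [Set.image_congr (g := y)]
  rintro _ ⟨j, hj, rfl⟩
  exact h j hj

theorem Id_succ {y : Fin N → R} {m m' : ℕ → Fin N} {i : ℕ} (h : ∀ j < i, m' j = m j) :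
    Id y m' (i + 1) = Id y m i ⊔ Ideal.span {y (m' i)} := by
  unfold Id
  rw [← Ideal.span_union, ← Set.image_singleton, ← Set.image_union, ← Set.image_singleton,
    ← Set.image_congr (f := m') (g := m) (s := Set.Iio i) h, ← Set.image_union]
  congr 3
  ext j
  simp only [Set.mem_Iio, Set.union_singleton, Set.mem_insert_iff]
  omega

end basic

variable [IsLocalRing R]

theorem kill {y : Fin N → R} {d : Fin N → Derivation ℂ R R} (h : AFr y d) {l l' : Fin N}
    (hl : l' ≠ l) : d l (y l') = 0 := by rw [h.dual, if_neg hl.symm]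

theorem mem_max {y : Fin N → R} {d : Fin N → Derivation ℂ R R} (h : AFr y d) (l : Fin N) :
    y l ∈ maximalIdeal R := h.span ▸ Ideal.subset_span ⟨l, rfl⟩

theorem Id_le {y : Fin N → R} {d : Fin N → Derivation ℂ R R} (h : AFr y d) (m : ℕ → Fin N)
    (i : ℕ) : Id y m i ≤ maximalIdeal R :=
  Ideal.span_le.2 (by rintro _ ⟨l, -, rfl⟩; exact mem_max h l)

theorem der_Id {y : Fin N → R} {d : Fin N → Derivation ℂ R R} (h : AFr y d) {m : ℕ → Fin N}
    {i : ℕ} {l : Fin N} (hl : Un m i l) : ∀ a ∈ Id y m i, d l a ∈ Id y m i := fun _ ha =>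
  der_span _ (by rintro _ ⟨_, ⟨j, hj, rfl⟩, rfl⟩; exact kill h (hl j hj)) ha

/-- the order of an element modulo an ideal -/
theorem exists_ord [IsNoetherianRing R] (I : Ideal R) {g : R} (hg : g ∉ I) :
    ∃ k, g ∈ I ⊔ maximalIdeal R ^ k ∧ g ∉ I ⊔ maximalIdeal R ^ (k + 1) := by
  by_contra h
  push Not at h
  have h1 : ∀ k, g ∈ I ⊔ maximalIdeal R ^ k := fun k => by
    induction k with
    | zero => simp
    | succ k ih => exact h k ih
  have h2 := Ideal.iInf_pow_smul_eq_bot_of_isLocalRing (M := R ⧸ I) (maximalIdeal R)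
    (maximalIdeal.isMaximal R).ne_top
  have h3 : Ideal.Quotient.mk I g ∈
      (⨅ k : ℕ, maximalIdeal R ^ k • ⊤ : Submodule R (R ⧸ I)) := by
    refine (Submodule.mem_iInf _).2 fun k => ?_
    obtain ⟨a, ha, b, hb, e⟩ := Submodule.mem_sup.1 (h1 k)
    have : Ideal.Quotient.mk I g = b • (1 : R ⧸ I) := by
      rw [← e, map_add, Ideal.Quotient.eq_zero_iff_mem.2 ha, zero_add, Algebra.smul_def, mul_one]
      rfl
    rw [this]
    exact Submodule.smul_mem_smul hb Submodule.mem_top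
  rw [h2, Submodule.mem_bot, Ideal.Quotient.eq_zero_iff_mem] at h3
  exact hg h3

/-- the next weight -/
theorem exists_wt [IsNoetherianRing R] (I : Ideal R) {G : Set (R × ℝ)} (hG : G.Finite)
    (h0 : ∀ p ∈ G, 0 < p.2 ∧ p.1 ∈ maximalIdeal R) (h1 : ∃ p ∈ G, p.1 ∉ I) :
    ∃ W : ℝ, 0 < W ∧ (∀ p ∈ G, ∃ k : ℕ, p.2 ≤ k * W ∧ p.1 ∈ I ⊔ maximalIdeal R ^ k) ∧
      ∃ p ∈ G, ∃ k : ℕ, (k + 1) * W = p.2 ∧ p.1 ∈ I ⊔ maximalIdeal R ^ (k + 1) ∧
        p.1 ∉ I ⊔ maximalIdeal R ^ (k + 1 + 1) := by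
  have h2 : ∀ p : R × ℝ, ∃ k : ℕ, p ∈ G → p.1 ∉ I → p.1 ∈ I ⊔ maximalIdeal R ^ (k + 1) ∧
      p.1 ∉ I ⊔ maximalIdeal R ^ (k + 1 + 1) := fun p => by
    by_cases hp : p ∈ G ∧ p.1 ∉ I
    · obtain ⟨k, h3, h4⟩ := exists_ord I hp.2
      rcases k with _ | k
      · exact absurd (Ideal.mem_sup_right (by simpa using (h0 p hp.1).2)) h4
      · exact ⟨k, fun _ _ => ⟨h3, h4⟩⟩
    · exact ⟨0, fun h3 h4 => absurd ⟨h3, h4⟩ hp⟩
  choose o ho using h2
  obtain ⟨p, hp, hmax⟩ := Set.exists_max_image {p ∈ G | p.1 ∉ I} (fun p => p.2 / (o p + 1))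
    (hG.subset fun _ h => h.1) h1
  have hW : 0 < p.2 / (o p + 1) := div_pos (h0 p hp.1).1 (by positivity)
  refine ⟨_, hW, fun q hq => ?_, p, hp.1, o p, mul_div_cancel₀ _ (by positivity), ho p hp.1 hp.2⟩
  by_cases h3 : q.1 ∈ I
  · obtain ⟨k, hk⟩ := exists_nat_ge (q.2 / (p.2 / (o p + 1)))
    exact ⟨k, (div_le_iff₀ hW).1 hk, Ideal.mem_sup_left h3⟩
  · refine ⟨o q + 1, ?_, (ho q hq h3).1⟩
    have := hmax q ⟨hq, h3⟩
    rw [div_le_iff₀ (by positivity)] at this
    push_cast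
    linarith

omit [IsLocalRing R] [Algebra ℂ R] [CommRing R] in
/-- extensions of the data below the level `i` -/
structure Ext (B : Finset (Fin N)) (i : ℕ) (y : Fin N → R) (m : ℕ → Fin N) (w : ℕ → ℝ)
    (y' : Fin N → R) (m' : ℕ → Fin N) (w' : ℕ → ℝ) : Prop where
  hm : ∀ j < i, m' j = m j
  hw : ∀ j < i, w' j = w j
  hy : ∀ j < i, y' (m j) = y (m j)
  hB : ∀ l ∈ B, y' l = y l

omit [IsLocalRing R] [Algebra ℂ R] [CommRing R] in
theorem Ext.trans {B : Finset (Fin N)} {i : ℕ} {y y' y'' : Fin N → R} {m m' m'' : ℕ → Fin N}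
    {w w' w'' : ℕ → ℝ} (h : Ext B i y m w y' m' w') (h' : Ext B (i + 1) y' m' w' y'' m'' w'') :
    Ext B i y m w y'' m'' w'' where
  hm j hj := (h'.hm j (by omega)).trans (h.hm j hj)
  hw j hj := (h'.hw j (by omega)).trans (h.hw j hj)
  hy j hj := by rw [← h.hy j hj, ← h.hm j hj, h'.hy j (by omega)]
  hB l hl := (h'.hB l hl).trans (h.hB l hl)

/-- the witness of a certificate at the level `i` -/
def Wit (B : Finset (Fin N)) (f : R) (y : Fin N → R) (m : ℕ → Fin N) (w : ℕ → ℝ) (i : ℕ) : Prop :=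
  ∃ (D : Derivation ℂ R R) (g : R), LA.Der ℂ {(f, 1)} (fun j => y (m j)) w i g (w i) ∧
    (∀ j < i, D (y (m j)) = 0) ∧ IsUnit (D g) ∧ (∀ l ∈ B, l ≠ m i → D (y l) = 0) ∧
    (m i ∉ B → g = y (m i))

/-- all the candidates of weight `V` are divisorial -/
def NF (B : Finset (Fin N)) (d : Fin N → Derivation ℂ R R) (m : ℕ → Fin N) (i : ℕ)
    (G : Set (R × ℝ)) (V : ℝ) : Prop :=
  ∀ p ∈ G, ∀ (L : List (Fin N)) (l : Fin N), (∀ l' ∈ L, Un m i l') → Un m i l →
    (L.length + 1) * V = p.2 → IsUnit (d l (dL d L p.1)) → l ∈ B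

/-- the state of the construction at the level `i` -/
structure Lvl (P : R → Prop) (B : Finset (Fin N)) (y₀ : Fin N → R) (f : R) (i : ℕ)
    (y : Fin N → R) (d : Fin N → Derivation ℂ R R) (m : ℕ → Fin N) (w : ℕ → ℝ)
    (G : Set (R × ℝ)) : Prop where
  fr : AFr y d
  py : ∀ l, P (y l)
  eqB : ∀ l ∈ B, y l = y₀ l
  inj : ∀ a < i, ∀ b < i, m a = m b → a = b
  anti : Antitone w
  reach : Reach i w
  sorted : ∀ a b, a ≤ b → b < i → w a = w b → m a ∈ B → m b ∈ B
  fin : G.Finite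
  el : ∀ p ∈ G, 0 < p.2 ∧ p.1 ∈ maximalIdeal R
  pg : ∀ p ∈ G, P p.1
  mark : ∀ p ∈ G, ∃ β : ℕ → ℕ, p.2 = 1 - ∑ j ∈ Finset.range i, (β j : ℝ) * w j
  ord : ∀ p ∈ G, ∀ j < i, ∃ k : ℕ, p.2 ≤ k * w j ∧ p.1 ∈ Id y m i ⊔ maximalIdeal R ^ k
  nf : ∀ j < i, m j ∈ B → (∀ j' < i, w j ≤ w j') → NF B d m i G (w j)
  der : ∀ y' m' w', Ext B i y m w y' m' w' → ∀ p ∈ G,
    LA.Der ℂ {(f, 1)} (fun j => y' (m' j)) w' i p.1 p.2
  back : ∀ y' m' w', Ext B i y m w y' m' w' → Antitone w' →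
    (∀ p ∈ G, p.1 ∈ Id y m i ⊔ LA.FI (fun j => y' (m' j)) w' p.2) →
    f ∈ LA.FI (fun j => y' (m' j)) w' 1
  wit : ∀ y' m' w', Ext B i y m w y' m' w' → ∀ j < i, Wit B f y' m' w' j

variable {P : R → Prop} {B : Finset (Fin N)} {y₀ y : Fin N → R} {f : R} {i : ℕ}
  {d : Fin N → Derivation ℂ R R} {m : ℕ → Fin N} {w : ℕ → ℝ} {G : Set (R × ℝ)}

theorem Lvl.zero (h : AFr y d) (hy : ∀ l, P (y l)) (hf : P f) (hm : f ∈ maximalIdeal R)
    (m : ℕ → Fin N) : Lvl P B y f 0 y d m 0 {(f, 1)} where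
  fr := h
  py := hy
  eqB _ _ := rfl
  inj a ha := by omega
  anti := antitone_const
  reach := ⟨fun i hi => by omega, fun _ _ => rfl⟩
  sorted a b _ hb := by omega
  fin := Set.finite_singleton _
  el := by rintro _ rfl; exact ⟨one_pos, hm⟩
  pg := by rintro _ rfl; exact hf
  mark := by rintro _ rfl; exact ⟨0, by simp⟩
  ord _ _ j hj := by omega
  nf j hj := by omega
  der _ _ _ _ := by rintro _ rfl; exact LA.Der.base rfl
  back _ _ _ _ _ h1 := by simpa [Id] using h1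
  wit _ _ _ _ j hj := by omega

theorem Lvl.le (h : Lvl P B y₀ f i y d m w G) : i ≤ N := by
  simpa using Fintype.card_le_of_injective (fun j : Fin i => m j)
    fun a b e => Fin.ext (h.inj a a.2 b b.2 e)

/-- the last level -/
theorem Lvl.stop (h : Lvl P B y₀ f i y d m w G) (hG : ∀ p ∈ G, p.1 ∈ Id y m i) :
    Cen B y f i m w := by
  have hE : Ext B i y m w y m w := ⟨fun _ _ => rfl, fun _ _ => rfl, fun _ _ => rfl, fun _ _ => rfl⟩
  have hlt : ∀ j, 0 < w j → j < i := fun j hj => lt_of_not_ge fun h1 => hj.ne' (h.reach.2 j h1)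
  have hdv : ∀ j l, dvB B m j = some l → y (m j) = sB B y l := fun j l e => by
    unfold dvB at e
    split_ifs at e with h1
    obtain rfl := Option.some.inj e
    rw [sB, if_pos h1]
  have hno : ∀ j, dvB B m j = none ↔ m j ∉ B := fun j => by simp [dvB]
  refine ⟨h.inj, ⟨h.anti, fun j => ?_, fun j _ => mem_max h.fr _, fun j l _ => hdv j l,
    fun a b hab hb e h1 => ?_⟩, h.back _ _ _ hE h.anti fun p hp => Ideal.mem_sup_left (hG p hp),
    ⟨h.anti, fun j hj => (h.reach.1 j hj).1, h.reach.2, fun j hj _ => ?_⟩, h.reach⟩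
  · rcases lt_or_ge j i with h1 | h1
    · exact (h.reach.1 j h1).1.le
    · exact (h.reach.2 j h1).ge
  · rw [hno] at h1 ⊢
    exact fun h2 => h1 (h.sorted a b hab (hlt b hb) e h2)
  · obtain ⟨D, g, h1, h2, h3, h4, h5⟩ := h.wit _ _ _ hE j hj
    refine ⟨D, g, h1, h2, h3, fun l h6 h7 => ?_, fun h6 => ?_, hdv j⟩
    · unfold sB at h7 ⊢
      split_ifs at h7 ⊢ with h8
      · rw [h4 l h8 (by rintro rfl; exact h6 (if_pos h8))]
        exact zero_mem _
      · simp
    · rw [h5 ((hno j).1 h6), sub_self]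
      exact zero_mem _

end Vale.Agent.P282Y.Ex
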