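import Vale.Agent.P282Y.Sk

/-!
# P282Y: the prime divisors of `X` are divisors over `X`
-/

open scoped NNReal
open IsLocalRing Vale.Agent.P282.Gap

namespace Vale.Agent.P282Y

theorem ht1_dvr {R : Type} [CommRing R] [IsDomain R] [IsNoetherianRing R] [IsIntegrallyClosed R]
    (Q : Ideal R) [Q.IsPrime] (hQ : Q.height = 1) :
    IsDiscreteValuationRing (Localization.AtPrime Q) := by
  have _ : IsIntegrallyClosed (Localization.AtPrime Q) :=
    isIntegrallyClosed_of_isLocalization _ Q.primeCompl Q.primeCompl_le_nonZeroDivisors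
  have h1 : ringKrullDim (Localization.AtPrime Q) = 1 := by
    rw [IsLocalization.AtPrime.ringKrullDim_eq_height Q, hQ]; rfl
  have h2 := ringKrullDim_eq_one_iff_of_isLocalRing_isDomain.mp h1
  have h3 : IsIntegrallyClosed (Localization.AtPrime Q) ∧
      ∃! P : Ideal (Localization.AtPrime Q), P ≠ ⊥ ∧ P.IsPrime := by
    refine ⟨inferInstance, maximalIdeal _, ⟨?_, inferInstance⟩, ?_⟩
    · intro h
      exact h2.1 (IsLocalRing.isField_iff_maximalIdeal_eq.mpr h)
    · rintro P ⟨hP, hPp⟩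
      refine le_antisymm (IsLocalRing.le_maximalIdeal hPp.ne_top) ?_
      obtain ⟨x, hxP, hx0⟩ := Submodule.exists_mem_ne_zero_of_ne_bot hP
      exact (h2.2 x hx0).trans ((Ideal.IsRadical.radical_le_iff hPp.isRadical).mpr
        ((Ideal.span_singleton_le_iff_mem P).mpr hxP))
  exact ((IsDiscreteValuationRing.TFAE _ h2.1).out 0 3).mpr h3

theorem ht1_cond {R : Type} [CommRing R] [IsDomain R] [IsNoetherianRing R] [IsIntegrallyClosed R]
    (Q : Ideal R) [Q.IsPrime] (hQ : Q.height = 1) (p q : R) :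
    ∃ r s : R, s ∉ Q ∧ (p * r = q * s ∨ q * r = p * s) := by
  have _ := ht1_dvr Q hQ
  have hi : Function.Injective (algebraMap R (Localization.AtPrime Q)) :=
    IsLocalization.injective _ Q.primeCompl_le_nonZeroDivisors
  obtain ⟨c, hc⟩ := ValuationRing.cond (algebraMap R (Localization.AtPrime Q) p) (algebraMap R _ q)
  obtain ⟨⟨r, s⟩, e⟩ := IsLocalization.surj Q.primeCompl c
  refine ⟨r, s, s.2, hc.imp (fun h => hi ?_) fun h => hi ?_⟩ <;>
    rw [map_mul, map_mul, ← h, ← e, mul_assoc]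

theorem ht1 : StHT1 := by
  intro R K _ _ _ _ _ _ _ _ _ n r ω hk w P hc hP hn
  have _ := hk.essFiniteType
  have _ := hk.normal
  have _ : IsNoetherianRing R := Algebra.EssFiniteType.isNoetherianRing ℂ R
  have hone : ∀ f : R, f ∉ P → w (algebraMap R K f) = 1 := fun f hf =>
    le_antisymm (hc f).1 (not_lt.1 fun h => hf ((hc f).2.1 h))
  have _ : P.IsPrime := by
    refine ⟨fun h => ?_, fun {a b} hab => ?_⟩
    · simpa using (hc 1).2.2 (h ▸ Submodule.mem_top)
    · by_contra h
      rw [not_or] at h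
      have := (hc _).2.2 hab
      rw [map_mul, map_mul, hone a h.1, hone b h.2, one_mul] at this
      exact lt_irrefl _ this
  have hu : ∀ t : R, IsUnit t → w (algebraMap R K t) = 1 := fun t ht =>
    hone t fun h => Ideal.IsPrime.ne_top ‹_› (P.eq_top_of_isUnit_mem h ht)
  have key : ∀ x : K, w x ≤ 1 → ∃ a b : R, w (algebraMap R K b) = 1 ∧
      x * algebraMap R K b = algebraMap R K a := by
    intro x hx
    obtain ⟨p, q, hq, rfl⟩ := IsFractionRing.div_surjective (A := R) x
    have hq0 : algebraMap R K q ≠ 0 := IsFractionRing.to_map_ne_zero_of_mem_nonZeroDivisors hq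
    obtain ⟨a, s, hs, h | h⟩ := ht1_cond P hP p q
    · have e : algebraMap R K p / algebraMap R K q * algebraMap R K a = algebraMap R K s := by
        rw [div_mul_eq_mul_div, ← map_mul, h, map_mul, mul_div_cancel_left₀ _ hq0]
      refine ⟨s, a, le_antisymm (hc a).1 ?_, e⟩
      calc 1 = w (algebraMap R K p / algebraMap R K q) * w (algebraMap R K a) := by
            rw [← map_mul, e, hone s hs]
        _ ≤ _ := mul_le_of_le_one_left' hx
    · exact ⟨a, s, hone s hs, by
        rw [div_mul_eq_mul_div, ← map_mul, ← h, map_mul, mul_div_cancel_left₀ _ hq0]⟩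
  obtain ⟨σ, hσ⟩ := (Algebra.essFiniteType_iff ℂ R).1 hk.essFiniteType
  refine ⟨hn, fun f => (hc f).1, (Algebra.adjoin ℂ (σ : Set R)).map
    (IsScalarTower.toAlgHom ℂ R K), Subalgebra.FG.map _ ⟨σ, rfl⟩, ?_, fun x hx => ?_⟩
  · rintro _ ⟨f, -, rfl⟩
    exact (hc f).1
  · obtain ⟨a, b, hb, e⟩ := key x hx
    obtain ⟨t, ht, htu, hat⟩ := hσ a
    obtain ⟨t', ht', htu', hbt⟩ := hσ b
    refine ⟨algebraMap R K (a * t * t'), ⟨_, mul_mem hat ht', rfl⟩, algebraMap R K (b * t' * t),
      ⟨_, mul_mem hbt ht, rfl⟩, ?_, ?_⟩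
    · rw [map_mul, map_mul, map_mul, map_mul, hb, hu t htu, hu t' htu', one_mul, one_mul]
    · rw [map_mul, map_mul, map_mul, map_mul, ← e]
      ring

end Vale.Agent.P282Y
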