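import Vale.Agent.P282Y.Sk

/-!
# P282Y: the rings `Loc v h`, frames, monomials
-/

open IsLocalRing P277Z.Hir

noncomputable section

namespace Vale.Agent.P282Y

variable {Ω : Type} [Field Ω] [Algebra ℂ Ω] {Γ : Type} [LinearOrderedCommGroupWithZero Γ] {N : ℕ}
  {v : Valuation Ω Γ} {h h' : Set Ω}

theorem Loc_mono (hh : ∀ a ∈ h, a ∈ Loc v h') : Loc v h ≤ Loc v h' := by
  have h1 : Algebra.adjoin ℂ h ≤ Loc v h' := Algebra.adjoin_le hh
  rintro x ⟨a, ha, b, hb, h2, rfl⟩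
  have h3 : b ≠ 0 := by rintro rfl; simp at h2
  simpa [h3] using mul_mem (h1 ha) (inv_mem_Loc (h1 hb) h2)

theorem Md.res [hm : Md v h] (a : Loc v h) :
    ∃ c : ℂ, a - algebraMap ℂ _ c ∈ maximalIdeal (Loc v h) := by
  obtain ⟨c, hc⟩ := hm.zd.res a (Md.loc_le a.2)
  exact ⟨c, (mem_max_Loc _).2 hc⟩

theorem Md.ess [hm : Md v h] : Algebra.EssFiniteType ℂ (Loc v h) := by
  classical
  rw [Algebra.essFiniteType_iff]
  refine ⟨(hm.fin.preimage Subtype.val_injective.injOn).toFinset, fun s => ?_⟩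
  have key : ∀ a (ha : a ∈ Algebra.adjoin ℂ h), (⟨a, adjoin_le_Loc ha⟩ : Loc v h) ∈
      Algebra.adjoin ℂ (((hm.fin.preimage Subtype.val_injective.injOn).toFinset :
        Finset (Loc v h)) : Set (Loc v h)) := by
    intro a ha
    induction ha using Algebra.adjoin_induction with
    | mem a ha => exact Algebra.subset_adjoin (by simpa using ha)
    | algebraMap c => exact Subalgebra.algebraMap_mem _ c
    | add a b _ _ ha hb => exact add_mem ha hb
    | mul a b _ _ ha hb => exact mul_mem ha hb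
  obtain ⟨a, ha, b, hb, h1, h2⟩ := s.2
  refine ⟨⟨b, adjoin_le_Loc hb⟩, key b hb, (isUnit_Loc _).2 h1, ?_⟩
  have := key a ha
  rwa [show (⟨a, adjoin_le_Loc ha⟩ : Loc v h) = s * ⟨b, adjoin_le_Loc hb⟩ from
    Subtype.ext h2.symm] at this

instance Md.noeth [Md v h] : IsNoetherianRing (Loc v h) :=
  have := Md.ess (v := v) (h := h)
  Algebra.EssFiniteType.isNoetherianRing ℂ _

/-- the maximal ideal is generated by the recentred generators -/
theorem gen_max [hm : Md v h] (I : Ideal (Loc v h)) (hI : I ≤ maximalIdeal _)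
    (hg : ∀ g (hg : g ∈ h), ∃ c : ℂ, (⟨g, mem_Loc hg⟩ : Loc v h) - algebraMap ℂ _ c ∈ I) :
    maximalIdeal (Loc v h) = I := by
  have key : ∀ a (ha : a ∈ Algebra.adjoin ℂ h), ∃ c : ℂ,
      (⟨a, adjoin_le_Loc ha⟩ : Loc v h) - algebraMap ℂ _ c ∈ I := by
    intro a ha
    induction ha using Algebra.adjoin_induction with
    | mem a ha => exact hg a ha
    | algebraMap c => exact ⟨c, by
        rw [show (⟨algebraMap ℂ Ω c, _⟩ : Loc v h) = algebraMap ℂ _ c from rfl, sub_self]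
        exact zero_mem _⟩
    | add a b ha' hb' ha hb =>
      obtain ⟨c, hc⟩ := ha
      obtain ⟨e, he⟩ := hb
      refine ⟨c + e, ?_⟩
      have := add_mem hc he
      rwa [show ∀ p q r s : Loc v h, p - q + (r - s) = p + r - (q + s) from fun _ _ _ _ => by ring,
        ← map_add] at this
    | mul a b ha' hb' ha hb =>
      obtain ⟨c, hc⟩ := ha
      obtain ⟨e, he⟩ := hb
      refine ⟨c * e, ?_⟩
      have := add_mem (I.mul_mem_right ⟨b, adjoin_le_Loc hb'⟩ hc)
        (I.mul_mem_left (algebraMap ℂ _ c) he)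
      rwa [show ∀ p q r s : Loc v h, (p - q) * r + q * (r - s) = p * r - q * s from
        fun _ _ _ _ => by ring, ← map_mul] at this
  refine le_antisymm (fun s hs => ?_) hI
  obtain ⟨a, ha, b, hb, h1, h2⟩ := s.2
  obtain ⟨c, hc⟩ := key a ha
  rw [show (⟨a, adjoin_le_Loc ha⟩ : Loc v h) = s * ⟨b, adjoin_le_Loc hb⟩ from
    Subtype.ext h2.symm] at hc
  have h3 : algebraMap ℂ (Loc v h) c ∈ maximalIdeal _ := by
    have := sub_mem (Ideal.mul_mem_right ⟨b, adjoin_le_Loc hb⟩ _ hs) (hI hc)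
    rwa [sub_sub_cancel] at this
  obtain rfl : c = 0 := by
    by_contra h4
    exact (mem_maximalIdeal _).1 h3 ((IsUnit.mk0 c h4).map _)
  rw [map_zero, sub_zero] at hc
  exact (I.mul_unit_mem_iff_mem ((isUnit_Loc _).2 h1)).1 hc

theorem der_Loc (T : Subalgebra ℂ Ω) (hT : Loc v h ≤ T) (M : Submodule T Ω)
    (D : Derivation ℂ Ω Ω) (hD : ∀ g ∈ h, D g ∈ M) : ∀ a ∈ Loc v h, D a ∈ M := by
  have sm : ∀ a ∈ T, ∀ b ∈ M, a * b ∈ M := fun a ha b hb => M.smul_mem ⟨a, ha⟩ hb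
  have key : ∀ a ∈ Algebra.adjoin ℂ h, D a ∈ M := by
    intro a ha
    induction ha using Algebra.adjoin_induction with
    | mem a ha => exact hD a ha
    | algebraMap c => simp
    | add a b _ _ ha hb => rw [map_add]; exact add_mem ha hb
    | mul a b ha' hb' ha hb =>
      rw [D.leibniz, smul_eq_mul, smul_eq_mul]
      exact add_mem (sm _ (hT (adjoin_le_Loc ha')) _ hb) (sm _ (hT (adjoin_le_Loc hb')) _ ha)
  intro x hx
  obtain ⟨a, ha, b, hb, h2, rfl⟩ := id hx
  have h3 : b ≠ 0 := by rintro rfl; simp at h2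
  have h4 : D x = b⁻¹ * (D (x * b) - x * D b) := by
    rw [D.leibniz, smul_eq_mul, smul_eq_mul]
    field_simp
    ring
  rw [h4]
  exact sm _ (hT (inv_mem_Loc (adjoin_le_Loc hb) h2)) _
    (sub_mem (key _ ha) (sm _ (hT hx) _ (key _ hb)))

theorem pres_Loc (T : Subalgebra ℂ Ω) (hT : Loc v h ≤ T) (D : Derivation ℂ Ω Ω)
    (hD : ∀ g ∈ h, D g ∈ T) : ∀ a ∈ Loc v h, D a ∈ T := by
  have e : ∀ a : Ω, a ∈ (1 : Submodule T Ω) ↔ a ∈ T := fun a => by
    rw [Submodule.mem_one]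
    exact ⟨fun ⟨b, hb⟩ => hb ▸ b.2, fun ha => ⟨⟨a, ha⟩, rfl⟩⟩
  exact fun a ha => (e _).1 (der_Loc T hT 1 D (fun g hg => (e _).2 (hD g hg)) a ha)

/-- restriction of a derivation to a stable subalgebra -/
def resD (T : Subalgebra ℂ Ω) (D : Derivation ℂ Ω Ω) (hD : ∀ a ∈ T, D a ∈ T) :
    Derivation ℂ T T where
  toFun a := ⟨D a, hD a a.2⟩
  map_add' a b := Subtype.ext (by simp)
  map_smul' c a := Subtype.ext (by simp)
  map_one_eq_zero' := Subtype.ext (by simp)
  leibniz' a b := Subtype.ext (by simp)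

@[simp] theorem coe_resD (T : Subalgebra ℂ Ω) (D : Derivation ℂ Ω Ω) (hD : ∀ a ∈ T, D a ∈ T)
    (a : T) : (resD T D hD a : Ω) = D a := rfl

theorem der_sum_apply {ι : Type*} (s : Finset ι) (D : ι → Derivation ℂ Ω Ω) (a : Ω) :
    (∑ i ∈ s, D i) a = ∑ i ∈ s, D i a := by
  classical
  induction s using Finset.induction_on with
  | empty => simp
  | insert i s hi ih => rw [Finset.sum_insert hi, Finset.sum_insert hi, Derivation.add_apply, ih]

namespace Du

variable {y : Fin N → Ω} {d : Fin N → Derivation ℂ Ω Ω}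

theorem eq_sum (hd : Du y d) (D : Derivation ℂ Ω Ω) (a : Ω) : D a = ∑ l, D (y l) * d l a := by
  have := hd.ext (D - ∑ l, D (y l) • d l) fun m => by
    simp [der_sum_apply, hd.dual]
  have h1 := congrArg (fun E : Derivation ℂ Ω Ω => E a) this
  simpa [der_sum_apply, sub_eq_zero] using h1

theorem chain (hd : Du y d) (D : Fin N → Derivation ℂ Ω Ω) (b : Fin N → Ω) :
    jac D b = jac D y * jac d b := by
  rw [jac, jac, jac, ← Matrix.det_mul]
  congr 1
  ext i j
  simpa [Matrix.mul_apply] using hd.eq_sum (D i) (b j)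

theorem jac_self (hd : Du y d) : jac d y = 1 := by
  rw [jac, ← Matrix.det_one (n := Fin N)]
  congr 1
  ext i j
  simp [hd.dual, Matrix.one_apply]

theorem ne_zero (hd : Du y d) (l : Fin N) : y l ≠ 0 := fun h0 => by
  simpa [h0] using hd.dual l l

/-- derivations dual to `y'` are a frame -/
theorem of_dual (hd : Du y d) {y' : Fin N → Ω} {d' : Fin N → Derivation ℂ Ω Ω}
    (h1 : ∀ l m, d' l (y' m) = if l = m then 1 else 0) : Du y' d' := by
  refine ⟨h1, fun D hD => hd.ext D fun l => ?_⟩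
  have h2 : jac d y' ≠ 0 := fun h0 => by
    have h3 := hd.chain d' y'
    rw [h0, mul_zero, jac, show (Matrix.of fun i j => d' i (y' j)) = 1 from by
      ext i j; simp [h1, Matrix.one_apply], Matrix.det_one] at h3
    exact one_ne_zero h3
  have h3 : Matrix.vecMul (fun l => D (y l)) (Matrix.of fun i j => d i (y' j)) = 0 := by
    ext j
    simpa [Matrix.vecMul, dotProduct, hD] using (hd.eq_sum D (y' j)).symm
  exact congrFun (Matrix.eq_zero_of_vecMul_eq_zero h2 h3) l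

theorem of_matrix (hd : Du y d) (y' : Fin N → Ω) (h1 : jac d y' ≠ 0) : ∃ d', Du y' d' := by
  refine ⟨fun l => ∑ k, (Matrix.of fun i j => d i (y' j))⁻¹ l k • d k, hd.of_dual fun l m => ?_⟩
  have := congrFun (congrFun (Matrix.nonsing_inv_mul (Matrix.of fun i j => d i (y' j))
    (IsUnit.mk0 _ h1)) l) m
  simpa [der_sum_apply, Matrix.mul_apply, Matrix.one_apply] using this

end Du

theorem jac_mem (T : Subalgebra ℂ Ω) {D : Fin N → Derivation ℂ Ω Ω} {b : Fin N → Ω}
    (hb : ∀ i j, D i (b j) ∈ T) : jac D b ∈ T := by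
  rw [jac, Matrix.det_apply']
  exact sum_mem fun σ _ => mul_mem (intCast_mem _ _) (prod_mem fun i _ => hb _ _)

namespace Fr

variable [Md v h] {y : Fin N → Loc v h} {d : Fin N → Derivation ℂ Ω Ω}

theorem afr (hf : Fr v h y d) : AFr y fun l => resD _ (d l) (hf.pres l) :=
  ⟨hf.span, fun l m => Subtype.ext (by
    rw [coe_resD, hf.du.dual]
    split_ifs <;> rfl), Md.res⟩

theorem lt (hf : Fr v h y d) (l : Fin N) : v (y l) < 1 :=
  (mem_max_Loc _).1 (hf.span ▸ Ideal.subset_span ⟨l, rfl⟩)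

/-- a derivation of the local ring is determined by its values on the parameters -/
theorem extd (hf : Fr v h y d) (δ : Derivation ℂ (Loc v h) (Loc v h)) (a : Loc v h) :
    (δ a : Ω) = ∑ l, (δ (y l) : Ω) * d l a := by
  set E : Derivation ℂ (Loc v h) (Loc v h) := δ - ∑ l, δ (y l) • resD _ (d l) (hf.pres l) with hE
  have hs : ∀ a : Loc v h, (E a : Ω) = δ a - ∑ l, (δ (y l) : Ω) * d l a := fun a => by
    have : (∑ l, δ (y l) • resD _ (d l) (hf.pres l)) a =
        ∑ l, (δ (y l) • resD _ (d l) (hf.pres l)) a :=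
      map_sum (⟨⟨fun D : Derivation ℂ (Loc v h) (Loc v h) => D a, rfl⟩, fun _ _ => rfl⟩ :
        _ →+ Loc v h) _ _
    rw [hE, Derivation.sub_apply, this]
    simp
  have h1 : ∀ l, E (y l) = 0 := fun l => Subtype.ext (by rw [hs]; simp [hf.du.dual])
  have h2 : ∀ (k : ℕ) (a : Loc v h), E a ∈ maximalIdeal (Loc v h) ^ k := by
    intro k
    induction k with
    | zero => simp
    | succ k ih =>
      intro a
      obtain ⟨c, hc⟩ := Md.res a
      rw [hf.span] at hc
      obtain ⟨s, hs⟩ := Ideal.mem_span_range_iff_exists_fun.1 hc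
      rw [show a = ∑ l, s l * y l + algebraMap ℂ _ c by rw [hs]; ring, map_add, map_sum,
        Derivation.map_algebraMap, add_zero]
      refine sum_mem fun l _ => ?_
      rw [E.leibniz, h1, smul_zero, zero_add, smul_eq_mul, pow_succ']
      exact Ideal.mul_mem_mul ((mem_max_Loc _).2 (hf.lt l)) (ih _)
  have h3 : E a = 0 := by
    have := Ideal.iInf_pow_eq_bot_of_isLocalRing (maximalIdeal (Loc v h))
      (maximalIdeal.isMaximal _).ne_top
    rw [← Ideal.mem_bot, ← this, Ideal.mem_iInf]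
    exact fun k => h2 k a
  have := hs a
  rwa [h3, ZeroMemClass.coe_zero, eq_comm, sub_eq_zero] at this

/-- change of frame -/
theorem chg (hf : Fr v h y d) {y' : Fin N → Loc v h} {δ : Fin N → Derivation ℂ (Loc v h) (Loc v h)}
    (hf' : AFr y' δ) : ∃ d', Fr v h y' d' ∧ (∀ l a, (δ l a : Ω) = d' l a) ∧
      jac d' (fun l => (y l : Ω)) ∈ Loc v h ∧ v (jac d' fun l => (y l : Ω)) = 1 := by
  have h1 : ∀ l (a : Loc v h), (δ l a : Ω) = (∑ k, (δ l (y k) : Ω) • d k) a := fun l a => by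
    rw [hf.extd, der_sum_apply]
    rfl
  have h2 : Du (fun l => (y' l : Ω)) fun l => ∑ k, (δ l (y k) : Ω) • d k :=
    hf.du.of_dual fun l m => by
      rw [← h1, hf'.dual]
      split_ifs <;> rfl
  have h3 : ∀ l, ∀ a ∈ Loc v h, (∑ k, (δ l (y k) : Ω) • d k) a ∈ Loc v h := fun l a ha =>
    h1 l ⟨a, ha⟩ ▸ (δ l ⟨a, ha⟩).2
  have h4 := jac_mem (Loc v h) (b := fun l => (y l : Ω)) fun i j => h3 i _ (y j).2
  have h5 := jac_mem (Loc v h) (b := fun l => (y' l : Ω)) fun i j => hf.pres i _ (y' j).2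
  refine ⟨_, ⟨hf'.span, h2, h3⟩, h1, h4, (isUnit_Loc ⟨_, h4⟩).1 (IsUnit.of_mul_eq_one ⟨_, h5⟩
    (Subtype.ext ?_))⟩
  exact (hf.du.chain _ _).symm.trans h2.jac_self

end Fr

namespace UM

variable {y : Fin N → Loc v h} {α β : Fin N → ℤ} {a b : Ω}

theorem unit (ha : a ∈ Loc v h) (h1 : v a = 1) : UM v h y 0 a := ⟨a, ha, h1, by simp⟩

theorem mul (hy : ∀ l, (y l : Ω) ≠ 0) (ha : UM v h y α a) (hb : UM v h y β b) :
    UM v h y (α + β) (a * b) := by
  obtain ⟨u, hu, h1, rfl⟩ := ha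
  obtain ⟨u', hu', h1', rfl⟩ := hb
  refine ⟨u * u', mul_mem hu hu', by rw [map_mul, h1, h1', one_mul], ?_⟩
  simp only [Pi.add_apply, zpow_add₀ (hy _), Finset.prod_mul_distrib]
  ring

theorem zpow (ha : UM v h y α a) (k : ℤ) : UM v h y (k • α) (a ^ k) := by
  obtain ⟨u, hu, h1, rfl⟩ := ha
  refine ⟨u ^ k, ?_, by rw [map_zpow₀, h1, one_zpow], ?_⟩
  · rcases k with k | k
    · simpa using pow_mem hu k
    · rw [zpow_negSucc, ← inv_pow]
      exact pow_mem (inv_mem_Loc hu h1) _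
  · rw [mul_zpow, ← Finset.prod_zpow]
    simp only [Pi.smul_apply, smul_eq_mul, ← zpow_mul, mul_comm]

theorem val (ha : UM v h y α a) : v a = ∏ l, v (y l) ^ α l := by
  obtain ⟨u, -, h1, rfl⟩ := ha
  simp [h1, map_prod]

theorem single (l : Fin N) : UM v h y (Pi.single l 1) (y l) := by
  refine ⟨1, one_mem _, map_one v, ?_⟩
  rw [one_mul, Finset.prod_eq_single l (fun m _ hm => by simp [hm]) (by simp)]
  simp

end UM

namespace St

variable {G : Subgroup (Ω ≃ₐ[ℂ] Ω)} {S T U : St v G N} {a b : Ω}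

theorem y_ne (S : St v G N) (l : Fin N) : (S.y l : Ω) ≠ 0 := S.fr.du.ne_zero l

theorem Mon.unit (ha : a ∈ Loc v S.h) (h1 : v a = 1) : S.Mon a :=
  ⟨0, fun _ _ => rfl, UM.unit ha h1⟩

theorem Mon.mul (ha : S.Mon a) (hb : S.Mon b) : S.Mon (a * b) := by
  obtain ⟨α, h1, ha⟩ := ha
  obtain ⟨β, h2, hb⟩ := hb
  refine ⟨α + β, fun l hl => by simp [h1 l hl, h2 l hl], ?_⟩
  have := ha.mul S.y_ne hb
  rwa [show ((fun l => (α l : ℤ)) + fun l => (β l : ℤ)) = fun l => ((α + β) l : ℤ) from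
    funext fun l => by simp] at this

theorem Mon.prod {ι : Type*} {s : Finset ι} {f : ι → Ω} (hf : ∀ i ∈ s, S.Mon (f i)) :
    S.Mon (∏ i ∈ s, f i) :=
  Finset.prod_induction f S.Mon (fun _ _ => Mon.mul) (Mon.unit (one_mem _) (map_one v)) hf

theorem Mon.pow (ha : S.Mon a) (k : ℕ) : S.Mon (a ^ k) := by
  simpa using Mon.prod (s := Finset.range k) (f := fun _ => a) fun _ _ => ha

theorem Mon.flag {l : Fin N} (hl : l ∈ S.B) : S.Mon (S.y l) := by
  refine ⟨Pi.single l 1, fun m hm => Pi.single_eq_of_ne (fun e : m = l => hm (e ▸ hl)) _, ?_⟩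
  have := UM.single (y := S.y) l
  rwa [show (Pi.single l 1 : Fin N → ℤ) = fun m => ((Pi.single l 1 : Fin N → ℕ) m : ℤ) from
    funext fun m => by by_cases e : m = l <;> simp [e]] at this

/-- monomials stay monomials as soon as the flagged coordinates do -/
theorem mon_of_flag (h1 : Loc v S.h ≤ Loc v T.h) (h2 : ∀ l ∈ S.B, T.Mon (S.y l)) (ha : S.Mon a) :
    T.Mon a := by
  obtain ⟨α, h3, u, hu, h4, rfl⟩ := ha
  refine (Mon.unit (h1 hu) h4).mul (Mon.prod fun l _ => ?_)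
  rw [zpow_natCast]
  by_cases hl : l ∈ S.B
  · exact (h2 l hl).pow _
  · rw [h3 l hl, pow_zero]
    exact Mon.unit (one_mem _) (map_one v)

theorem Le.refl (S : St v G N) : S.Le S :=
  ⟨le_rfl, fun _ h => h, S.fr.du.jac_self ▸ Mon.unit (one_mem _) (map_one v)⟩

theorem Le.trans (h1 : S.Le T) (h2 : T.Le U) : S.Le U :=
  ⟨h1.loc.trans h2.loc, fun a h => h2.mon a (h1.mon a h),
    T.fr.du.chain U.d _ ▸ h2.jac.mul (h2.mon _ h1.jac)⟩

end St

end Vale.Agent.P282Y
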