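import Vale.Agent.P282Y.Defs

/-!
# P282Y: the statements of the rows
-/

open scoped NNReal ENNReal
open IsLocalRing P277Z.Hir Vale.Agent.P282.Gap

noncomputable section

namespace Vale.Agent.P282Y

/-! ## abstract algebra -/

/-- places with values in `ℂ` -/
def StCHEV : Prop := ∀ (Ω : Type) [Field Ω] [Algebra ℂ Ω] (A : Subalgebra ℂ Ω) (I : Ideal A),
  I ≠ ⊤ → (∀ a : A, ∃ c : ℂ, a - algebraMap ℂ A c ∈ I) →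
  ∃ O : ValuationSubring Ω, Zd O.valuation ∧
    ∀ a : A, O.valuation (a : Ω) ≤ 1 ∧ (O.valuation (a : Ω) < 1 ↔ a ∈ I)

def StUQ : Prop := ∀ (R : Type) [CommRing R] [Algebra ℂ R] [IsLocalRing R] (Λ : Type) (s : Λ → R)
  (F : Set (R × ℝ)) (x y : ℕ → R) (w u : ℕ → ℝ) (dw du : ℕ → Option Λ) (n : ℕ),
  Cert' s F x w dw n → LA.Ok s y u du → (∀ f ∈ F, f.1 ∈ LA.FI y u f.2) →
  LA.Lt u du w dw ∨ ∀ j < n, x j ∈ maximalIdeal R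

def StEULER : Prop := ∀ (R : Type) [CommRing R] [Algebra ℂ R] [IsLocalRing R] (N : ℕ)
  (y : Fin N → R) (d : Fin N → Derivation ℂ R R) (J : Set (Fin N)) (k : ℕ) (g : R), AFr y d →
  g ∈ Ideal.span (y '' J) ⊔ maximalIdeal R ^ k → g ∉ Ideal.span (y '' J) ⊔ maximalIdeal R ^ (k + 1) →
  ∃ L : List (Fin N), L.length = k ∧ (∀ l ∈ L, l ∉ J) ∧ IsUnit (L.foldr (fun l a => d l a) g)

def StTAYLOR : Prop := ∀ (R : Type) [CommRing R] [Algebra ℂ R] (D : Derivation ℂ R R) (x : R)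
  (w : ℝ) (J : ℝ → Ideal R), D x = 1 → 0 < w → (∀ c ≤ 0, J c = ⊤) →
  (∀ c, ∀ a ∈ J c, D a ∈ J (c - w)) → (∀ c, ∀ a ∈ J (c - w), x * a ∈ J c) →
  ∀ (c : ℝ) (g : R), (∀ t : ℕ, D^[t] g ∈ J (c - t * w) ⊔ Ideal.span {x}) → g ∈ J c

def StXCH : Prop := ∀ (R : Type) [CommRing R] [Algebra ℂ R] [IsLocalRing R] [IsNoetherianRing R]
  (N : ℕ) (y : Fin N → R) (d : Fin N → Derivation ℂ R R) (l : Fin N) (a : R), AFr y d →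
  a ∈ maximalIdeal R → IsUnit (d l a) → ∃ d', AFr (Function.update y l a) d'

def StPRIME : Prop := ∀ (R : Type) [CommRing R] [Algebra ℂ R] [IsLocalRing R] [IsNoetherianRing R]
  (N : ℕ) (y : Fin N → R) (d : Fin N → Derivation ℂ R R), AFr y d →
  (∀ J : Set (Fin N), (Ideal.span (y '' J)).IsPrime) ∧
  (∀ (J : Set (Fin N)) (l : Fin N), l ∉ J → y l ∉ Ideal.span (y '' J)) ∧ IsRegularLocalRing R

/-- existence of the canonical centre -/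
def StEX : Prop := ∀ (R : Type) [CommRing R] [Algebra ℂ R] [IsLocalRing R] [IsNoetherianRing R]
  (N : ℕ) (P : R → Prop),
  (∀ (y : Fin N → R) d, AFr y d → (∀ l, P (y l)) → ∀ l a, P a → P (d l a)) →
  ∀ (B : Finset (Fin N)) (y : Fin N → R) d (f : R), AFr y d → (∀ l, P (y l)) → P f → f ≠ 0 →
  f ∈ maximalIdeal R → ∃ (y' : Fin N → R) (d' : _) (n : ℕ) (m : ℕ → Fin N) (w : ℕ → ℝ),
    AFr y' d' ∧ (∀ l, P (y' l)) ∧ (∀ l ∈ B, y' l = y l) ∧ Cen B y' f n m w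

def StWF : Prop := ∀ N : ℕ, WellFounded
  fun a b : {p : ℕ × (ℕ → ℝ) × (ℕ → Option (Fin N)) // p.1 ≤ N ∧ Reach p.1 p.2.1} =>
    LA.Lt a.1.2.1 a.1.2.2 b.1.2.1 b.1.2.2

def StRAT : Prop := ∀ (n : ℕ) (w : ℕ → ℝ), Reach n w →
  ∃ (e : ℕ) (ω : ℕ → ℕ), 0 < e ∧ ∀ i, (ω i : ℝ) = e * w i

/-- the toric lemma -/
def StPER : Prop := ∀ (Γ : Type) [LinearOrderedCommGroupWithZero Γ] (N : ℕ) (γ : Fin N → Γ)
  (M : AddSubgroup (Fin N → ℤ)) (k : ℕ) (Φ : Set (Fin N → ℤ)), (∀ l, γ l ≠ 0) → 0 < k →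
  (∀ l, Pi.single l (k : ℤ) ∈ M) → Φ.Finite → (∀ α ∈ Φ, α ∈ M ∧ ∏ l, γ l ^ α l ≤ 1) →
  ∃ e : Fin N → Fin N → ℤ, (∀ j, e j ∈ M ∧ ∏ l, γ l ^ e j l ≤ 1) ∧ (Matrix.of e).det ≠ 0 ∧
    (∀ α ∈ M, ∃ c : Fin N → ℤ, α = ∑ j, c j • e j) ∧
    ∀ α ∈ Φ, ∃ c : Fin N → ℤ, α = ∑ j, c j • e j ∧ ∀ j, ∏ l, γ l ^ e j l < 1 → 0 ≤ c j

/-! ## derivations of fields -/

def StDU : Prop := ∀ (K : Type) [Field K] [Algebra ℂ K] (N : ℕ) (x : Fin N → K),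
  IsTranscendenceBasis ℂ x → ∃ d, Du x d

def StEXT : Prop := ∀ (K Ω : Type) [Field K] [Algebra ℂ K] [Field Ω] [Algebra ℂ Ω] [Algebra K Ω]
  [IsScalarTower ℂ K Ω] [Algebra.IsAlgebraic K Ω],
  (∀ D : Derivation ℂ K K, ∃ D' : Derivation ℂ Ω Ω,
    ∀ a, D' (algebraMap K Ω a) = algebraMap K Ω (D a)) ∧
  ∀ (N : ℕ) (y : Fin N → K) (d : Fin N → Derivation ℂ K K) (d' : Fin N → Derivation ℂ Ω Ω),
    Du y d → (∀ l a, d' l (algebraMap K Ω a) = algebraMap K Ω (d l a)) →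
    Du (fun l => algebraMap K Ω (y l)) d'

def StHOM : Prop := ∀ (Ω : Type) [Field Ω] [Algebra ℂ Ω] (G : Subgroup (Ω ≃ₐ[ℂ] Ω)),
  (∀ (z : Ω) (k : ℕ), 0 < k → Hm G (z ^ k) → Hm G z) ∧
  ∀ (N : ℕ) (y : Fin N → Ω) (d : Fin N → Derivation ℂ Ω Ω), Du y d → (∀ l, Hm G (y l)) →
    (∀ l a, Hm G a → Hm G (d l a)) ∧ ∀ σ ∈ G, ∃ c : Fin N → ℂ, (∀ l, c l ≠ 0) ∧
      ∀ l a, σ (d l a) = algebraMap ℂ Ω (c l) * d l (σ a)

/-! ## the algorithm -/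

def StSL1 : Prop := ∀ (Ω : Type) [Field Ω] [Algebra ℂ Ω] [IsAlgClosed Ω] (Γ : Type)
  [LinearOrderedCommGroupWithZero Γ] (v : Valuation Ω Γ) (G : Subgroup (Ω ≃ₐ[ℂ] Ω)) (N : ℕ)
  (S : St v G N) (n : ℕ) (m : ℕ → Fin N) (ω : ℕ → ℕ), 0 < n →
  (∀ i < n, ∀ j < n, m i = m j → i = j) → (∀ i < n, 0 < ω i) →
  ∃ (i₀ : ℕ) (z : Ω) (T : St v G N), S.Slc n m ω i₀ z T

def StSL2 : Prop := ∀ (Ω : Type) [Field Ω] [Algebra ℂ Ω] (Γ : Type)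
  [LinearOrderedCommGroupWithZero Γ] (v : Valuation Ω Γ) (G : Subgroup (Ω ≃ₐ[ℂ] Ω)) (N : ℕ)
  (S T : St v G N) (f : Loc v S.h) (n : ℕ) (m : ℕ → Fin N) (w : ℕ → ℝ) (e : ℕ) (ω : ℕ → ℕ)
  (i₀ : ℕ) (z : Ω), Cen S.B S.y f n m w → 0 < e → (∀ i, (ω i : ℝ) = e * w i) →
  S.Slc n m ω i₀ z T → ∃ f' : Loc v T.h, (f : Ω) = z ^ e * f' ∧
    ∀ (y : ℕ → Loc v T.h) (u : ℕ → ℝ) (du : ℕ → Option (Fin N)), LA.Ok (sB T.B T.y) y u du →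
      f' ∈ LA.FI y u 1 → LA.Lt u du w (dvB S.B m)

def StLOOP : Prop := ∀ (Ω : Type) [Field Ω] [Algebra ℂ Ω] [IsAlgClosed Ω] (Γ : Type)
  [LinearOrderedCommGroupWithZero Γ] (v : Valuation Ω Γ) (G : Subgroup (Ω ≃ₐ[ℂ] Ω)) (N : ℕ)
  (S : St v G N) (Φ : Set Ω), Φ.Finite → (∀ a ∈ Φ, a ∈ Loc v S.h ∧ a ≠ 0 ∧ Hm G a) →
  ∃ T : St v G N, S.Le T ∧ ∀ a ∈ Φ, T.Mon a

/-- the invariants of `Loc v S.h` -/
def StGRD : Prop := ∀ (Ω : Type) [Field Ω] [Algebra ℂ Ω] (Γ : Type)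
  [LinearOrderedCommGroupWithZero Γ] (v : Valuation Ω Γ) (G : Subgroup (Ω ≃ₐ[ℂ] Ω)) (N : ℕ)
  (S : St v G N),
  (∃ h₀ : Set Ω, h₀.Finite ∧ (∀ a ∈ h₀, a ∈ Loc v S.h ∧ Fix G a) ∧
    ∀ a ∈ Loc v S.h, Fix G a → a ∈ Loc v h₀) ∧
  ∃ Φ : Set (Fin N → ℕ), Φ.Finite ∧ 0 ∉ Φ ∧ ∀ a ∈ Loc v S.h, Fix G a → v a < 1 →
    a ∈ AddSubmonoid.closure {t | ∃ s ∈ Loc v S.h, Fix G s ∧ ∃ α ∈ Φ, ∃ μ, Fix G μ ∧
      UM v S.h S.y (fun l => α l) μ ∧ t = s * μ}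

def StDESC : Prop := ∀ (Ω : Type) [Field Ω] [Algebra ℂ Ω] (Γ : Type)
  [LinearOrderedCommGroupWithZero Γ] (v : Valuation Ω Γ) (G : Subgroup (Ω ≃ₐ[ℂ] Ω)) (N : ℕ)
  (S : St v G N) (Φ : Set Ω) (b : Fin N → Ω), Φ.Finite →
  (∀ a ∈ Φ, Fix G a ∧ v a ≤ 1 ∧ ∃ α, UM v S.h S.y α a) → (∀ l, Fix G (b l)) →
  (∃ α, UM v S.h S.y α (jac S.d b)) →
  ∃ (h₀ : Set Ω) (_ : Md v h₀) (η : Fin N → Loc v h₀), (∀ a ∈ h₀, Fix G a) ∧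
    maximalIdeal (Loc v h₀) = Ideal.span (Set.range η) ∧
    (∀ a ∈ Loc v S.h, Fix G a → a ∈ Loc v h₀) ∧
    (∀ a ∈ Φ, ∃ c : Fin N → ℕ, UM v h₀ η (fun l => c l) a) ∧
    ∃ (c : Fin N → ℤ) (J : Ω), UM v h₀ η c J ∧ ∀ D, jac D b = J * jac D fun l => (η l : Ω)

def StFRAME : Prop := ∀ (K : Type) [Field K] [Algebra ℂ K] (Γ : Type)
  [LinearOrderedCommGroupWithZero Γ] (v : Valuation K Γ) (h : Set K) [Md v h] (N : ℕ)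
  (η : Fin N → Loc v h) (x : Fin N → K) (d₀ : Fin N → Derivation ℂ K K),
  maximalIdeal (Loc v h) = Ideal.span (Set.range η) → Du x d₀ →
  (∀ l, ∃ p ∈ Loc v h, ∃ q ∈ Loc v h, q ≠ 0 ∧ x l * q = p) → ∃ d, Fr v h η d

/-- embedded local uniformisation from a regular model -/
def StMONO : Prop := ∀ (K : Type) [Field K] [Algebra ℂ K] (Γ : Type)
  [LinearOrderedCommGroupWithZero Γ] (v : Valuation K Γ) (h : Set K) [Md v h] (N : ℕ)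
  (y : Fin N → Loc v h) (d : Fin N → Derivation ℂ K K) (Φ : Set K), Fr v h y d → Φ.Finite →
  (∀ a ∈ Φ, v a ≤ 1 ∧ ∃ p ∈ Loc v h, ∃ q ∈ Loc v h, p ≠ 0 ∧ q ≠ 0 ∧ a * q = p) →
  ∃ (h' : Set K) (_ : Md v h') (y' : Fin N → Loc v h') (d' : _), Fr v h' y' d' ∧
    Loc v h ≤ Loc v h' ∧ (∀ a ∈ Φ, ∃ c : Fin N → ℕ, UM v h' y' (fun l => c l) a) ∧
    ∃ c, UM v h' y' c (jac d' fun l => (y l : K))

/-- a function field is the residue field of a divisor of a rational field -/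
def StHYP : Prop := ∀ (K : Type) [Field K] [Algebra ℂ K] (Γ : Type)
  [LinearOrderedCommGroupWithZero Γ] (v : Valuation K Γ) (N : ℕ), Zd v →
  Algebra.EssFiniteType ℂ K → Algebra.trdeg ℂ K = N →
  ∃ (L : Type) (_ : Field L) (_ : Algebra ℂ L) (A : Subalgebra ℂ L) (π : A →ₐ[ℂ] K)
    (X : Fin (N + 1) → A) (t : A), (∀ a : L, a ∈ A ∨ a⁻¹ ∈ A) ∧
    (∀ a : A, π a ≠ 0 → (a : L)⁻¹ ∈ A) ∧ IsTranscendenceBasis ℂ (fun i => (X i : L)) ∧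
    IsTranscendenceBasis ℂ (fun i : Fin N => π (X i.succ)) ∧ (∀ i, v (π (X i)) ≤ 1) ∧
    (t : L) ∈ Algebra.adjoin ℂ (Set.range fun i => (X i : L)) ∧ t ≠ 0 ∧ π t = 0 ∧
    ∀ a : K, ∃ p ∈ Algebra.adjoin ℂ (Set.range fun i => π (X i)),
      ∃ q ∈ Algebra.adjoin ℂ (Set.range fun i => π (X i)), q ≠ 0 ∧ a * q = p

/-- local uniformisation -/
def StLU : Prop := ∀ (K : Type) [Field K] [Algebra ℂ K] (Γ : Type)
  [LinearOrderedCommGroupWithZero Γ] (v : Valuation K Γ) (N : ℕ), Zd v →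
  Algebra.EssFiniteType ℂ K → Algebra.trdeg ℂ K = N →
  ∃ (h : Set K) (_ : Md v h) (y : Fin N → Loc v h) (d : _), Fr v h y d ∧
    ∀ a : K, ∃ p ∈ Loc v h, ∃ q ∈ Loc v h, q ≠ 0 ∧ a * q = p

/-! ## the dictionary -/

section

variable {K : Type} [Field K] [Algebra ℂ K]

/-- the set of which the intrinsic log discrepancy is the least upper bound -/
def LS (n r : ℕ) (ω : (Fin n → Derivation ℂ K K) → K) (v : Valuation K ℝ≥0) : Set ℝ :=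
  {t : ℝ | ∃ (b : Fin n → K) (h : K), (∀ i, b i ≠ 0) ∧
    (∀ D : Fin n → Derivation ℂ K K, (∏ i, b i) ^ r * ω D = h * jac D b ^ r) ∧
    t = -Real.log (v h) / r}

theorem isLogDiscrepancy_iff {n r : ℕ} {ω : (Fin n → Derivation ℂ K K) → K} {v : Valuation K ℝ≥0}
    {a : ℝ} : IsLogDiscrepancy n r ω v a ↔ IsLUB (LS n r ω v) a := Iff.rfl

variable {R : Type} [CommRing R] [IsDomain R] [IsLocalRing R] [Algebra ℂ R] [Algebra R K]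

/-- unit times a monomial in a chart -/
def SncChart.NM {n r : ℕ} {ω : (Fin n → Derivation ℂ K K) → K} (c : SncChart R n r ω) (a : K) :
    Prop := ∃ (u : c.Sˣ) (e : Fin n → ℕ), a = ((u : c.S) : K) * ∏ i, (c.y i : K) ^ e i

end

/-- a statement about all the germs -/
def Klt (p : ∀ (R K : Type) [CommRing R] [IsDomain R] [IsLocalRing R] [Algebra ℂ R] [Field K]
    [Algebra ℂ K] [Algebra R K] (n _ : ℕ) (_ : (Fin n → Derivation ℂ K K) → K), Prop) : Prop :=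
  ∀ (R K : Type) [CommRing R] [IsDomain R] [IsLocalRing R] [Algebra ℂ R] [Field K] [Algebra ℂ K]
    [Algebra R K] [IsFractionRing R K] [IsScalarTower ℂ R K] (n r : ℕ)
    (ω : (Fin n → Derivation ℂ K K) → K), IsGerm R n r ω → p R K n r ω

def StCHART : Prop := Klt fun R K _ _ _ _ _ _ _ n r ω => ∀ (v : Valuation K ℝ≥0) (Φ : Set K),
  (∀ f : R, v (algebraMap R K f) ≤ 1) → Φ.Finite → 0 ∉ Φ →
  ∃ c : SncChart R n r ω, c.J = Finset.univ ∧ c.Sees v ∧ ∀ a ∈ Φ, c.NM a ∨ c.NM a⁻¹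

/-- the frame of a chart -/
def StCFR : Prop := Klt fun R K _ _ _ _ _ _ _ n r ω => ∀ c : SncChart R n r ω,
  (∃ d, Du (fun i => (c.y i : K)) d ∧ ∀ i, ∀ a ∈ c.S, d i a ∈ c.S) ∧
  (∀ i, (Ideal.span {c.y i}).IsPrime) ∧ ∀ i j, j ≠ i → c.y j ∉ Ideal.span {c.y i}

def StCMP : Prop := Klt fun R K _ _ _ _ _ _ _ n r ω =>
  (∀ (c : SncChart R n r ω) (v : Valuation K ℝ≥0), c.Sees v → ∃ t ∈ LS n r ω v, c.discr v ≤ t) ∧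
  (∀ (c : SncChart R n r ω) (v : Valuation K ℝ≥0), c.Monomial v →
    ∀ t ∈ LS n r ω v, t ≤ c.discr v) ∧
  ∀ v : Valuation K ℝ≥0, (∀ f : R, v (algebraMap R K f) ≤ 1) → ∀ t ∈ LS n r ω v,
    ∃ c : SncChart R n r ω, c.Sees v ∧ t ≤ c.discr v

/-- orders along the components of a chart -/
def StORD : Prop := Klt fun R K _ _ _ _ _ _ _ n r ω =>
  (∀ (w : Valuation K ℝ≥0) (k k' : ℤ), IsOrd n r ω w k → IsOrd n r ω w k' → k = k') ∧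
  ∀ (c : SncChart R n r ω) (i : Fin n) (w : Valuation K ℝ≥0), c.Sees w →
    (∀ s : c.S, w s < 1 ↔ s ∈ Ideal.span {c.y i}) → (w (c.y i) : ℝ) = Real.exp (-1) →
    (∀ x : K, w x ≤ 1 → ∃ a ∈ c.S, ∃ b ∈ c.S, w b = 1 ∧ x * b = a) → IsOrd n r ω w (c.m i)

def StDIVI : Prop := Klt fun R K _ _ _ _ _ _ _ n r ω => ∀ (c : SncChart R n r ω) (i : Fin n),
  ∃ w : Valuation K ℝ≥0, IsDivisor R w ∧ c.Sees w ∧
    (∀ s : c.S, w s < 1 ↔ s ∈ Ideal.span {c.y i}) ∧ IsOrd n r ω w (c.m i)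

def StDIVC : Prop := Klt fun R K _ _ _ _ _ _ _ n r ω => ∀ w : Valuation K ℝ≥0, IsDivisor R w →
  ∃ (c : SncChart R n r ω) (i : Fin n), c.Monomial w ∧ c.discr w = 1 + (c.m i : ℝ) / r ∧
    IsOrd n r ω w (c.m i)

def StHT1 : Prop := Klt fun R K _ _ _ _ _ _ _ _ _ _ => ∀ (w : Valuation K ℝ≥0) (P : Ideal R),
  HasCenter R w P → P.height = 1 → IsNormalized w → IsDivisor R w

def StDICT : Prop := Klt fun R _ _ _ _ _ _ _ _ n r ω =>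
  Consistent R n r ω ∧ (IsKlt R n r ω ↔ IsKltGerm R n r ω) ∧
    nvol R n r ω = normalizedVolume R n r ω

end Vale.Agent.P282Y
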