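import Vale.Agent.P282Y.Loc

/-!
# P282Y: the type drops on the slice of the weighted blow up
-/

open IsLocalRing P277Z.Hir

noncomputable section

namespace Vale.Agent.P282Y

namespace Sl2H

variable {Ω : Type} [Field Ω] [Algebra ℂ Ω] {Γ : Type} [LinearOrderedCommGroupWithZero Γ] {N : ℕ}
  {v : Valuation Ω Γ} {G : Subgroup (Ω ≃ₐ[ℂ] Ω)} {S T : St v G N} {n : ℕ} {m : ℕ → Fin N}
  {w : ℕ → ℝ} {e : ℕ} {ω : ℕ → ℕ} {i₀ : ℕ} {z : Ω}

/-- the hypotheses -/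
structure Hyp (S T : St v G N) (n : ℕ) (m : ℕ → Fin N) (w : ℕ → ℝ) (e : ℕ) (ω : ℕ → ℕ) (i₀ : ℕ)
    (z : Ω) : Prop where
  slc : S.Slc n m ω i₀ z T
  anti : Antitone ω
  pos : ∀ i < n, 0 < ω i
  om : ∀ i, (ω i : ℝ) = e * w i

theorem natCast_ne {k : ℕ} (hk : 0 < k) : (k : Ω) ≠ 0 := by
  rw [← map_natCast (algebraMap ℂ Ω)]
  exact (map_ne_zero _).2 (Nat.cast_ne_zero.2 hk.ne')

namespace Hyp

variable (H : Hyp S T n m w e ω i₀ z)
include H

theorem z_ne : z ≠ 0 := fun h0 => S.y_ne (m i₀) (by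
  rw [← H.slc.root, h0, zero_pow (H.pos _ H.slc.lt).ne'])

theorem z_mem : z ∈ Loc v T.h := mem_Loc (by rw [H.slc.gen]; simp)

theorem z_lt : v z < 1 := by
  by_contra h1
  have := S.fr.lt (m i₀)
  rw [← H.slc.root, map_pow] at this
  exact this.not_ge (one_le_pow₀ (not_lt.1 h1))

theorem x_mem {i : ℕ} (hi : i < n) : (S.y (m i) : Ω) / z ^ ω i ∈ Loc v T.h :=
  mem_Loc (by rw [H.slc.gen]; exact Or.inr ⟨i, hi, rfl⟩)

/-- the transforms of the coordinates of the centre -/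
def x (i : ℕ) : Loc v T.h := if hi : i < n then ⟨_, H.x_mem hi⟩ else 0

theorem x_eq {i : ℕ} (hi : i < n) : (H.x i : Ω) = S.y (m i) / z ^ ω i := by rw [x, dif_pos hi]

theorem y_eq {i : ℕ} (hi : i < n) : (S.y (m i) : Ω) = z ^ ω i * H.x i := by
  rw [H.x_eq hi, mul_div_cancel₀ _ (pow_ne_zero _ H.z_ne)]

theorem x_i₀ : H.x i₀ ∉ maximalIdeal (Loc v T.h) := by
  rw [mem_max_Loc, H.x_eq H.slc.lt, ← H.slc.root, div_self (pow_ne_zero _ H.z_ne), map_one]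
  exact lt_irrefl _

/-- lifting of the derivations -/
theorem lift (δ : Derivation ℂ (Loc v S.h) (Loc v S.h)) {i : ℕ} (hi : i ≤ i₀)
    (hδ : ∀ j < i, δ (S.y (m j)) = 0) : ∃ (δ' : Derivation ℂ (Loc v T.h) (Loc v T.h))
      (q : Loc v T.h), ∀ (a : Loc v S.h) (k : ℤ) (a' : Loc v T.h), (a : Ω) = z ^ k * a' →
        (δ a : Ω) = z ^ (k - ω i) * (δ' a' + (k : Loc v T.h) * q * a' : Loc v T.h) ∧
        ∀ b : Loc v T.h, (b : Ω) = z → δ' b = b * q := by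
  have hz := H.z_ne
  set E : Derivation ℂ Ω Ω := z ^ ω i • ∑ l, (δ (S.y l) : Ω) • S.d l with hE
  have h1 : ∀ a : Loc v S.h, E a = z ^ ω i * δ a := fun a => by
    rw [hE, Derivation.smul_apply, der_sum_apply, S.fr.extd δ a]
    rfl
  have hq : z ^ (ω i - ω i₀) * (δ (S.y (m i₀)) : Ω) * (ω i₀ : Ω)⁻¹ ∈ Loc v T.h := by
    refine mul_mem (mul_mem (pow_mem H.z_mem _) (H.slc.le.loc (δ _).2)) ?_
    rw [← map_natCast (algebraMap ℂ Ω), ← map_inv₀]
    exact Subalgebra.algebraMap_mem _ _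
  set q := z ^ (ω i - ω i₀) * (δ (S.y (m i₀)) : Ω) * (ω i₀ : Ω)⁻¹ with hq'
  have h2 : E z = z * q := by
    have h3 := h1 (S.y (m i₀))
    rw [← H.slc.root, Derivation.leibniz_pow] at h3
    obtain ⟨k, hk⟩ := Nat.exists_eq_add_of_le (H.anti hi)
    obtain ⟨j, hj⟩ := Nat.exists_eq_succ_of_ne_zero (H.pos _ H.slc.lt).ne'
    have h4 := natCast_ne (Ω := Ω) (H.pos _ H.slc.lt)
    rw [hq', hk, Nat.add_sub_cancel_left]
    rw [hk, nsmul_eq_mul, smul_eq_mul] at h3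
    field_simp
    apply mul_left_cancel₀ (pow_ne_zero j hz)
    rw [hj] at h3 ⊢
    simp only [Nat.succ_eq_add_one, Nat.add_sub_cancel] at h3 ⊢
    linear_combination h3
  have h3 : ∀ (k : ℤ) (a : Ω), E (z ^ k * a) = z ^ k * (E a + k * q * a) := fun k a => by
    rw [E.leibniz, Derivation.leibniz_zpow, h2, smul_eq_mul, smul_eq_mul, zsmul_eq_mul, smul_eq_mul,
      zpow_sub_one₀ hz]
    field_simp
  have h4 : ∀ a ∈ Loc v T.h, E a ∈ Loc v T.h := by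
    refine pres_Loc _ le_rfl E fun g hg => ?_
    rw [H.slc.gen] at hg
    rcases hg with (hg | rfl) | ⟨j, hj, rfl⟩
    · rw [h1 ⟨g, mem_Loc hg⟩]
      exact mul_mem (pow_mem H.z_mem _) (H.slc.le.loc (δ _).2)
    · rw [h2]
      exact mul_mem H.z_mem hq
    · rw [div_eq_inv_mul, ← zpow_natCast, ← zpow_neg, h3, mul_add, h1]
      refine add_mem ?_ ?_
      · rcases lt_or_ge j i with h5 | h5
        · simp [hδ j h5]
        · obtain ⟨k, hk⟩ := Nat.exists_eq_add_of_le (H.anti h5)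
          rw [hk, pow_add, zpow_neg, zpow_natCast, ← mul_assoc, ← mul_assoc,
            inv_mul_cancel₀ (pow_ne_zero _ hz), one_mul]
          exact mul_mem (pow_mem H.z_mem _) (H.slc.le.loc (δ _).2)
      · rw [mul_left_comm, zpow_neg, zpow_natCast, ← div_eq_inv_mul]
        exact mul_mem (mul_mem (intCast_mem _ _) hq) (H.x_mem hj)
  refine ⟨resD _ E h4, ⟨q, hq⟩, fun a k a' ha => ⟨?_, fun b hb => Subtype.ext ?_⟩⟩
  · have h5 := h1 a
    rw [ha, h3] at h5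
    apply mul_left_cancel₀ (pow_ne_zero (ω i) hz)
    rw [← h5, zpow_sub₀ hz, zpow_natCast]
    push_cast
    rw [coe_resD]
    field_simp
  · rw [coe_resD, hb, h2]
    simp [hb]

end Hyp

end Sl2H

end Vale.Agent.P282Y
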