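import Vale.Agent.P282Y.Loc

/-!
# P282Y: a local ring essentially of finite type with residue field `ℂ` is a ring `Loc v h`
-/

open IsLocalRing

noncomputable section

namespace Vale.Agent.P282Y

/-- a local subalgebra dominated by `v` is the local ring of an affine model -/
theorem toLoc_of {K : Type} [Field K] [Algebra ℂ K] {Γ : Type} [LinearOrderedCommGroupWithZero Γ]
    (v : Valuation K Γ) (hv : Zd v) (S : Subalgebra ℂ K) (he : Algebra.EssFiniteType ℂ S)
    (h1 : ∀ a : S, v (a : K) ≤ 1) (h2 : ∀ a : S, v (a : K) = 1 → IsUnit a) :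
    ∃ (h : Set K) (_ : Md v h), S = Loc v h := by
  obtain ⟨σ, hσ⟩ := (Algebra.essFiniteType_iff ℂ S).1 he
  have hm : Md v (Subtype.val '' (σ : Set S)) :=
    ⟨hv, σ.finite_toSet.image _, by rintro _ ⟨a, -, rfl⟩; exact h1 a⟩
  have key : ∀ a : S, a ∈ Algebra.adjoin ℂ (σ : Set S) →
      (a : K) ∈ Algebra.adjoin ℂ (Subtype.val '' (σ : Set S)) := by
    intro a ha
    have := AlgHom.map_adjoin S.val (σ : Set S)
    rw [show (Subtype.val '' (σ : Set S)) = S.val '' (σ : Set S) from rfl, ← this]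
    exact ⟨a, ha, rfl⟩
  have hle : Algebra.adjoin ℂ (Subtype.val '' (σ : Set S)) ≤ S :=
    Algebra.adjoin_le (by rintro _ ⟨a, -, rfl⟩; exact a.2)
  refine ⟨_, hm, le_antisymm (fun s hs => ?_) ?_⟩
  · obtain ⟨t, ht, hu, hst⟩ := hσ ⟨s, hs⟩
    refine ⟨_, key _ hst, _, key _ ht, ?_, rfl⟩
    obtain ⟨u, rfl⟩ := hu
    have h3 : v ((u : S) : K) * v ((u⁻¹ : Sˣ) : S) = 1 := by
      rw [← map_mul, ← MulMemClass.coe_mul, u.mul_inv]; simp
    refine le_antisymm (h1 _) ?_
    calc 1 = _ := h3.symm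
      _ ≤ _ := mul_le_of_le_one_right' (h1 _)
  · rintro x ⟨a, ha, b, hb, h3, rfl⟩
    obtain ⟨u, hu⟩ := h2 ⟨b, hle hb⟩ h3
    have h4 : b * ((u⁻¹ : Sˣ) : S) = 1 := by
      have := congrArg Subtype.val u.mul_inv
      rwa [hu] at this
    have := mul_mem (hle ha) ((u⁻¹ : Sˣ) : S).2
    rwa [mul_assoc, h4, mul_one] at this

theorem res_of_surj {S : Type} [CommRing S] [Algebra ℂ S] [IsLocalRing S]
    (hr : Function.Surjective (algebraMap ℂ (ResidueField S))) (a : S) :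
    ∃ c : ℂ, a - algebraMap ℂ S c ∈ maximalIdeal S := by
  obtain ⟨c, hc⟩ := hr (residue S a)
  refine ⟨c, (residue_eq_zero_iff _).1 ?_⟩
  rw [map_sub, ← hc, sub_eq_zero]
  rfl

theorem toLoc (hC : StCHEV) {K : Type} [Field K] [Algebra ℂ K] (S : Subalgebra ℂ K)
    [IsLocalRing S] (he : Algebra.EssFiniteType ℂ S)
    (hr : Function.Surjective (algebraMap ℂ (ResidueField S))) :
    ∃ (O : ValuationSubring K) (h : Set K) (_ : Md O.valuation h), S = Loc O.valuation h := by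
  obtain ⟨O, hz, hO⟩ := hC K S (maximalIdeal S) (maximalIdeal.isMaximal S).ne_top (res_of_surj hr)
  obtain ⟨h, hm, e⟩ := toLoc_of O.valuation hz S he (fun a => (hO a).1) fun a ha => by
    by_contra h1
    exact ((hO a).2.2 ((mem_maximalIdeal _).2 h1)).ne ha
  exact ⟨O, h, hm, e⟩

end Vale.Agent.P282Y
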