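import Vale.Agent.P282.Gap.Germ

/-!
# P282: discrepancies, klt germs and the normalized volume, defined on birational models
-/

open scoped NNReal ENNReal
open IsLocalRing Vale.Agent.P282.Gap

noncomputable section

namespace Vale.Agent.P282Y

section field

variable {K : Type} [Field K] [Algebra ℂ K]

/-- The value of `d b₁ ∧ ⋯ ∧ d bₙ` on the vector fields `D₁, …, Dₙ`. -/
def jac {n : ℕ} (D : Fin n → Derivation ℂ K K) (b : Fin n → K) : K :=
  Matrix.det (Matrix.of fun i j => D i (b j))

/-- `k` is the order of zero of the pluricanonical form `ω` along the prime divisor `E` with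
`ord_E = - log w`: `ω = g • θ ^ r`, `ord_E g = k`, where `θ = d b₁ ∧ ⋯ ∧ d bₙ` generates the module
of the top forms which are regular along `E`. -/
def IsOrd (n r : ℕ) (ω : (Fin n → Derivation ℂ K K) → K) (w : Valuation K ℝ≥0) (k : ℤ) : Prop :=
  ∃ (b : Fin n → K) (g : K), (∀ i, w (b i) ≤ 1) ∧
    (∀ c : Fin n → K, (∀ i, w (c i) ≤ 1) → ∃ e : K, w e ≤ 1 ∧ ∀ D, jac D c = e * jac D b) ∧
    (∀ D, ω D = g * jac D b ^ r) ∧ (w g : ℝ) = Real.exp (-(k : ℝ))

end field

variable (R : Type) {K : Type} [CommRing R] [IsDomain R] [IsLocalRing R] [Algebra ℂ R]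
  [Field K] [Algebra ℂ K] [Algebra R K]

/-- `- log w = ord_E` for a prime divisor `E` over `X`: the value group is `ℤ`, the valuation has a
center on `Spec R`, and its ring is a local ring of an affine variety `Spec A`. -/
structure IsDivisor (w : Valuation K ℝ≥0) : Prop where
  normalized : IsNormalized w
  above : ∀ f : R, w (algebraMap R K f) ≤ 1
  model : ∃ A : Subalgebra ℂ K, A.FG ∧ (∀ a ∈ A, w a ≤ 1) ∧
    ∀ x : K, w x ≤ 1 → ∃ a ∈ A, ∃ b ∈ A, w b = 1 ∧ x * b = a

/-- `R` is the local ring of a normal complex variety `X` of dimension `n` at a closed point and `ω`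
is a rational section of `r K_X`. -/
structure IsGerm (n r : ℕ) (ω : (Fin n → Derivation ℂ K K) → K) : Prop where
  essFiniteType : Algebra.EssFiniteType ℂ R
  normal : IsIntegrallyClosed R
  residue : Function.Surjective (algebraMap ℂ (ResidueField R))
  dim : Algebra.trdeg ℂ R = n
  index_pos : 0 < r
  form : IsPluriForm n r ω

/-- `ω` is a local generator of `r K_X` (no zero or pole along the prime divisors of `X`), and the
log discrepancy `1 + ord_E(ω) / r` of every prime divisor `E` over `X` is positive. -/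
structure IsKlt (n r : ℕ) (ω : (Fin n → Derivation ℂ K K) → K) : Prop where
  canonical : ∀ (w : Valuation K ℝ≥0) (P : Ideal R), IsDivisor R w → HasCenter R w P →
    P.height = 1 → IsOrd n r ω w 0
  klt : ∀ (w : Valuation K ℝ≥0) (k : ℤ), IsDivisor R w → IsOrd n r ω w k → 0 < 1 + (k : ℝ) / r

/-- A log smooth model `(Y, D)` over `X` near a closed point `η` of `Y`: `S = 𝒪_{Y,η}` is regular
with parameters `y i`, `D = ∑_{i ∈ J} E_i` with `E_i = {y i = 0}`, and
`r K_{Y/X} = ∑_{i ∈ J} m i • E_i` near `η`. -/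
structure SncChart (n r : ℕ) (ω : (Fin n → Derivation ℂ K K) → K) where
  S : Subalgebra ℂ K
  [regular : IsRegularLocalRing S]
  essFiniteType : Algebra.EssFiniteType ℂ S
  residue : Function.Surjective (algebraMap ℂ (ResidueField S))
  above : ∀ f : R, algebraMap R K f ∈ S
  y : Fin n → S
  span : maximalIdeal S = Ideal.span (Set.range y)
  J : Finset (Fin n)
  m : Fin n → ℤ
  supp : ∀ i, i ∉ J → m i = 0
  u : Sˣ
  form : ∀ D, ω D = ((u : S) : K) * (∏ i, (y i : K) ^ m i) * jac D (fun i => (y i : K)) ^ r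

namespace SncChart

variable {R} {n r : ℕ} {ω : (Fin n → Derivation ℂ K K) → K} (c : SncChart R n r ω)

/-- The valuation has a center on `Spec 𝒪_{Y,η}`. -/
def Sees (v : Valuation K ℝ≥0) : Prop := ∀ s : c.S, v s ≤ 1

/-- The log discrepancy `∑ v(E_i) A(E_i)` of the retraction of `- log v` to the dual complex of
`(Y, D)`, with `A(E_i) = 1 + m i / r`. -/
def discr (v : Valuation K ℝ≥0) : ℝ :=
  ∑ i ∈ c.J, -Real.log (v (c.y i)) * (1 + (c.m i : ℝ) / r)

/-- `- log v` is monomial in the equations of the components of `D` (quasi-monomial). -/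
def Monomial (v : Valuation K ℝ≥0) : Prop :=
  c.Sees v ∧ ∀ f : c.S, f ∈ Ideal.span
    {x : c.S | v x ≤ v f ∧ ∃ β : Fin n → ℕ, x = ∏ i ∈ c.J, c.y i ^ β i}

end SncChart

/-- The log discrepancy of a real valuation: the supremum over the log smooth models of the log
discrepancies of its retractions. -/
def logDiscr (n r : ℕ) (ω : (Fin n → Derivation ℂ K K) → K) (v : Valuation K ℝ≥0) : ℝ≥0∞ :=
  ⨆ (c : SncChart R n r ω) (_ : c.Sees v), ENNReal.ofReal (c.discr v)

/-- The normalized volume: the infimum of `A(v) ^ n * vol(v)` over the real valuations centered at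
the closed point (those with `A(v) = ∞` contribute `∞`). -/
def nvol (n r : ℕ) (ω : (Fin n → Derivation ℂ K K) → K) : ℝ≥0∞ :=
  ⨅ (v : Valuation K ℝ≥0) (_ : HasCenter R v (maximalIdeal R)) (_ : logDiscr R n r ω v ≠ ⊤),
    logDiscr R n r ω v ^ n * vol R n v

/-- The definitions fit together: the prime divisors of `X` are prime divisors over `X`, orders along
prime divisors exist, every valuation has a center on a log smooth model, the components of a model
are prime divisors, `logDiscr` has the expected values on divisorial and on quasi-monomial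
valuations, and it is positive on the nontrivial valuations in the klt case. -/
structure Consistent (n r : ℕ) (ω : (Fin n → Derivation ℂ K K) → K) : Prop where
  prime : ∀ P : Ideal R, P.IsPrime → P.height = 1 →
    ∃ w : Valuation K ℝ≥0, IsDivisor R w ∧ HasCenter R w P
  ord : ∀ w : Valuation K ℝ≥0, IsDivisor R w → ∃! k : ℤ, IsOrd n r ω w k
  chart : ∀ v : Valuation K ℝ≥0, (∀ f : R, v (algebraMap R K f) ≤ 1) →
    ∃ c : SncChart R n r ω, c.Sees v
  component : ∀ (c : SncChart R n r ω) (i : Fin n), ∃ w : Valuation K ℝ≥0, IsDivisor R w ∧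
    c.Sees w ∧ (∀ s : c.S, w s < 1 ↔ s ∈ Ideal.span {c.y i}) ∧ IsOrd n r ω w (c.m i)
  divisorial : ∀ (w : Valuation K ℝ≥0) (k : ℤ), IsDivisor R w → IsOrd n r ω w k →
    logDiscr R n r ω w = ENNReal.ofReal (1 + (k : ℝ) / r)
  monomial : ∀ (c : SncChart R n r ω) (v : Valuation K ℝ≥0), c.Monomial v →
    logDiscr R n r ω v = ENNReal.ofReal (c.discr v)
  pos : IsKlt R n r ω → ∀ (v : Valuation K ℝ≥0) (P : Ideal R), HasCenter R v P → P ≠ ⊥ →
    0 < logDiscr R n r ω v

end Vale.Agent.P282Y
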